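import Vale.Agent.P205.Tori.Defs

/-!
P205, tori, module Uniform: a local diffeomorphism of the plane at bounded distance from a linear
isomorphism is a global diffeomorphism.
-/

namespace P205.Tori

open Set Function Topology

theorem exists_smooth_inverse (Z : ℝ × ℝ → ℝ × ℝ) (L : (ℝ × ℝ) ≃L[ℝ] ℝ × ℝ)
    (hZ : ContDiff ℝ (⊤ : ℕ∞) Z) (hd : ∀ z, Injective (fderiv ℝ Z z))
    (hb : ∃ C : ℝ, ∀ z, ‖Z z - L z‖ ≤ C) :
    ∃ Y : ℝ × ℝ → ℝ × ℝ, ContDiff ℝ (⊤ : ℕ∞) Y ∧ (∀ z, Y (Z z) = z) ∧ ∀ w, Z (Y w) = w := by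
  obtain ⟨C, hC⟩ := hb
  have hdiff : Differentiable ℝ Z := hZ.differentiable (by simp)
  let D : ℝ × ℝ → (ℝ × ℝ) ≃L[ℝ] ℝ × ℝ := fun z =>
    (LinearEquiv.ofInjectiveEndo (fderiv ℝ Z z : (ℝ × ℝ) →ₗ[ℝ] ℝ × ℝ)
      (hd z)).toContinuousLinearEquiv
  have hD : ∀ z, HasFDerivAt Z (D z : (ℝ × ℝ) →L[ℝ] ℝ × ℝ) z := fun z => by
    have : (D z : (ℝ × ℝ) →L[ℝ] ℝ × ℝ) = fderiv ℝ Z z := ContinuousLinearMap.ext fun w => rfl
    rw [this]; exact (hdiff z).hasFDerivAt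
  have hloc : ∀ z, ∃ φ : OpenPartialHomeomorph (ℝ × ℝ) (ℝ × ℝ), z ∈ φ.source ∧ φ = Z := fun z => by
    have hs : HasStrictFDerivAt Z (D z : (ℝ × ℝ) →L[ℝ] ℝ × ℝ) z :=
      hZ.contDiffAt.hasStrictFDerivAt' (hD z) (by simp)
    exact ⟨hs.toOpenPartialHomeomorph Z, hs.mem_toOpenPartialHomeomorph_source,
      hs.toOpenPartialHomeomorph_coe⟩
  -- properness
  have hproper : IsProperMap Z := by
    refine isProperMap_iff_isCompact_preimage.mpr ⟨hZ.continuous, fun K hK => ?_⟩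
    obtain ⟨R, hR⟩ := hK.isBounded.exists_norm_le
    refine Metric.isCompact_of_isClosed_isBounded (hK.isClosed.preimage hZ.continuous) ?_
    refine (isBounded_iff_forall_norm_le).mpr
      ⟨‖(L.symm : (ℝ × ℝ) →L[ℝ] ℝ × ℝ)‖ * (R + C), fun z hz => ?_⟩
    have h1 : ‖L z‖ ≤ R + C := by
      have h2 := hR (Z z) hz
      have h3 := hC z
      have := norm_sub_le (Z z) (Z z - L z)
      rw [sub_sub_cancel] at this
      linarith
    calc ‖z‖ = ‖(L.symm : (ℝ × ℝ) →L[ℝ] ℝ × ℝ) (L z)‖ := by simp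
      _ ≤ _ := ((L.symm : (ℝ × ℝ) →L[ℝ] ℝ × ℝ).le_opNorm _).trans
          (mul_le_mul_of_nonneg_left h1 (norm_nonneg _))
  have hfin : ∀ w, (Z ⁻¹' {w}).Finite := fun w =>
    (hproper.isCompact_preimage isCompact_singleton).finite
      (IsDiscrete.of_openPartialHomeomorph Z subset_rfl fun e _ => hloc e)
  have hcov : IsCoveringMap Z :=
    isCoveringMap_iff_isCoveringMapOn_univ.mpr fun w _ =>
      hproper.isClosedMap.isEvenlyCovered_of_openPartialHomeomorph (hfin w) fun e _ => hloc e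
  obtain ⟨Y, ⟨hY0, hY⟩, -⟩ := hcov.existsUnique_continuousMap_lifts
    (ContinuousMap.id (ℝ × ℝ)) (Z 0) 0 rfl
  have hZY : ∀ w, Z (Y w) = w := fun w => congrFun hY w
  have hYZ : ∀ z, Y (Z z) = z := by
    have := hcov.eq_of_comp_eq (g₁ := Y ∘ Z) (g₂ := id) (Y.continuous.comp hZ.continuous)
      continuous_id (funext fun z => hZY (Z z)) 0 hY0
    exact fun z => congrFun this z
  let e : (ℝ × ℝ) ≃ₜ ℝ × ℝ :=
    { toFun := Z
      invFun := Y
      left_inv := hYZ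
      right_inv := hZY
      continuous_toFun := hZ.continuous
      continuous_invFun := Y.continuous }
  exact ⟨Y, e.contDiff_symm hD hZ, hYZ, hZY⟩

end P205.Tori
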