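import Vale.Agent.P205.Tori.Defs

/-!
P205, tori: the statements of the three independent modules (nothing is assumed here).
-/

namespace P205.Tori

/-- Analysis: a family of small solutions, continuous in the parameter with two derivatives. -/
def SolveStmt : Prop :=
  ∀ (l₁ l₂ : ℝ × ℝ), l₁.1 * l₂.2 - l₁.2 * l₂.1 ≠ 0 →
    ∀ v : ℝ × ℝ → ℝ, ContDiff ℝ (⊤ : ℕ∞) v → Periodic2 v l₁ l₂ →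
      ∃ ε₀ : ℝ, 0 < ε₀ ∧ ∃ r : ℝ → ℝ × ℝ → ℝ, (∀ z, r 0 z = 0) ∧
        (∀ ε ∈ Set.Icc 0 ε₀, ContDiff ℝ (⊤ : ℕ∞) (r ε) ∧ Periodic2 (r ε) l₁ l₂ ∧
          Solves v (r ε) ε) ∧
        ContinuousOn (fun p : ℝ × ℝ × ℝ => r p.1 p.2) (Set.Icc 0 ε₀ ×ˢ Set.univ) ∧
        ContinuousOn (fun p : ℝ × ℝ × ℝ => fderiv ℝ (r p.1) p.2) (Set.Icc 0 ε₀ ×ˢ Set.univ) ∧
        ContinuousOn (fun p : ℝ × ℝ × ℝ => fderiv ℝ (fderiv ℝ (r p.1)) p.2)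
          (Set.Icc 0 ε₀ ×ˢ Set.univ)

/-- Flat tori in the unit sphere: every shape near `(a₀, b₀)`, for every large winding. -/
def HopfStmt : Prop :=
  ∀ a₀ b₀ : ℝ, 0 < b₀ → ∃ δ : ℝ, 0 < δ ∧ ∃ k₀ : ℕ, ∀ k : ℕ, k₀ ≤ k →
    ∀ a b : ℝ, |a - a₀| < δ → |b - b₀| < δ →
      ∃ Φ : ℝ × ℝ → R4, ContDiff ℝ (⊤ : ℕ∞) Φ ∧ (∀ z, ‖Φ z‖ = 1) ∧
        Periodic2 Φ (0, 2 * Real.pi) (2 * Real.pi * k * b, 2 * Real.pi * k * a) ∧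
        ∀ z w w', inner ℝ (fderiv ℝ Φ z w) (fderiv ℝ Φ z w') = dot w w'

/-- The developing map: a flat metric of this form is a pullback of the plane, by a map which
moves the periods to translations. -/
def DevelopStmt : Prop :=
  ∀ (l₁ l₂ : ℝ × ℝ), 0 < l₁.1 * l₂.2 - l₁.2 * l₂.1 →
    ∀ v : ℝ × ℝ → ℝ, ContDiff ℝ (⊤ : ℕ∞) v → Periodic2 v l₁ l₂ →
      ∀ ε₀ : ℝ, 0 < ε₀ → ∀ r : ℝ → ℝ × ℝ → ℝ, (∀ z, r 0 z = 0) →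
        (∀ ε ∈ Set.Icc 0 ε₀, ContDiff ℝ (⊤ : ℕ∞) (r ε) ∧ Periodic2 (r ε) l₁ l₂ ∧
          Solves v (r ε) ε) →
        ContinuousOn (fun p : ℝ × ℝ × ℝ => r p.1 p.2) (Set.Icc 0 ε₀ ×ˢ Set.univ) →
        ContinuousOn (fun p : ℝ × ℝ × ℝ => fderiv ℝ (r p.1) p.2) (Set.Icc 0 ε₀ ×ˢ Set.univ) →
        ContinuousOn (fun p : ℝ × ℝ × ℝ => fderiv ℝ (fderiv ℝ (r p.1)) p.2)
          (Set.Icc 0 ε₀ ×ˢ Set.univ) →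
        ∃ ε₁ : ℝ, 0 < ε₁ ∧ ε₁ ≤ ε₀ ∧ ∃ d₁ d₂ : ℝ → ℝ × ℝ,
          ContinuousOn d₁ (Set.Icc 0 ε₁) ∧ ContinuousOn d₂ (Set.Icc 0 ε₁) ∧
          d₁ 0 = l₁ ∧ d₂ 0 = l₂ ∧
          ∀ ε ∈ Set.Icc 0 ε₁, ∃ Z : ℝ × ℝ → ℝ × ℝ, ContDiff ℝ (⊤ : ℕ∞) Z ∧
            (∀ z, Z (z + l₁) = Z z + d₁ ε ∧ Z (z + l₂) = Z z + d₂ ε) ∧
            ∀ z w w', dot (fderiv ℝ Z z w) (fderiv ℝ Z z w')
              = Real.exp (-2 * r ε z) * dot w w'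
                - ε * fderiv ℝ (v + r ε) z w * fderiv ℝ (v + r ε) z w'

/-- The goal: every metric conformal to a flat torus is induced by an immersion into `ℝ⁴`. -/
def GoalStmt : Prop :=
  ∀ (l₁ l₂ : ℝ × ℝ), l₁.1 * l₂.2 - l₁.2 * l₂.1 ≠ 0 →
    ∀ v : ℝ × ℝ → ℝ, ContDiff ℝ (⊤ : ℕ∞) v → Periodic2 v l₁ l₂ →
      ∃ F : ℝ × ℝ → R4, ContDiff ℝ (⊤ : ℕ∞) F ∧ Periodic2 F l₁ l₂ ∧
        ∀ z w w', inner ℝ (fderiv ℝ F z w) (fderiv ℝ F z w') = Real.exp (2 * v z) * dot w w'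

/-- A smooth metric on the torus `ℝ² / ℤ²`, in coordinates. -/
structure TorusMetric where
  g₁₁ : ℝ × ℝ → ℝ
  g₁₂ : ℝ × ℝ → ℝ
  g₂₂ : ℝ × ℝ → ℝ
  smooth₁₁ : ContDiff ℝ (⊤ : ℕ∞) g₁₁
  smooth₁₂ : ContDiff ℝ (⊤ : ℕ∞) g₁₂
  smooth₂₂ : ContDiff ℝ (⊤ : ℕ∞) g₂₂
  periodic₁₁ : Periodic2 g₁₁ (1, 0) (0, 1)
  periodic₁₂ : Periodic2 g₁₂ (1, 0) (0, 1)
  periodic₂₂ : Periodic2 g₂₂ (1, 0) (0, 1)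
  pos₁₁ : ∀ z, 0 < g₁₁ z
  pos_det : ∀ z, 0 < g₁₁ z * g₂₂ z - g₁₂ z ^ 2

/-- The inner product of a metric. -/
noncomputable def TorusMetric.val (g : TorusMetric) (z w w' : ℝ × ℝ) : ℝ :=
  g.g₁₁ z * (w.1 * w'.1) + g.g₁₂ z * (w.1 * w'.2 + w.2 * w'.1) + g.g₂₂ z * (w.2 * w'.2)

/-- Uniformization of tori: global conformal coordinates. -/
def UniformStmt : Prop :=
  ∀ g : TorusMetric, ∃ (l₁ l₂ : ℝ × ℝ) (v : ℝ × ℝ → ℝ) (Z : ℝ × ℝ → ℝ × ℝ),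
    l₁.1 * l₂.2 - l₁.2 * l₂.1 ≠ 0 ∧ ContDiff ℝ (⊤ : ℕ∞) v ∧ Periodic2 v l₁ l₂ ∧
      ContDiff ℝ (⊤ : ℕ∞) Z ∧ Function.Bijective Z ∧
      (∀ z, Z (z + (1, 0)) = Z z + l₁ ∧ Z (z + (0, 1)) = Z z + l₂) ∧
      ∀ z w w', g.val z w w'
        = Real.exp (2 * v (Z z)) * dot (fderiv ℝ Z z w) (fderiv ℝ Z z w')

/-- The final goal: every metric on the torus is induced by an immersion into `ℝ⁴`. -/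
def MetricGoalStmt : Prop :=
  ∀ g : TorusMetric, ∃ F : ℝ × ℝ → R4, ContDiff ℝ (⊤ : ℕ∞) F ∧ Periodic2 F (1, 0) (0, 1) ∧
    ∀ z w w', inner ℝ (fderiv ℝ F z w) (fderiv ℝ F z w') = g.val z w w'

end P205.Tori
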