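import Vale.Agent.P205.Tori.Beltrami
import Vale.Agent.P205.Tori.GlobalInverse
import Vale.Agent.P205.Tori.Interfaces

/-!
P205, tori, module Uniform: every metric on the torus has global isothermal coordinates.
-/

namespace P205.Tori.Fourier

open MeasureTheory Complex
open scoped ComplexConjugate

theorem SP.add {f g : ℝ × ℝ → ℂ} (hf : SP f) (hg : SP g) : SP (fun z => f z + g z) :=
  ⟨hf.1.add hg.1, fun z => ⟨by simp only [(hf.2 z).1, (hg.2 z).1],
    by simp only [(hf.2 z).2, (hg.2 z).2]⟩⟩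

theorem SP.mul {f g : ℝ × ℝ → ℂ} (hf : SP f) (hg : SP g) : SP (fun z => f z * g z) :=
  ⟨hf.1.mul hg.1, (cp_mul hf.cp hg.cp).2⟩

theorem sp_const (c : ℂ) : SP (fun _ => c) := ⟨contDiff_const, fun _ => ⟨rfl, rfl⟩⟩

theorem SP.const_mul {f : ℝ × ℝ → ℂ} (hf : SP f) (c : ℂ) : SP (fun z => c * f z) :=
  (sp_const c).mul hf

theorem SP.cexp {f : ℝ × ℝ → ℂ} (hf : SP f) : SP (fun z => Complex.exp (f z)) :=
  ⟨hf.1.cexp, fun z => ⟨by simp only [(hf.2 z).1], by simp only [(hf.2 z).2]⟩⟩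

/-- A continuous periodic function attains its maximum. -/
theorem exists_max_per {f : ℝ × ℝ → ℝ} (hc : Continuous f)
    (hp : Periodic2 f (1, 0) (0, 1)) : ∃ z₀, ∀ z, f z ≤ f z₀ := by
  obtain ⟨z₀, -, hz₀⟩ := (isCompact_Icc.prod isCompact_Icc).exists_isMaxOn
    (s := Set.Icc (0 : ℝ) 1 ×ˢ Set.Icc (0 : ℝ) 1)
    ⟨(0, 0), Set.mk_mem_prod (by simp) (by simp)⟩ hc.continuousOn
  refine ⟨z₀, fun z => ?_⟩
  have h := per_int (f := fun z => (f z : ℂ)) (fun z => ⟨by simp only [(hp z).1],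
    by simp only [(hp z).2]⟩) z (-⌊z.1⌋) (-⌊z.2⌋)
  have hmem : z + (((-⌊z.1⌋ : ℤ) : ℝ), ((-⌊z.2⌋ : ℤ) : ℝ))
      ∈ Set.Icc (0 : ℝ) 1 ×ˢ Set.Icc (0 : ℝ) 1 := by
    refine Set.mk_mem_prod ⟨?_, ?_⟩ ⟨?_, ?_⟩ <;> simp only [Int.cast_neg] <;>
      linarith [Int.floor_le z.1, Int.lt_floor_add_one z.1, Int.floor_le z.2,
        Int.lt_floor_add_one z.2]
  calc f z = f (z + (((-⌊z.1⌋ : ℤ) : ℝ), ((-⌊z.2⌋ : ℤ) : ℝ))) := (by exact_mod_cast h.symm)
    _ ≤ f z₀ := hz₀ hmem

theorem coef_ser {a : K → ℂ} (ha : RD a) (k : K) : coef (ser a) k = a k := by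
  have hint : ∀ l, Integrable (fun z => e (-k) z * (a l * e l z)) (volume.restrict square) :=
    fun l => integrableOn_square ((continuous_e _).mul (continuous_const.mul (continuous_e l)))
  have hsum : Summable (fun l => ∫ z in square, ‖e (-k) z * (a l * e l z)‖) := by
    simpa [norm_e, measureReal_def, volume_square] using ha.summable_norm
  have h1 : coef (ser a) k = ∑' l, ∫ z in square, e (-k) z * (a l * e l z) := by
    rw [coef, integral_tsum_of_summable_integral_norm hint hsum]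
    refine integral_congr_ae (Filter.Eventually.of_forall fun z => ?_)
    simp [ser, tsum_mul_left]
  have h2 : ∀ l, ∫ z in square, e (-k) z * (a l * e l z) = if k = l then a l else 0 := fun l => by
    show coef (fun z => a l * e l z) k = _
    rw [coef_const_mul, coef_e]; simp
  rw [h1, tsum_eq_single k (fun l hl => by rw [h2, if_neg (Ne.symm hl)]), h2, if_pos rfl]

/-- A closed periodic one-form is the sum of a constant one and the differential of a periodic
function. -/
theorem exists_prim {P Q : ℝ × ℝ → ℂ} (hP : SP P) (hQ : SP Q)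
    (hc : ∀ z, fderiv ℝ P z (0, 1) = fderiv ℝ Q z (1, 0)) :
    ∃ q, SP q ∧ ∀ z, fderiv ℝ q z (1, 0) = P z - coef P 0 ∧
      fderiv ℝ q z (0, 1) = Q z - coef Q 0 := by
  set a : K → ℂ := fun k => if k 0 ≠ 0 then coef P k / (2 * Real.pi * (k 0 : ℝ) * I)
    else if k 1 ≠ 0 then coef Q k / (2 * Real.pi * (k 1 : ℝ) * I) else 0 with ha_def
  have hne : ∀ m : ℤ, m ≠ 0 → (2 * Real.pi * (m : ℝ) * I : ℂ) ≠ 0 := fun m hm => by
    simp [Real.pi_ne_zero, I_ne_zero, hm]
  have hone : ∀ m : ℤ, m ≠ 0 → 1 ≤ ‖(2 * Real.pi * (m : ℝ) * I : ℂ)‖ := fun m hm => by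
    have h1 : (1 : ℝ) ≤ |(m : ℝ)| := by exact_mod_cast Int.one_le_abs hm
    simp [abs_of_pos Real.pi_pos]
    nlinarith [Real.pi_gt_three]
  have ha : RD a := by
    intro n
    obtain ⟨C, hC⟩ := rd_coef hP n
    obtain ⟨D, hD⟩ := rd_coef hQ n
    refine ⟨C + D, fun k => ?_⟩
    have hb : ‖a k‖ ≤ ‖coef P k‖ + ‖coef Q k‖ := by
      rw [ha_def]
      simp only []
      split_ifs with h0 h1
      · rw [norm_div]
        exact (div_le_self (norm_nonneg _) (hone _ h0)).trans
          (le_add_of_nonneg_right (norm_nonneg _))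
      · rw [norm_div]
        exact (div_le_self (norm_nonneg _) (hone _ h1)).trans
          (le_add_of_nonneg_left (norm_nonneg _))
      · simp [add_nonneg]
    calc ‖a k‖ * (1 + nk k) ^ n ≤ (‖coef P k‖ + ‖coef Q k‖) * (1 + nk k) ^ n :=
          mul_le_mul_of_nonneg_right hb (pow_nonneg (nk1_pos k).le n)
      _ ≤ C + D := by rw [add_mul]; exact add_le_add (hC k) (hD k)
  have hrel : ∀ k : K, (2 * Real.pi * (k 1 : ℝ) * I : ℂ) * coef P k
      = (2 * Real.pi * (k 0 : ℝ) * I : ℂ) * coef Q k := fun k => by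
    rw [← coef_dy hP, ← coef_dx hQ]; simp only [hc]
  have hk0 : ∀ k : K, k 0 = 0 → k 1 = 0 → k = 0 := fun k h0 h1 =>
    funext fun i => by fin_cases i <;> assumption
  refine ⟨ser a, sp_ser ha, fun z => ?_⟩
  have key : ∀ (F : ℝ × ℝ → ℂ) (v : ℝ × ℝ), SP F →
      (∀ k, k ≠ 0 → phase k v * a k = coef F k) →
      fderiv ℝ (ser a) z v = F z - coef F 0 := by
    intro F v hF h
    rw [fderiv_ser ha, ← ser_coef hF z]
    have h0 : phase 0 v * a 0 = 0 := by simp [ha_def]
    have hs := (summable_ser (rd_coef hF) z).tsum_eq_add_tsum_ite (0 : K)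
    rw [show ser (coef F) z = ∑' k, coef F k * e k z from rfl, hs, e_zero, mul_one, add_sub_cancel_left]
    refine tsum_congr fun k => ?_
    split_ifs with hk
    · simp [dcoef, hk, h0]
    · rw [dcoef, h k hk]
  refine ⟨key P _ hP fun k hk => ?_, key Q _ hQ fun k hk => ?_⟩
  · rw [phase_apply]
    have hr := hrel k
    simp only [ha_def]
    by_cases h0 : k 0 = 0
    · have h1 : k 1 ≠ 0 := fun h1 => hk (hk0 k h0 h1)
      rw [h0] at hr
      have : coef P k = 0 := by
        simp [Real.pi_ne_zero, I_ne_zero, h1] at hr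
        exact hr
      simp [h0, this]
    · rw [if_pos h0, mul_one, mul_zero, add_zero]
      push_cast
      field_simp [hne _ h0]
  · rw [phase_apply]
    have hr := hrel k
    simp only [ha_def, mul_one, mul_zero, zero_add]
    by_cases h0 : k 0 = 0
    · have h1 : k 1 ≠ 0 := fun h1 => hk (hk0 k h0 h1)
      rw [if_neg (not_not.mpr h0), if_pos h1]
      push_cast
      field_simp [hne _ h1]
    · rw [if_pos h0, mul_div_assoc', div_eq_iff (hne _ h0)]
      push_cast at hr ⊢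
      linear_combination hr

theorem fderiv_cmul {f g : ℝ × ℝ → ℂ} (hf : Differentiable ℝ f) (hg : Differentiable ℝ g)
    (z v : ℝ × ℝ) :
    fderiv ℝ (fun y => f y * g y) z v = f z * fderiv ℝ g z v + g z * fderiv ℝ f z v := by
  rw [fderiv_fun_mul (hf z) (hg z)]; simp

theorem fderiv_cadd {f g : ℝ × ℝ → ℂ} (hf : Differentiable ℝ f) (hg : Differentiable ℝ g)
    (z v : ℝ × ℝ) :
    fderiv ℝ (fun y => f y + g y) z v = fderiv ℝ f z v + fderiv ℝ g z v := by
  rw [fderiv_fun_add (hf z) (hg z)]; simp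

theorem fderiv_cconst_mul {f : ℝ × ℝ → ℂ} (hf : Differentiable ℝ f) (c : ℂ) (z v : ℝ × ℝ) :
    fderiv ℝ (fun y => c * f y) z v = c * fderiv ℝ f z v := by
  rw [fderiv_const_mul (hf z)]; simp

/-- The solution `a` of `d (a (dz + μ dz̄)) = 0`: periodic, without zeros. -/
theorem exists_factor {μ : ℝ × ℝ → ℂ} (hμ : SP μ) {κ : ℝ} (hκ1 : κ < 1)
    (hκ : ∀ z, ‖μ z‖ ≤ κ) :
    ∃ a, SP a ∧ (∀ z, a z ≠ 0) ∧ ∀ z, fderiv ℝ (fun y => a y * (1 + μ y)) z (0, 1)
      = fderiv ℝ (fun y => I * (a y * (1 - μ y))) z (1, 0) := by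
  have hκ0 : 0 ≤ κ := (norm_nonneg _).trans (hκ 0)
  set μz : ℝ × ℝ → ℂ := fun z =>
    (2⁻¹ : ℂ) * (fderiv ℝ μ z (1, 0) + (-I) * fderiv ℝ μ z (0, 1)) with hμz_def
  have hμz : SP μz := ((hμ.pd _).add ((hμ.pd _).const_mul _)).const_mul _
  obtain ⟨x, hx, hfix⟩ := exists_beltrami hμ hκ1 hκ (rd_coef hμz)
  set h : K → ℂ := coef μz + conv (coef μ) x with hh_def
  have hh : RD h := (rd_coef hμz).add ((rd_coef hμ).conv hx)
  have hx0 : ∀ k, x k = S h k := hfix
  have hH : ∀ z, ser h z = μz z + μ z * ser x z := fun z => by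
    rw [hh_def, ser_add (rd_coef hμz) ((rd_coef hμ).conv hx), ← ser_mul (rd_coef hμ) hx,
      ser_coef hμz, ser_coef hμ]
  -- the logarithm
  set P : ℝ × ℝ → ℂ := fun z => ser x z + ser h z with hP_def
  set Q : ℝ × ℝ → ℂ := fun z => I * (ser x z + (-1) * ser h z) with hQ_def
  have hP : SP P := (sp_ser hx).add (sp_ser hh)
  have hQ : SP Q := ((sp_ser hx).add ((sp_ser hh).const_mul _)).const_mul _
  have hcl : ∀ z, fderiv ℝ P z (0, 1) = fderiv ℝ Q z (1, 0) := by
    intro z
    rw [hP_def, hQ_def, fderiv_cadd (differentiable_ser hx) (differentiable_ser hh),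
      fderiv_cconst_mul ((differentiable_ser hx).fun_add ((differentiable_ser hh).const_mul _)),
      fderiv_cadd (differentiable_ser hx) ((differentiable_ser hh).const_mul _),
      fderiv_cconst_mul (differentiable_ser hh), fderiv_ser hx, fderiv_ser hh, fderiv_ser hx,
      fderiv_ser hh, ← ser_add (hx.dcoef _) (hh.dcoef _), ← ser_smul (-1), ← ser_add (hx.dcoef _),
      ← ser_smul I]
    · refine congrArg (fun a => ser a z) (funext fun k => ?_)
      simp only [Pi.add_apply, Pi.smul_apply, smul_eq_mul, dcoef, phase_apply, hx0, S]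
      rcases eq_or_ne k 0 with hk | hk
      · simp [hk]
      · rw [if_neg hk]
        have hB := mB_ne_zero hk
        have hp : (Real.pi : ℂ) * I ≠ 0 := mul_ne_zero (by simp [Real.pi_ne_zero]) I_ne_zero
        simp only [mA, mB, mul_ne_zero_iff] at hB ⊢
        field_simp [hB.2, hp]
        push_cast
        ring_nf
        simp only [I_sq]
        ring
    · exact (hh.dcoef (1, 0)).of_le (C := 1) (m := 0) zero_le_one (fun k => by simp)
  obtain ⟨q, hq, hdq⟩ := exists_prim hP hQ hcl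
  set θ₁ : ℝ := 2 * (h 0).im with hθ₁
  set θ₂ : ℝ := -(2 * (h 0).re) with hθ₂
  have hx00 : x 0 = -conj (h 0) := by rw [hx0, S, if_pos rfl]
  have hP0 : coef P 0 = (θ₁ : ℂ) * I := by
    rw [hP_def, coef_add (sp_ser hx).1.continuous (sp_ser hh).1.continuous, coef_ser hx,
      coef_ser hh, hx00]
    apply Complex.ext <;> simp [θ₁] <;> ring
  have hQ0 : coef Q 0 = (θ₂ : ℂ) * I := by
    rw [hQ_def, coef_const_mul, coef_add (sp_ser hx).1.continuous
      ((sp_ser hh).const_mul _).1.continuous, coef_const_mul, coef_ser hx, coef_ser hh, hx00]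
    apply Complex.ext <;> simp [θ₂] <;> ring
  -- the periodic part
  set A : ℝ × ℝ → ℂ := fun z => Complex.exp (q z) with hA_def
  have hA : SP A := hq.cexp
  set U : ℝ × ℝ → ℂ := fun z => A z * (1 + μ z) with hU_def
  set V : ℝ × ℝ → ℂ := fun z => I * (A z * (1 + (-1) * μ z)) with hV_def
  have hU : SP U := hA.mul ((sp_const 1).add hμ)
  have hV : SP V := (hA.mul ((sp_const 1).add (hμ.const_mul _))).const_mul _
  have hdA : ∀ z v, fderiv ℝ A z v = A z * fderiv ℝ q z v := fun z v => by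
    rw [hA_def, ((hq.differentiable z).hasFDerivAt.cexp).fderiv]; simp
  have hUV : ∀ z, fderiv ℝ U z (0, 1) + (θ₂ : ℂ) * I * U z
      = fderiv ℝ V z (1, 0) + (θ₁ : ℂ) * I * V z := by
    intro z
    rw [hU_def, hV_def, fderiv_cmul hA.differentiable ((sp_const 1).add hμ).differentiable,
      fderiv_cconst_mul (hA.mul ((sp_const 1).add (hμ.const_mul _))).differentiable,
      fderiv_cmul hA.differentiable ((sp_const 1).add (hμ.const_mul _)).differentiable,
      fderiv_cadd (sp_const 1).differentiable hμ.differentiable,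
      fderiv_cadd (sp_const 1).differentiable (hμ.const_mul _).differentiable,
      fderiv_cconst_mul hμ.differentiable, hdA, hdA, (hdq z).1, (hdq z).2, hP0, hQ0]
    have := hH z
    simp only [hP_def, hQ_def, fderiv_fun_const, Pi.zero_apply,
      _root_.zero_apply, zero_add, hμz_def] at this ⊢
    linear_combination (norm := (ring_nf; simp only [I_sq]; ring_nf)) (-2 * I * A z) * this
  -- the character is periodic
  have hM : SP (fun z => μ z * A z) := hμ.mul hA
  set Ah := coef A with hAh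
  set Mh := coef (fun z => μ z * A z) with hMh
  have hUh : ∀ k, coef U k = Ah k + Mh k := fun k => by
    rw [hAh, hMh, ← coef_add hA.1.continuous hM.1.continuous]
    congr 1; funext z; simp only [hU_def]; ring
  have hVh : ∀ k, coef V k = I * (Ah k + (-1) * Mh k) := fun k => by
    rw [hAh, hMh, ← coef_const_mul (-1), ← coef_add hA.1.continuous (hM.const_mul _).1.continuous,
      ← coef_const_mul]
    congr 1; funext z; simp only [hV_def]; ring
  have hrel : ∀ k : K, ((2 * Real.pi * (k 1 : ℝ) + θ₂ : ℝ) : ℂ) * I * (Ah k + Mh k)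
      = ((2 * Real.pi * (k 0 : ℝ) + θ₁ : ℝ) : ℂ) * I * (I * (Ah k + (-1) * Mh k)) := by
    intro k
    have h1 : coef (fun z => fderiv ℝ U z (0, 1) + (θ₂ : ℂ) * I * U z) k
        = coef (fun z => fderiv ℝ V z (1, 0) + (θ₁ : ℂ) * I * V z) k := by simp only [hUV]
    rw [coef_add (hU.pd _).1.continuous (hU.const_mul _).1.continuous,
      coef_add (hV.pd _).1.continuous (hV.const_mul _).1.continuous, coef_dy hU, coef_dx hV,
      coef_const_mul ((θ₂ : ℂ) * I) U, coef_const_mul ((θ₁ : ℂ) * I) V, hUh, hVh] at h1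
    push_cast
    linear_combination h1
  obtain ⟨k₀, hk1, hk2⟩ : ∃ k : K, 2 * Real.pi * (k 0 : ℝ) + θ₁ = 0 ∧
      2 * Real.pi * (k 1 : ℝ) + θ₂ = 0 := by
    by_contra hcon
    push Not at hcon
    have heq : ∀ k, ‖Ah k‖ = ‖Mh k‖ := by
      intro k
      have hr := hrel k
      set p₀ : ℝ := 2 * Real.pi * (k 0 : ℝ) + θ₁
      set p₁ : ℝ := 2 * Real.pi * (k 1 : ℝ) + θ₂
      have h2 : ((p₀ : ℂ) + I * (p₁ : ℂ)) * Ah k = ((p₀ : ℂ) - I * (p₁ : ℂ)) * Mh k := by
        linear_combination (norm := (ring_nf; simp only [I_sq]; ring_nf)) hr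
      have h3 := congrArg (fun c : ℂ => ‖c‖) h2
      simp only [norm_mul] at h3
      have hconj : (p₀ : ℂ) - I * (p₁ : ℂ) = conj ((p₀ : ℂ) + I * (p₁ : ℂ)) := by
        simp [sub_eq_add_neg]
      rw [hconj, Complex.norm_conj] at h3
      refine mul_left_cancel₀ (norm_ne_zero_iff.mpr fun h0 => ?_) h3
      exact hcon k (by simpa using congrArg Complex.re h0) (by simpa using congrArg Complex.im h0)
    have hs1 := hasSum_sq_coef hA.cp
    have hs2 := hasSum_sq_coef hM.cp
    have hint : ∫ z in square, ‖μ z * A z‖ ^ 2 ≤ κ ^ 2 * ∫ z in square, ‖A z‖ ^ 2 := by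
      rw [← integral_const_mul]
      refine integral_mono ?_ ?_ fun z => ?_
      · exact ((continuous_norm.comp hM.1.continuous).pow 2).continuousOn.integrableOn_compact
          (isCompact_Icc.prod isCompact_Icc) |>.mono_set
          (Set.prod_mono Set.Ioc_subset_Icc_self Set.Ioc_subset_Icc_self)
      · exact (continuous_const.mul ((continuous_norm.comp hA.1.continuous).pow 2)).continuousOn
          |>.integrableOn_compact (isCompact_Icc.prod isCompact_Icc) |>.mono_set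
          (Set.prod_mono Set.Ioc_subset_Icc_self Set.Ioc_subset_Icc_self)
      · rw [norm_mul, mul_pow]
        exact mul_le_mul_of_nonneg_right (pow_le_pow_left₀ (norm_nonneg _) (hκ z) 2) (sq_nonneg _)
    have hsame : (fun k => ‖coef (fun z => μ z * A z) k‖ ^ 2) = fun k => ‖coef A k‖ ^ 2 :=
      funext fun k => by rw [← hMh, ← hAh, heq]
    rw [hsame] at hs2
    have hI := hs1.unique hs2
    have h0 : ∫ z in square, ‖A z‖ ^ 2 ≤ 0 := by
      nlinarith [mul_lt_one_of_nonneg_of_lt_one_left hκ0 hκ1 hκ1.le,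
        integral_nonneg (μ := volume.restrict square) (f := fun z => ‖A z‖ ^ 2)
          (fun z => sq_nonneg _)]
    have hzero : ∀ k, coef A k = 0 := fun k => by
      have := (le_hasSum hs1 k fun _ _ => sq_nonneg _).trans h0
      exact norm_eq_zero.mp (by nlinarith [norm_nonneg (coef A k)])
    have := ser_coef hA 0
    simp [ser, hzero] at this
    exact Complex.exp_ne_zero (q 0) this.symm
  refine ⟨fun z => e (-k₀) z * A z, (sp_e _).mul hA,
    fun z => mul_ne_zero (Complex.exp_ne_zero _) (Complex.exp_ne_zero _), fun z => ?_⟩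
  have e1 : (fun y => e (-k₀) y * A y * (1 + μ y)) = fun y => e (-k₀) y * U y := by
    funext y; simp only [hU_def]; ring
  have e2 : (fun y => I * (e (-k₀) y * A y * (1 - μ y))) = fun y => e (-k₀) y * V y := by
    funext y; simp only [hV_def]; ring
  rw [e1, e2, fderiv_cmul (sp_e _).differentiable hU.differentiable,
    fderiv_cmul (sp_e _).differentiable hV.differentiable, (hasFDerivAt_e _ z).fderiv]
  have r1 : (2 * Real.pi * (k₀ 0 : ℝ) : ℝ) = -θ₁ := by linarith
  have r2 : (2 * Real.pi * (k₀ 1 : ℝ) : ℝ) = -θ₂ := by linarith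
  have p1 : phase (-k₀) (1, 0) = (θ₁ : ℂ) * I := by
    rw [phase_apply]; simp only [Pi.neg_apply, Int.cast_neg]
    rw [show (θ₁ : ℝ) = -(2 * Real.pi * (k₀ 0 : ℝ)) by linarith]; push_cast; ring
  have p2 : phase (-k₀) (0, 1) = (θ₂ : ℂ) * I := by
    rw [phase_apply]; simp only [Pi.neg_apply, Int.cast_neg]
    rw [show (θ₂ : ℝ) = -(2 * Real.pi * (k₀ 1 : ℝ)) by linarith]; push_cast; ring
  simp only [smul_eq_mul, _root_.smul_apply, p1, p2]
  linear_combination (e (-k₀) z) * hUV z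

end P205.Tori.Fourier

namespace P205.Tori

open P205.Tori.Fourier MeasureTheory Complex
open scoped ComplexConjugate

/-- Global isothermal coordinates on every torus. -/
theorem uniformStmt : UniformStmt := by
  intro g
  set den : ℝ × ℝ → ℝ := fun z =>
    g.g₁₁ z + g.g₂₂ z + 2 * Real.sqrt (g.g₁₁ z * g.g₂₂ z - g.g₁₂ z ^ 2) with hden
  have h22 : ∀ z, 0 < g.g₂₂ z := fun z => by
    nlinarith [g.pos₁₁ z, g.pos_det z, sq_nonneg (g.g₁₂ z)]
  have hden0 : ∀ z, 0 < den z := fun z => by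
    have := Real.sqrt_nonneg (g.g₁₁ z * g.g₂₂ z - g.g₁₂ z ^ 2)
    simp only [hden]; linarith [g.pos₁₁ z, h22 z]
  have hsden : ContDiff ℝ (⊤ : ℕ∞) den :=
    (g.smooth₁₁.add g.smooth₂₂).add (contDiff_const.mul
      (((g.smooth₁₁.mul g.smooth₂₂).sub (g.smooth₁₂.pow 2)).sqrt fun z => (g.pos_det z).ne'))
  set μ : ℝ × ℝ → ℂ := fun z => (((g.g₁₁ z - g.g₂₂ z) / den z : ℝ) : ℂ)
    + ((2 * g.g₁₂ z / den z : ℝ) : ℂ) * I with hμdef
  have hμ : SP μ := by
    refine ⟨(Complex.ofRealCLM.contDiff.comp ((g.smooth₁₁.sub g.smooth₂₂).div hsden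
        fun z => (hden0 z).ne')).add ((Complex.ofRealCLM.contDiff.comp
        ((contDiff_const.mul g.smooth₁₂).div hsden fun z => (hden0 z).ne')).mul contDiff_const),
      fun z => ?_⟩
    simp only [hμdef, hden, (g.periodic₁₁ z).1, (g.periodic₁₁ z).2, (g.periodic₁₂ z).1,
      (g.periodic₁₂ z).2, (g.periodic₂₂ z).1, (g.periodic₂₂ z).2, and_self]
  have hlt : ∀ z, ‖μ z‖ < 1 := by
    intro z
    have hd := g.pos_det z
    have hs := Real.sq_sqrt hd.le
    have hsp := Real.sqrt_pos.mpr hd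
    rw [← sq_lt_one_iff₀ (norm_nonneg _), Complex.sq_norm, hμdef]
    simp only [Complex.normSq_add_mul_I]
    rw [div_pow, div_pow, ← add_div, div_lt_one (pow_pos (hden0 z) 2)]
    simp only [hden]
    nlinarith [g.pos₁₁ z, h22 z, hsp, hs]
  obtain ⟨z₀, hz₀⟩ := exists_max_per (f := fun z => ‖μ z‖) hμ.1.continuous.norm
    (fun z => ⟨by simp only [(hμ.2 z).1], by simp only [(hμ.2 z).2]⟩)
  obtain ⟨a, ha, hane, hcl⟩ := exists_factor hμ (hlt z₀) hz₀
  set P : ℝ × ℝ → ℂ := fun z => a z * (1 + μ z) with hP_def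
  set Q : ℝ × ℝ → ℂ := fun z => I * (a z * (1 + (-1) * μ z)) with hQ_def
  have hP : SP P := ha.mul ((sp_const 1).add hμ)
  have hQ : SP Q := (ha.mul ((sp_const 1).add (hμ.const_mul _))).const_mul _
  have hQ' : Q = fun z => I * (a z * (1 - μ z)) := by funext z; simp only [hQ_def]; ring
  have hPQ : ∀ z, fderiv ℝ P z (0, 1) = fderiv ℝ Q z (1, 0) := fun z => by
    rw [hQ']; exact hcl z
  obtain ⟨q, hq, hdq⟩ := exists_prim hP hQ hPQ
  set α := coef P 0 with hα
  set β := coef Q 0 with hβ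
  -- the lattice is nondegenerate
  have hM : SP (fun z => μ z * a z) := hμ.mul ha
  set ah := coef a with hah
  set mh := coef (fun z => μ z * a z) with hmh
  have hPh : ∀ k, coef P k = ah k + mh k := fun k => by
    rw [hah, hmh, ← coef_add ha.1.continuous hM.1.continuous]
    congr 1; funext z; simp only [hP_def]; ring
  have hQh : ∀ k, coef Q k = I * (ah k + (-1) * mh k) := fun k => by
    rw [hah, hmh, ← coef_const_mul (-1), ← coef_add ha.1.continuous (hM.const_mul _).1.continuous,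
      ← coef_const_mul]
    congr 1; funext z; simp only [hQ_def]; ring
  have heq : ∀ k, k ≠ 0 → ‖ah k‖ = ‖mh k‖ := by
    intro k hk
    have h1 : coef (fun z => fderiv ℝ P z (0, 1)) k = coef (fun z => fderiv ℝ Q z (1, 0)) k := by
      rw [funext hPQ]
    rw [coef_dy hP, coef_dx hQ, hPh, hQh] at h1
    have h2 : mB k * ah k = mA k * mh k := by
      simp only [mA, mB]
      push_cast at h1
      linear_combination (I / 2) * h1 + (Real.pi * I * (k 0 : ℂ) * (ah k - mh k)) * I_sq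
    have h3 := congrArg (fun c : ℂ => ‖c‖) h2
    simp only [norm_mul, normSq_eq] at h3
    exact mul_left_cancel₀ (norm_ne_zero_iff.mpr (mB_ne_zero hk)) h3
  have hlat : ‖mh 0‖ < ‖ah 0‖ := by
    have hs1 := hasSum_sq_coef ha.cp
    have hs2 := hasSum_sq_coef hM.cp
    have hdiff : (fun k => ‖coef a k‖ ^ 2 - ‖coef (fun z => μ z * a z) k‖ ^ 2)
        = fun k => if k = 0 then ‖ah 0‖ ^ 2 - ‖mh 0‖ ^ 2 else 0 := by
      funext k
      split_ifs with hk
      · rw [hk]
      · rw [← hah, ← hmh, heq k hk, sub_self]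
    have hd := hs1.sub hs2
    rw [hdiff] at hd
    have hI := hd.unique (hasSum_ite_eq 0 _)
    have hint : ∫ z in square, ‖μ z * a z‖ ^ 2 ≤ ‖μ z₀‖ ^ 2 * ∫ z in square, ‖a z‖ ^ 2 := by
      rw [← integral_const_mul]
      refine integral_mono ?_ ?_ fun z => ?_
      · exact ((continuous_norm.comp hM.1.continuous).pow 2).continuousOn.integrableOn_compact
          (isCompact_Icc.prod isCompact_Icc) |>.mono_set
          (Set.prod_mono Set.Ioc_subset_Icc_self Set.Ioc_subset_Icc_self)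
      · exact (continuous_const.mul ((continuous_norm.comp ha.1.continuous).pow 2)).continuousOn
          |>.integrableOn_compact (isCompact_Icc.prod isCompact_Icc) |>.mono_set
          (Set.prod_mono Set.Ioc_subset_Icc_self Set.Ioc_subset_Icc_self)
      · rw [norm_mul, mul_pow]
        exact mul_le_mul_of_nonneg_right (pow_le_pow_left₀ (norm_nonneg _) (hz₀ z) 2) (sq_nonneg _)
    have hpos : 0 < ∫ z in square, ‖a z‖ ^ 2 := by
      refine lt_of_le_of_ne (integral_nonneg fun z => sq_nonneg _) fun h0 => hane 0 ?_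
      have hzero : ∀ k, coef a k = 0 := fun k => by
        have := (le_hasSum hs1 k fun _ _ => sq_nonneg _).trans h0.symm.le
        exact norm_eq_zero.mp (by nlinarith [norm_nonneg (coef a k)])
      rw [← ser_coef ha 0]; simp [ser, hzero]
    have hk2 : ‖μ z₀‖ ^ 2 < 1 := (sq_lt_one_iff₀ (norm_nonneg _)).mpr (hlt z₀)
    nlinarith [norm_nonneg (mh 0), norm_nonneg (ah 0)]
  have hdet : α.re * β.im - α.im * β.re ≠ 0 := by
    rw [hα, hβ, hPh, hQh]
    have e : (ah 0 + mh 0).re * (I * (ah 0 + (-1) * mh 0)).im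
        - (ah 0 + mh 0).im * (I * (ah 0 + (-1) * mh 0)).re = ‖ah 0‖ ^ 2 - ‖mh 0‖ ^ 2 := by
      simp [Complex.sq_norm, Complex.normSq_apply]; ring
    rw [e]
    nlinarith [norm_nonneg (mh 0)]
  -- the coordinates
  set lin : ℝ × ℝ →L[ℝ] ℂ := α • (Complex.ofRealCLM.comp (ContinuousLinearMap.fst ℝ ℝ ℝ))
    + β • (Complex.ofRealCLM.comp (ContinuousLinearMap.snd ℝ ℝ ℝ)) with hlin_def
  have hlin : ∀ w : ℝ × ℝ, lin w = α * (w.1 : ℂ) + β * (w.2 : ℂ) := fun w => by simp [hlin_def]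
  set Zc : ℝ × ℝ → ℂ := fun z => lin z + q z with hZc_def
  set Z : ℝ × ℝ → ℝ × ℝ := fun z => Complex.equivRealProdCLM (Zc z) with hZ_def
  have hZc : ∀ z, HasFDerivAt Zc (lin + fderiv ℝ q z) z := fun z =>
    lin.hasFDerivAt.add (hq.differentiable z).hasFDerivAt
  have hZd : ∀ z w, fderiv ℝ Z z w = Complex.equivRealProdCLM
      (a z * (((w.1 : ℂ) + (w.2 : ℂ) * I) + μ z * conj ((w.1 : ℂ) + (w.2 : ℂ) * I))) := by
    intro z w
    have hf : HasFDerivAt Z ((Complex.equivRealProdCLM : ℂ →L[ℝ] ℝ × ℝ).comp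
        (lin + fderiv ℝ q z)) z :=
      (Complex.equivRealProdCLM : ℂ →L[ℝ] ℝ × ℝ).hasFDerivAt.comp z (hZc z)
    rw [hf.fderiv]
    have hw : w = w.1 • ((1 : ℝ), (0 : ℝ)) + w.2 • ((0 : ℝ), (1 : ℝ)) := by ext <;> simp
    have hqw : fderiv ℝ q z w = (w.1 : ℂ) * (P z - α) + (w.2 : ℂ) * (Q z - β) := by
      conv_lhs => rw [hw]
      rw [map_add, map_smul, map_smul, (hdq z).1, (hdq z).2]
      simp
    simp only [ContinuousLinearMap.comp_apply, _root_.add_apply, hqw, hlin,
      ContinuousLinearEquiv.coe_coe]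
    congr 1
    simp only [hP_def, hQ_def, map_add, map_mul, Complex.conj_ofReal, Complex.conj_I]
    ring
  have hinj : ∀ z, Function.Injective (fderiv ℝ Z z) := by
    intro z
    rw [injective_iff_map_eq_zero]
    intro w hw
    rw [hZd, EmbeddingLike.map_eq_zero_iff, mul_eq_zero, or_iff_right (hane z)] at hw
    set W : ℂ := (w.1 : ℂ) + (w.2 : ℂ) * I with hW
    have h1 : ‖W‖ = ‖μ z‖ * ‖W‖ := by
      conv_lhs => rw [eq_neg_of_add_eq_zero_left hw]
      rw [norm_neg, norm_mul, Complex.norm_conj]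
    have h2 : ‖W‖ = 0 := by nlinarith [hlt z, norm_nonneg W]
    rw [norm_eq_zero] at h2
    exact Prod.ext (by simpa [hW] using congrArg Complex.re h2)
      (by simpa [hW] using congrArg Complex.im h2)
  have hZs : ContDiff ℝ (⊤ : ℕ∞) Z :=
    (Complex.equivRealProdCLM : ℂ →L[ℝ] ℝ × ℝ).contDiff.comp (lin.contDiff.add hq.1)
  set M2 : ℝ × ℝ →L[ℝ] ℝ × ℝ := (Complex.equivRealProdCLM : ℂ →L[ℝ] ℝ × ℝ).comp lin
  have hM2 : Function.Injective M2 := by
    rw [injective_iff_map_eq_zero]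
    intro w hw
    simp only [M2, ContinuousLinearMap.comp_apply, ContinuousLinearEquiv.coe_coe,
      EmbeddingLike.map_eq_zero_iff, hlin] at hw
    have hr : α.re * w.1 + β.re * w.2 = 0 := by simpa using congrArg Complex.re hw
    have hi : α.im * w.1 + β.im * w.2 = 0 := by simpa using congrArg Complex.im hw
    refine Prod.ext (mul_left_cancel₀ hdet ?_) (mul_left_cancel₀ hdet ?_)
    · simp only [Prod.fst_zero, mul_zero]; linear_combination β.im * hr - β.re * hi
    · simp only [Prod.snd_zero, mul_zero]; linear_combination α.re * hi - α.im * hr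
  set L : (ℝ × ℝ) ≃L[ℝ] ℝ × ℝ :=
    (LinearEquiv.ofInjectiveEndo (M2 : (ℝ × ℝ) →ₗ[ℝ] ℝ × ℝ) hM2).toContinuousLinearEquiv
  have hbd : ∃ C : ℝ, ∀ z, ‖Z z - L z‖ ≤ C := by
    obtain ⟨z₁, hz₁⟩ := exists_max_per (f := fun z => ‖q z‖) hq.1.continuous.norm
      (fun z => ⟨by simp only [(hq.2 z).1], by simp only [(hq.2 z).2]⟩)
    refine ⟨‖(Complex.equivRealProdCLM : ℂ →L[ℝ] ℝ × ℝ)‖ * ‖q z₁‖, fun z => ?_⟩
    have : Z z - L z = (Complex.equivRealProdCLM : ℂ →L[ℝ] ℝ × ℝ) (q z) := by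
      show Complex.equivRealProdCLM (lin z + q z) - Complex.equivRealProdCLM (lin z) = _
      simp
    rw [this]
    exact ((Complex.equivRealProdCLM : ℂ →L[ℝ] ℝ × ℝ).le_opNorm _).trans
      (mul_le_mul_of_nonneg_left (hz₁ z) (norm_nonneg _))
  obtain ⟨Y, hY, hYZ, hZY⟩ := exists_smooth_inverse Z L hZs hinj hbd
  set l₁ : ℝ × ℝ := Complex.equivRealProdCLM α with hl₁
  set l₂ : ℝ × ℝ := Complex.equivRealProdCLM β with hl₂
  have hper : ∀ z, Z (z + (1, 0)) = Z z + l₁ ∧ Z (z + (0, 1)) = Z z + l₂ := fun z => by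
    constructor <;>
    · simp only [hZ_def, hZc_def, hl₁, hl₂, map_add, (hq.2 z).1, (hq.2 z).2]
      simp [hlin, Prod.ext_iff]
      constructor <;> ring
  set v₀ : ℝ × ℝ → ℝ := fun z => Real.log (den z / (4 * Complex.normSq (a z))) / 2 with hv₀
  have hns : ContDiff ℝ (⊤ : ℕ∞) (fun z => Complex.normSq (a z)) := by
    simp only [Complex.normSq_apply]
    exact ((Complex.reCLM.contDiff.comp ha.1).mul (Complex.reCLM.contDiff.comp ha.1)).add
      ((Complex.imCLM.contDiff.comp ha.1).mul (Complex.imCLM.contDiff.comp ha.1))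
  have hns0 : ∀ z, 0 < Complex.normSq (a z) := fun z => Complex.normSq_pos.mpr (hane z)
  have hv₀s : ContDiff ℝ (⊤ : ℕ∞) v₀ :=
    ((hsden.div (contDiff_const.mul hns) fun z => (mul_pos four_pos (hns0 z)).ne').log
      fun z => (div_pos (hden0 z) (mul_pos four_pos (hns0 z))).ne').div_const 2
  have hv₀p : Periodic2 v₀ (1, 0) (0, 1) := fun z => by
    simp only [hv₀, hden, (g.periodic₁₁ z).1, (g.periodic₁₁ z).2, (g.periodic₁₂ z).1,
      (g.periodic₁₂ z).2, (g.periodic₂₂ z).1, (g.periodic₂₂ z).2, (ha.2 z).1, (ha.2 z).2,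
      and_self]
  refine ⟨l₁, l₂, v₀ ∘ Y, Z, ?_, hv₀s.comp hY, fun w => ?_, hZs,
    ⟨Function.LeftInverse.injective hYZ, Function.RightInverse.surjective hZY⟩, hper, ?_⟩
  · simpa [hl₁, hl₂] using hdet
  · have h1 : Y (w + l₁) = Y w + (1, 0) := by
      conv_lhs => rw [← hZY w, ← (hper (Y w)).1]
      exact hYZ _
    have h2 : Y (w + l₂) = Y w + (0, 1) := by
      conv_lhs => rw [← hZY w, ← (hper (Y w)).2]
      exact hYZ _
    simp only [Function.comp_apply, h1, h2, (hv₀p (Y w)).1, (hv₀p (Y w)).2, and_self]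
  · intro z w w'
    have hexp : Real.exp (2 * v₀ z) = den z / (4 * Complex.normSq (a z)) := by
      rw [hv₀, mul_div_cancel₀ _ two_ne_zero,
        Real.exp_log (div_pos (hden0 z) (mul_pos four_pos (hns0 z)))]
    rw [Function.comp_apply, hYZ, hexp, hZd, hZd]
    have hs := Real.sq_sqrt (g.pos_det z).le
    have hdot : ∀ u u' : ℂ, dot (Complex.equivRealProdCLM u) (Complex.equivRealProdCLM u')
        = u.re * u'.re + u.im * u'.im := fun u u' => rfl
    have hμre : (μ z).re = (g.g₁₁ z - g.g₂₂ z) / den z := by simp [hμdef]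
    have hμim : (μ z).im = 2 * g.g₁₂ z / den z := by simp [hμdef]
    rw [hdot]
    simp only [Complex.mul_re, Complex.mul_im, Complex.add_re, Complex.add_im, Complex.conj_re,
      Complex.conj_im, Complex.ofReal_re, Complex.ofReal_im, Complex.I_re, Complex.I_im, hμre,
      hμim, TorusMetric.val, mul_zero, mul_one, sub_zero, add_zero, zero_add]
    have hd := (hden0 z).ne'
    have hn := (hns0 z).ne'
    have hdd : den z = g.g₁₁ z + g.g₂₂ z + 2 * Real.sqrt (g.g₁₁ z * g.g₂₂ z - g.g₁₂ z ^ 2) := rfl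
    generalize Real.sqrt (g.g₁₁ z * g.g₂₂ z - g.g₁₂ z ^ 2) = s at hs hdd
    field_simp
    rw [hdd]
    simp only [Complex.normSq_apply]
    linear_combination (-4) * ((w.1 * w'.1 + w.2 * w'.2) * ((a z).re * (a z).re
      + (a z).im * (a z).im)) * hs

end P205.Tori
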