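import Vale.Agent.P205.Tori.Defs

/-!
P205, tori: partial derivatives, and the closed connection form of the metric
`e^{-2r}|dz|² - ε du²`.
-/

namespace P205.Tori

variable {f g : ℝ × ℝ → ℝ} {z : ℝ × ℝ}

theorem fderiv_eq_dx_dy (f : ℝ × ℝ → ℝ) (z w : ℝ × ℝ) :
    fderiv ℝ f z w = w.1 * dx f z + w.2 * dy f z := by
  have h : w = w.1 • ((1 : ℝ), (0 : ℝ)) + w.2 • ((0 : ℝ), (1 : ℝ)) := by
    ext <;> simp
  conv_lhs => rw [h]
  rw [map_add, map_smul, map_smul, smul_eq_mul, smul_eq_mul, dx, dy]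

theorem dx_add (hf : Differentiable ℝ f) (hg : Differentiable ℝ g) :
    dx (f + g) z = dx f z + dx g z := by
  simp [dx, fderiv_add (hf z) (hg z)]

theorem dy_add (hf : Differentiable ℝ f) (hg : Differentiable ℝ g) :
    dy (f + g) z = dy f z + dy g z := by
  simp [dy, fderiv_add (hf z) (hg z)]

theorem contDiff_dx (hf : ContDiff ℝ (⊤ : ℕ∞) f) : ContDiff ℝ (⊤ : ℕ∞) (dx f) :=
  (hf.fderiv_right (by norm_cast)).clm_apply contDiff_const

theorem contDiff_dy (hf : ContDiff ℝ (⊤ : ℕ∞) f) : ContDiff ℝ (⊤ : ℕ∞) (dy f) :=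
  (hf.fderiv_right (by norm_cast)).clm_apply contDiff_const

theorem dx_dy (hf : ContDiff ℝ (⊤ : ℕ∞) f) : dx (dy f) = dy (dx f) := by
  funext z
  have hs := hf.contDiffAt (x := z) |>.isSymmSndFDerivAt (by simp; norm_cast)
  have hd : DifferentiableAt ℝ (fderiv ℝ f) z :=
    ((hf.fderiv_right (m := (⊤ : ℕ∞)) (by norm_cast)).differentiable (by simp)) z
  have e : ∀ a b : ℝ × ℝ, fderiv ℝ (fun x => fderiv ℝ f x a) z b
      = fderiv ℝ (fderiv ℝ f) z b a := fun a b => by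
    rw [fderiv_clm_apply hd (differentiableAt_const a)]; simp
  show fderiv ℝ (fun x => fderiv ℝ f x (0, 1)) z (1, 0)
    = fderiv ℝ (fun x => fderiv ℝ f x (1, 0)) z (0, 1)
  rw [e, e]; exact hs.eq _ _

variable (v r : ℝ × ℝ → ℝ) (ε : ℝ)

/-- `ε e^{2r}`. -/
noncomputable def kap (z : ℝ × ℝ) : ℝ := ε * Real.exp (2 * r z)

/-- `|∇u|²`. -/
noncomputable def gsq (z : ℝ × ℝ) : ℝ := dx (v + r) z ^ 2 + dy (v + r) z ^ 2

/-- `(1 - κ|∇u|²)^{1/2}`. -/
noncomputable def root (z : ℝ × ℝ) : ℝ := Real.sqrt (1 - kap r ε z * gsq v r z)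

/-- The coefficient of the symmetric square root. -/
noncomputable def bet (z : ℝ × ℝ) : ℝ := kap r ε z / (1 + root v r ε z)

noncomputable def w₁ (z : ℝ × ℝ) : ℝ :=
  dy (dx (v + r)) z * dx (v + r) z - dx (dx (v + r)) z * dy (v + r) z

noncomputable def w₂ (z : ℝ × ℝ) : ℝ :=
  dy (dy (v + r)) z * dx (v + r) z - dy (dx (v + r)) z * dy (v + r) z

/-- The connection form. -/
noncomputable def om₁ (z : ℝ × ℝ) : ℝ := (dy r z + bet v r ε z * w₁ v r z) / root v r ε z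

noncomputable def om₂ (z : ℝ × ℝ) : ℝ := (-dx r z + bet v r ε z * w₂ v r z) / root v r ε z

noncomputable def s₁₁ (z : ℝ × ℝ) : ℝ :=
  Real.exp (-r z) * (1 - bet v r ε z * dx (v + r) z ^ 2)

noncomputable def s₁₂ (z : ℝ × ℝ) : ℝ :=
  Real.exp (-r z) * (-(bet v r ε z * dx (v + r) z * dy (v + r) z))

noncomputable def s₂₂ (z : ℝ × ℝ) : ℝ :=
  Real.exp (-r z) * (1 - bet v r ε z * dy (v + r) z ^ 2)

theorem conn_identity {s k β a b p q A B C R : ℝ} (hs : s * s = 1 - k * (a ^ 2 + b ^ 2))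
    (hβ : β * (1 + s) = k) (hβQ : β * (a ^ 2 + b ^ 2) = 1 - s) :
    let X := a * A + b * B
    let Y := a * B + b * C
    let D := A * C - B ^ 2
    let W1 := B * a - A * b
    let W2 := C * a - B * b
    s * s * (-R + 2 * β * D) + s * ((k * p + β ^ 2 * X) * W2 - (k * q + β ^ 2 * Y) * W1)
        + k * ((-p + β * W2) * (p * (a ^ 2 + b ^ 2) + X) - (q + β * W1) * (q * (a ^ 2 + b ^ 2) + Y))
      = -(R - k * ((a ^ 2 + b ^ 2) * (R - p ^ 2 - q ^ 2) + D + p * W2 - q * W1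
          - p * (A * a + B * b) - q * (B * a + C * b))) := by
  intro X Y D W1 W2
  simp only [X, Y, D, W1, W2]
  linear_combination (-R) * hs + k * (p * (C * a - B * b) - q * (B * a - A * b)) * hβQ
    + (A * C - B ^ 2) * (s * β + k) * hβQ + (A * C - B ^ 2) * s * hβ

variable {v r ε}

section

variable (hv : ContDiff ℝ (⊤ : ℕ∞) v) (hr : ContDiff ℝ (⊤ : ℕ∞) r)
  (hpos : ∀ z, kap r ε z * gsq v r z < 1)
include hv hr hpos

omit hv hr in
theorem root_pos (z : ℝ × ℝ) : 0 < root v r ε z := Real.sqrt_pos.2 (by linarith [hpos z])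

omit hv hr in
theorem root_sq (z : ℝ × ℝ) :
    root v r ε z * root v r ε z = 1 - kap r ε z * (dx (v + r) z ^ 2 + dy (v + r) z ^ 2) :=
  Real.mul_self_sqrt (by linarith [hpos z])

omit hv hr in
theorem bet_mul (z : ℝ × ℝ) : bet v r ε z * (1 + root v r ε z) = kap r ε z := by
  rw [bet, div_mul_cancel₀]; linarith [root_pos hpos z]

omit hv hr in
theorem bet_sq (z : ℝ × ℝ) :
    bet v r ε z * (dx (v + r) z ^ 2 + dy (v + r) z ^ 2) = 1 - root v r ε z := by
  have h := root_sq hpos z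
  have := root_pos hpos z
  rw [bet, div_mul_eq_mul_div, div_eq_iff (by linarith)]
  linear_combination h

omit hpos hv in
theorem contDiff_kap : ContDiff ℝ (⊤ : ℕ∞) (kap r ε) :=
  contDiff_const.mul (Real.contDiff_exp.comp (contDiff_const.mul hr))

theorem contDiff_root : ContDiff ℝ (⊤ : ℕ∞) (root v r ε) :=
  ContDiff.sqrt (contDiff_const.sub ((contDiff_kap hr).mul
    (((contDiff_dx (hv.add hr)).pow 2).add ((contDiff_dy (hv.add hr)).pow 2))))
    fun z => (by linarith [hpos z] : (0:ℝ) < 1 - kap r ε z * gsq v r z).ne'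

theorem contDiff_bet : ContDiff ℝ (⊤ : ℕ∞) (bet v r ε) :=
  (contDiff_kap hr).div (contDiff_const.add (contDiff_root hv hr hpos)) fun z => by
    linarith [root_pos hpos z]

theorem contDiff_om : ContDiff ℝ (⊤ : ℕ∞) (om₁ v r ε) ∧ ContDiff ℝ (⊤ : ℕ∞) (om₂ v r ε) := by
  have hu : ContDiff ℝ (⊤ : ℕ∞) (v + r) := hv.add hr
  have hne : ∀ z, root v r ε z ≠ 0 := fun z => (root_pos hpos z).ne'
  exact ⟨((contDiff_dy hr).add ((contDiff_bet hv hr hpos).mul
      (((contDiff_dy (contDiff_dx hu)).mul (contDiff_dx hu)).sub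
        ((contDiff_dx (contDiff_dx hu)).mul (contDiff_dy hu))))).div (contDiff_root hv hr hpos) hne,
    ((contDiff_dx hr).neg.add ((contDiff_bet hv hr hpos).mul
      (((contDiff_dy (contDiff_dy hu)).mul (contDiff_dx hu)).sub
        ((contDiff_dy (contDiff_dx hu)).mul (contDiff_dy hu))))).div (contDiff_root hv hr hpos) hne⟩

theorem contDiff_s : ContDiff ℝ (⊤ : ℕ∞) (s₁₁ v r ε) ∧ ContDiff ℝ (⊤ : ℕ∞) (s₁₂ v r ε) ∧
    ContDiff ℝ (⊤ : ℕ∞) (s₂₂ v r ε) := by
  have hu : ContDiff ℝ (⊤ : ℕ∞) (v + r) := hv.add hr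
  have he : ContDiff ℝ (⊤ : ℕ∞) (fun z => Real.exp (-r z)) := Real.contDiff_exp.comp hr.neg
  have hb := contDiff_bet hv hr hpos
  exact ⟨he.mul (contDiff_const.sub (hb.mul ((contDiff_dx hu).pow 2))),
    he.mul ((hb.mul (contDiff_dx hu)).mul (contDiff_dy hu)).neg,
    he.mul (contDiff_const.sub (hb.mul ((contDiff_dy hu).pow 2)))⟩

/-- The derivative of `root` and of `bet` in a direction. -/
theorem deriv_bet (z e : ℝ × ℝ) :
    let P := fderiv ℝ r z e
    let U := dx (v + r) z * fderiv ℝ (dx (v + r)) z e + dy (v + r) z * fderiv ℝ (dy (v + r)) z e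
    let k := kap r ε z
    let s := root v r ε z
    fderiv ℝ (root v r ε) z e = -(k * (P * (dx (v + r) z ^ 2 + dy (v + r) z ^ 2) + U)) / s ∧
      fderiv ℝ (bet v r ε) z e = (k * P + bet v r ε z ^ 2 * U) / s := by
  intro P U k s
  have hu : ContDiff ℝ (⊤ : ℕ∞) (v + r) := hv.add hr
  have hs0 : 0 < s := root_pos hpos z
  have dr : HasFDerivAt r (fderiv ℝ r z) z := (hr.differentiable (by simp) z).hasFDerivAt
  have da : HasFDerivAt (dx (v + r)) (fderiv ℝ (dx (v + r)) z) z :=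
    ((contDiff_dx hu).differentiable (by simp) z).hasFDerivAt
  have db : HasFDerivAt (dy (v + r)) (fderiv ℝ (dy (v + r)) z) z :=
    ((contDiff_dy hu).differentiable (by simp) z).hasFDerivAt
  have dk := ((dr.const_mul 2).exp).const_mul ε
  have dQ := (da.pow 2).add (db.pow 2)
  have dm := (dk.mul dQ).const_sub 1
  have hne : (1 : ℝ) - kap r ε z * gsq v r z ≠ 0 := by linarith [hpos z]
  have ds : HasFDerivAt (root v r ε) _ z := dm.sqrt hne
  have e1 : fderiv ℝ (root v r ε) z e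
      = -(k * (P * (dx (v + r) z ^ 2 + dy (v + r) z ^ 2) + U)) / s := by
    rw [ds.fderiv]
    simp only [smul_apply, add_apply,
      neg_apply, smul_eq_mul, P, U, k, s, root, gsq, kap, Pi.add_apply,
      Pi.mul_apply, Nat.cast_ofNat]
    field_simp
    ring
  refine ⟨e1, ?_⟩
  have hs1 : (1 : ℝ) + s ≠ 0 := by linarith
  have dkap : HasFDerivAt (kap r ε) _ z := dk
  have dd := (contDiff_root hv hr hpos).differentiable (by simp) z
  have e2 : fderiv ℝ (bet v r ε) z e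
      = (2 * k * P * (1 + s) - k * fderiv ℝ (root v r ε) z e) / (1 + s) ^ 2 := by
    have h : HasFDerivAt (fun x => kap r ε x * (1 + root v r ε x)⁻¹) _ z :=
      dkap.mul ((hasDerivAt_inv hs1).comp_hasFDerivAt z (dd.hasFDerivAt.const_add 1))
    rw [show bet v r ε = fun x => kap r ε x * (1 + root v r ε x)⁻¹ from
      funext fun x => div_eq_mul_inv _ _, h.fderiv]
    simp only [smul_apply, add_apply,
      neg_apply, smul_eq_mul, P, k, s, kap]
    field_simp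
    ring
  rw [e2, e1]
  have hsq : s * s = 1 - k * (dx (v + r) z ^ 2 + dy (v + r) z ^ 2) := root_sq hpos z
  have hb : bet v r ε z = k / (1 + s) := rfl
  rw [hb]
  field_simp
  linear_combination (k * P) * hsq

/-- The curvature of the connection form. -/
theorem om_curl (z : ℝ × ℝ) :
    dx (om₂ v r ε) z - dy (om₁ v r ε) z
      = -(dx (dx r) z + dy (dy r) z - kap r ε z * nl v r z) / root v r ε z ^ 3 := by
  have hu : ContDiff ℝ (⊤ : ℕ∞) (v + r) := hv.add hr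
  have hs0 := root_pos hpos z
  obtain ⟨sx, bx⟩ := deriv_bet hv hr hpos z (1, 0)
  obtain ⟨sy, by'⟩ := deriv_bet hv hr hpos z (0, 1)
  have dd : ∀ {h : ℝ × ℝ → ℝ}, ContDiff ℝ (⊤ : ℕ∞) h → HasFDerivAt h (fderiv ℝ h z) z :=
    fun hh => (hh.differentiable (by simp) z).hasFDerivAt
  have hB := dd (contDiff_bet hv hr hpos)
  have hS := dd (contDiff_root hv hr hpos)
  have ha := dd (contDiff_dx hu)
  have hb := dd (contDiff_dy hu)
  have h1 : HasFDerivAt (fun x => (dy r x + bet v r ε x * w₁ v r x) * (root v r ε x)⁻¹) _ z :=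
    ((dd (contDiff_dy hr)).add (hB.mul (((dd (contDiff_dy (contDiff_dx hu))).mul ha).sub
      ((dd (contDiff_dx (contDiff_dx hu))).mul hb)))).mul ((hasDerivAt_inv hs0.ne').comp_hasFDerivAt z hS)
  have h2 : HasFDerivAt (fun x => (-dx r x + bet v r ε x * w₂ v r x) * (root v r ε x)⁻¹) _ z :=
    ((dd (contDiff_dx hr)).neg.add (hB.mul (((dd (contDiff_dy (contDiff_dy hu))).mul ha).sub
      ((dd (contDiff_dy (contDiff_dx hu))).mul hb)))).mul ((hasDerivAt_inv hs0.ne').comp_hasFDerivAt z hS)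
  have f1 : om₁ v r ε = fun x => (dy r x + bet v r ε x * w₁ v r x) * (root v r ε x)⁻¹ :=
    funext fun x => div_eq_mul_inv _ _
  have f2 : om₂ v r ε = fun x => (-dx r x + bet v r ε x * w₂ v r x) * (root v r ε x)⁻¹ :=
    funext fun x => div_eq_mul_inv _ _
  have c1 : dx (dy (dx (v + r))) z = dy (dx (dx (v + r))) z := congrFun (dx_dy (contDiff_dx hu)) z
  have c2 : dx (dy (dy (v + r))) z = dy (dy (dx (v + r))) z := by
    rw [dx_dy (contDiff_dy hu), dx_dy hu]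
  have c3 : dx (dy (v + r)) z = dy (dx (v + r)) z := congrFun (dx_dy hu) z
  simp only [dx, dy] at sx sy bx by' c1 c2 c3
  rw [f1, f2, dx, dy, h1.fderiv, h2.fderiv]
  simp only [smul_apply, add_apply,
    sub_apply, neg_apply, smul_eq_mul, w₁, w₂, Pi.add_apply,
    Pi.neg_apply, Pi.mul_apply, Pi.sub_apply, dx, dy, c1, c2, c3, sx, sy, bx, by']
  have key := conn_identity (p := dx r z) (q := dy r z) (A := dx (dx (v + r)) z)
    (B := dy (dx (v + r)) z) (C := dy (dy (v + r)) z) (R := dx (dx r) z + dy (dy r) z)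
    (root_sq hpos z) (bet_mul hpos z) (bet_sq hpos z)
  simp only [nl, dx, dy] at key ⊢
  field_simp
  linear_combination key

/-- The coframe `R(θ) S` with `dθ` the connection form is closed. -/
theorem closed_identities (z : ℝ × ℝ) :
    dy (s₁₁ v r ε) z - dx (s₁₂ v r ε) z - om₂ v r ε z * s₁₂ v r ε z + om₁ v r ε z * s₂₂ v r ε z = 0
      ∧ dy (s₁₂ v r ε) z - dx (s₂₂ v r ε) z + om₂ v r ε z * s₁₁ v r ε z
          - om₁ v r ε z * s₁₂ v r ε z = 0 := by
  have hu : ContDiff ℝ (⊤ : ℕ∞) (v + r) := hv.add hr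
  have hs0 := root_pos hpos z
  obtain ⟨-, bx⟩ := deriv_bet hv hr hpos z (1, 0)
  obtain ⟨-, by'⟩ := deriv_bet hv hr hpos z (0, 1)
  have dd : ∀ {h : ℝ × ℝ → ℝ}, ContDiff ℝ (⊤ : ℕ∞) h → HasFDerivAt h (fderiv ℝ h z) z :=
    fun hh => (hh.differentiable (by simp) z).hasFDerivAt
  have hE : HasFDerivAt (fun x => Real.exp (-r x)) _ z := (dd hr).neg.exp
  have hB := dd (contDiff_bet hv hr hpos)
  have ha := dd (contDiff_dx hu)
  have hb := dd (contDiff_dy hu)
  have h11 : HasFDerivAt (s₁₁ v r ε) _ z := hE.mul ((hB.mul (ha.pow 2)).const_sub 1)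
  have h12 : HasFDerivAt (s₁₂ v r ε) _ z := hE.mul ((hB.mul ha).mul hb).neg
  have h22 : HasFDerivAt (s₂₂ v r ε) _ z := hE.mul ((hB.mul (hb.pow 2)).const_sub 1)
  have c3 : dx (dy (v + r)) z = dy (dx (v + r)) z := congrFun (dx_dy hu) z
  have k1 := bet_mul hpos z
  have k2 := bet_sq hpos z
  simp only [dx, dy] at bx by' c3 k1 k2 ⊢
  constructor
  all_goals
    simp only [dx, dy, h11.fderiv, h12.fderiv, h22.fderiv, smul_apply,
      add_apply, sub_apply, neg_apply,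
      smul_eq_mul, Pi.add_apply, Pi.neg_apply, Pi.mul_apply, Pi.sub_apply, c3, bx, by',
      s₁₁, s₁₂, s₂₂, om₁, om₂, w₁, w₂, Nat.cast_ofNat]
    field_simp
  · linear_combination Real.exp (-r z) * ((fderiv ℝ r z) (0, 1) * (fderiv ℝ (v + r) z) (1, 0) ^ 2 - (fderiv ℝ r z) (1, 0) * (fderiv ℝ (v + r) z) (1, 0) * (fderiv ℝ (v + r) z) (0, 1)) * k1
      - Real.exp (-r z) * ((fderiv ℝ r z) (0, 1) + bet v r ε z * ((fderiv ℝ (dx (v + r)) z) (0, 1) * (fderiv ℝ (v + r) z) (1, 0) - (fderiv ℝ (dx (v + r)) z) (1, 0) * (fderiv ℝ (v + r) z) (0, 1))) * k2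
  · linear_combination (-Real.exp (-r z)) * ((fderiv ℝ r z) (1, 0) * (fderiv ℝ (v + r) z) (0, 1) ^ 2 - (fderiv ℝ r z) (0, 1) * (fderiv ℝ (v + r) z) (1, 0) * (fderiv ℝ (v + r) z) (0, 1)) * k1
      + Real.exp (-r z) * ((fderiv ℝ r z) (1, 0) - bet v r ε z * ((fderiv ℝ (dy (v + r)) z) (0, 1) * (fderiv ℝ (v + r) z) (1, 0) - (fderiv ℝ (dx (v + r)) z) (0, 1) * (fderiv ℝ (v + r) z) (0, 1))) * k2

end

end P205.Tori
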