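import Vale.Agent.P205.Tori.Defs

/-!
P205, tori: Fourier series on `ℝ² / ℤ²`, the algebraic part.
Rapidly decreasing coefficient families and their series.
-/

namespace P205.Tori.Fourier

open Complex

/-- Frequencies. -/
abbrev K := Fin 2 → ℤ

/-- The size of a frequency. -/
def nk (k : K) : ℝ := |(k 0 : ℝ)| + |(k 1 : ℝ)|

theorem nk_nonneg (k : K) : 0 ≤ nk k := by unfold nk; positivity

theorem one_le_nk1 (k : K) : 1 ≤ 1 + nk k := le_add_of_nonneg_right (nk_nonneg k)

theorem nk1_pos (k : K) : 0 < 1 + nk k := lt_of_lt_of_le one_pos (one_le_nk1 k)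

theorem nk_neg (k : K) : nk (-k) = nk k := by simp [nk]

theorem nk_add_le (k l : K) : nk (k + l) ≤ nk k + nk l := by
  have h0 := abs_add_le (k 0 : ℝ) (l 0)
  have h1 := abs_add_le (k 1 : ℝ) (l 1)
  simp only [nk, Pi.add_apply, Int.cast_add]
  linarith

theorem nk1_mul (k l : K) : 1 + nk (k + l) ≤ (1 + nk k) * (1 + nk l) := by
  have := nk_add_le k l
  nlinarith [nk_nonneg k, nk_nonneg l]

theorem abs0_le (k : K) : |(k 0 : ℝ)| ≤ 1 + nk k := by
  have := abs_nonneg (k 1 : ℝ); unfold nk; linarith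

theorem abs1_le (k : K) : |(k 1 : ℝ)| ≤ 1 + nk k := by
  have := abs_nonneg (k 0 : ℝ); unfold nk; linarith

theorem summable_inv_nk : Summable (fun k : K => ((1 + nk k) ^ 4)⁻¹) := by
  have h1 : Summable (fun n : ℤ => ((1 + |(n : ℝ)|) ^ 2)⁻¹) := by
    refine Summable.of_nonneg_of_le (fun n => by positivity) ?_
      ((hasSum_ite_eq (0 : ℤ) (1 : ℝ)).summable.add
        (Real.summable_one_div_int_pow.mpr one_lt_two))
    intro n
    rcases eq_or_ne n 0 with h | h
    · simp [h]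
    · simp only [h, if_false, zero_add, one_div]
      rw [← sq_abs (n : ℝ)]
      have hn : (0 : ℝ) < |(n : ℝ)| := abs_pos.mpr (by exact_mod_cast h)
      gcongr
      linarith
  have h2 := h1.mul_of_nonneg h1 (fun n => by positivity) (fun n => by positivity)
  have h3 := h2.comp_injective (finTwoArrowEquiv ℤ).injective
  refine Summable.of_nonneg_of_le (fun k => ?_) (fun k => ?_) h3
  · have := nk1_pos k; positivity
  · simp only [Function.comp_apply, finTwoArrowEquiv_apply]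
    rw [← mul_inv, ← mul_pow]
    have := nk1_pos k
    have ha := abs0_le k
    have hb := abs1_le k
    have hc : (1 + |(k 0 : ℝ)|) * (1 + |(k 1 : ℝ)|) ≤ (1 + nk k) ^ 2 := by
      have : 1 + |(k 0 : ℝ)| ≤ 1 + nk k := by
        have := abs_nonneg (k 1 : ℝ); unfold nk; linarith
      have : 1 + |(k 1 : ℝ)| ≤ 1 + nk k := by
        have := abs_nonneg (k 0 : ℝ); unfold nk; linarith
      nlinarith [abs_nonneg (k 0 : ℝ), abs_nonneg (k 1 : ℝ)]
    calc ((1 + nk k) ^ 4)⁻¹ = (((1 + nk k) ^ 2) ^ 2)⁻¹ := by ring_nf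
      _ ≤ (((1 + |(k 0 : ℝ)|) * (1 + |(k 1 : ℝ)|)) ^ 2)⁻¹ := by gcongr

/-- Rapid decay. -/
def RD (a : K → ℂ) : Prop := ∀ n : ℕ, ∃ C : ℝ, ∀ k, ‖a k‖ * (1 + nk k) ^ n ≤ C

theorem RD.summable_pow {a : K → ℂ} (h : RD a) (n : ℕ) :
    Summable (fun k => ‖a k‖ * (1 + nk k) ^ n) := by
  obtain ⟨C, hC⟩ := h (n + 4)
  refine Summable.of_nonneg_of_le (fun k => ?_) (fun k => ?_) (summable_inv_nk.mul_left C)
  · have := nk1_pos k; positivity
  · have := nk1_pos k
    rw [← div_eq_mul_inv, le_div_iff₀ (by positivity), mul_assoc, ← pow_add]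
    exact hC k

theorem RD.summable_norm {a : K → ℂ} (h : RD a) : Summable (fun k => ‖a k‖) := by
  simpa using h.summable_pow 0

theorem RD.summable {a : K → ℂ} (h : RD a) : Summable a := h.summable_norm.of_norm

theorem RD.of_le {a b : K → ℂ} (hb : RD b) {C : ℝ} {m : ℕ} (hC : 0 ≤ C)
    (h : ∀ k, ‖a k‖ ≤ C * ((1 + nk k) ^ m * ‖b k‖)) : RD a := by
  intro n
  obtain ⟨D, hD⟩ := hb (m + n)
  refine ⟨C * D, fun k => ?_⟩
  have := nk1_pos k
  calc ‖a k‖ * (1 + nk k) ^ n ≤ C * ((1 + nk k) ^ m * ‖b k‖) * (1 + nk k) ^ n := by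
        gcongr; exact h k
    _ = C * (‖b k‖ * (1 + nk k) ^ (m + n)) := by ring
    _ ≤ C * D := mul_le_mul_of_nonneg_left (hD k) hC

theorem RD.add {a b : K → ℂ} (ha : RD a) (hb : RD b) : RD (a + b) := by
  intro n
  obtain ⟨C, hC⟩ := ha n
  obtain ⟨D, hD⟩ := hb n
  refine ⟨C + D, fun k => ?_⟩
  have := nk1_pos k
  calc ‖(a + b) k‖ * (1 + nk k) ^ n ≤ (‖a k‖ + ‖b k‖) * (1 + nk k) ^ n := by
        gcongr; exact norm_add_le _ _
    _ ≤ C + D := by rw [add_mul]; exact add_le_add (hC k) (hD k)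

/-- Convolution. -/
noncomputable def conv (a b : K → ℂ) (k : K) : ℂ := ∑' l, a (k - l) * b l

theorem summable_conv {a b : K → ℂ} (ha : RD a) (hb : RD b) (k : K) :
    Summable (fun l => a (k - l) * b l) := by
  obtain ⟨C, hC⟩ := ha 0
  refine Summable.of_norm_bounded (hb.summable_norm.mul_left C) (fun l => ?_)
  rw [norm_mul]
  exact mul_le_mul_of_nonneg_right (by simpa using hC (k - l)) (norm_nonneg _)

theorem RD.conv {a b : K → ℂ} (ha : RD a) (hb : RD b) : RD (Fourier.conv a b) := by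
  intro n
  obtain ⟨C, hC⟩ := ha n
  refine ⟨C * ∑' l, ‖b l‖ * (1 + nk l) ^ n, fun k => ?_⟩
  have hpos := nk1_pos k
  have hsum : Summable (fun l => ‖a (k - l) * b l‖) := (summable_conv ha hb k).norm
  calc ‖Fourier.conv a b k‖ * (1 + nk k) ^ n
      ≤ (∑' l, ‖a (k - l) * b l‖) * (1 + nk k) ^ n := by
        gcongr; exact norm_tsum_le_tsum_norm hsum
    _ = ∑' l, ‖a (k - l) * b l‖ * (1 + nk k) ^ n := tsum_mul_right.symm
    _ ≤ ∑' l, C * (‖b l‖ * (1 + nk l) ^ n) := by
        refine (hsum.mul_right _).tsum_le_tsum (fun l => ?_) ((hb.summable_pow n).mul_left C)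
        have h := nk1_mul (k - l) l
        rw [sub_add_cancel] at h
        have := nk1_pos (k - l)
        have := nk1_pos l
        calc ‖a (k - l) * b l‖ * (1 + nk k) ^ n
            ≤ ‖a (k - l) * b l‖ * ((1 + nk (k - l)) * (1 + nk l)) ^ n := by gcongr
          _ = ‖a (k - l)‖ * (1 + nk (k - l)) ^ n * (‖b l‖ * (1 + nk l) ^ n) := by
              rw [norm_mul, mul_pow]; ring
          _ ≤ C * (‖b l‖ * (1 + nk l) ^ n) := by gcongr; exact hC _
    _ = C * ∑' l, ‖b l‖ * (1 + nk l) ^ n := tsum_mul_left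

/-- The linear phase of a character. -/
noncomputable def phase (k : K) : ℝ × ℝ →L[ℝ] ℂ :=
  (2 * Real.pi * (k 0 : ℝ) * I : ℂ) •
      (Complex.ofRealCLM.comp (ContinuousLinearMap.fst ℝ ℝ ℝ)) +
    (2 * Real.pi * (k 1 : ℝ) * I : ℂ) •
      (Complex.ofRealCLM.comp (ContinuousLinearMap.snd ℝ ℝ ℝ))

theorem phase_apply (k : K) (z : ℝ × ℝ) :
    phase k z = ((2 * Real.pi * ((k 0 : ℝ) * z.1 + (k 1 : ℝ) * z.2) : ℝ) : ℂ) * I := by
  simp [phase]; ring

theorem norm_phase_le (k : K) : ‖phase k‖ ≤ 2 * Real.pi * (1 + nk k) := by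
  refine ContinuousLinearMap.opNorm_le_bound _ (by have := nk1_pos k; positivity) (fun z => ?_)
  have h1 : |z.1| ≤ ‖z‖ := norm_fst_le z
  have h2 : |z.2| ≤ ‖z‖ := norm_snd_le z
  rw [phase_apply, norm_mul, Complex.norm_real, norm_I, mul_one, Real.norm_eq_abs, abs_mul,
    abs_of_pos (by positivity : (0 : ℝ) < 2 * Real.pi), mul_assoc (2 * Real.pi)]
  refine mul_le_mul_of_nonneg_left ?_ (by positivity)
  calc |(k 0 : ℝ) * z.1 + (k 1 : ℝ) * z.2| ≤ |(k 0 : ℝ)| * |z.1| + |(k 1 : ℝ)| * |z.2| := by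
        simpa [abs_mul] using abs_add_le ((k 0 : ℝ) * z.1) ((k 1 : ℝ) * z.2)
    _ ≤ (1 + nk k) * ‖z‖ := by
        unfold nk
        nlinarith [abs_nonneg (k 0 : ℝ), abs_nonneg (k 1 : ℝ), norm_nonneg z]

/-- The characters. -/
noncomputable def e (k : K) (z : ℝ × ℝ) : ℂ := Complex.exp (phase k z)

theorem norm_e (k : K) (z : ℝ × ℝ) : ‖e k z‖ = 1 := by
  rw [e, phase_apply, Complex.norm_exp_ofReal_mul_I]

theorem e_add (k l : K) (z : ℝ × ℝ) : e (k + l) z = e k z * e l z := by
  rw [e, e, e, ← Complex.exp_add, phase_apply, phase_apply, phase_apply]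
  congr 1
  simp only [Pi.add_apply, Int.cast_add]
  push_cast; ring

theorem e_zero (z : ℝ × ℝ) : e 0 z = 1 := by simp [e, phase_apply]

theorem e_add_int (k : K) (z : ℝ × ℝ) (m n : ℤ) : e k (z + ((m : ℝ), (n : ℝ))) = e k z := by
  rw [e, e, map_add, Complex.exp_add]
  have : phase k ((m : ℝ), (n : ℝ)) = ((k 0 * m + k 1 * n : ℤ) : ℂ) * (2 * Real.pi * I) := by
    rw [phase_apply]; push_cast; ring
  rw [this, Complex.exp_int_mul_two_pi_mul_I, mul_one]

theorem hasFDerivAt_e (k : K) (z : ℝ × ℝ) : HasFDerivAt (e k) (e k z • phase k) z :=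
  (phase k).hasFDerivAt.cexp

/-- The series of a family of coefficients. -/
noncomputable def ser (a : K → ℂ) (z : ℝ × ℝ) : ℂ := ∑' k, a k * e k z

theorem summable_ser {a : K → ℂ} (ha : RD a) (z : ℝ × ℝ) : Summable (fun k => a k * e k z) :=
  Summable.of_norm (by simpa [norm_mul, norm_e] using ha.summable_norm)

/-- The coefficients of a directional derivative. -/
noncomputable def dcoef (v : ℝ × ℝ) (a : K → ℂ) (k : K) : ℂ := phase k v * a k

theorem RD.dcoef {a : K → ℂ} (ha : RD a) (v : ℝ × ℝ) : RD (Fourier.dcoef v a) := by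
  refine ha.of_le (C := 2 * Real.pi * ‖v‖) (m := 1) (by positivity) (fun k => ?_)
  have := nk1_pos k
  calc ‖Fourier.dcoef v a k‖ = ‖phase k v‖ * ‖a k‖ := norm_mul _ _
    _ ≤ ‖phase k‖ * ‖v‖ * ‖a k‖ := by gcongr; exact (phase k).le_opNorm v
    _ ≤ 2 * Real.pi * (1 + nk k) * ‖v‖ * ‖a k‖ := by gcongr; exact norm_phase_le k
    _ = _ := by ring

theorem summable_fderiv_ser {a : K → ℂ} (ha : RD a) :
    Summable (fun k => ‖a k‖ * ‖phase k‖) := by
  refine Summable.of_nonneg_of_le (fun k => by positivity) (fun k => ?_)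
    ((ha.summable_pow 1).mul_left (2 * Real.pi))
  calc ‖a k‖ * ‖phase k‖ ≤ ‖a k‖ * (2 * Real.pi * (1 + nk k)) := by
        gcongr; exact norm_phase_le k
    _ = _ := by ring

theorem hasFDerivAt_ser {a : K → ℂ} (ha : RD a) (z : ℝ × ℝ) :
    HasFDerivAt (ser a) (∑' k, (a k * e k z) • phase k) z := by
  have h : ∀ k y, HasFDerivAt (fun y => a k * e k y) ((a k * e k y) • phase k) y := by
    intro k y
    simpa [smul_smul] using (hasFDerivAt_e k y).const_mul (a k)
  exact hasFDerivAt_tsum (summable_fderiv_ser ha) h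
    (fun k y => le_of_eq (by rw [norm_smul, norm_mul, norm_e, mul_one]))
    (summable_ser ha 0) z

theorem fderiv_ser {a : K → ℂ} (ha : RD a) (z v : ℝ × ℝ) :
    fderiv ℝ (ser a) z v = ser (dcoef v a) z := by
  rw [(hasFDerivAt_ser ha z).fderiv]
  have hs : Summable (fun k => (a k * e k z) • phase k) :=
    Summable.of_norm (by simpa [norm_smul, norm_mul, norm_e] using summable_fderiv_ser ha)
  rw [← ContinuousLinearMap.apply_apply v (∑' k, (a k * e k z) • phase k),
    (ContinuousLinearMap.apply ℝ ℂ v).map_tsum hs, ser]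
  refine tsum_congr (fun k => ?_)
  simp [dcoef]; ring

theorem differentiable_ser {a : K → ℂ} (ha : RD a) : Differentiable ℝ (ser a) :=
  fun z => (hasFDerivAt_ser ha z).differentiableAt

theorem contDiff_ser_nat (n : ℕ) : ∀ {a : K → ℂ}, RD a → ContDiff ℝ n (ser a) := by
  induction n with
  | zero => exact fun ha => contDiff_zero.mpr (differentiable_ser ha).continuous
  | succ n ih =>
    intro a ha
    rw [Nat.cast_succ, contDiff_succ_iff_fderiv_apply]
    refine ⟨differentiable_ser ha, fun h => ?_, fun v => ?_⟩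
    · exact absurd h (by exact_mod_cast WithTop.natCast_ne_top n)
    · have : (fun z => fderiv ℝ (ser a) z v) = ser (dcoef v a) := funext (fun z => fderiv_ser ha z v)
      rw [this]
      exact ih (ha.dcoef v)

theorem contDiff_ser {a : K → ℂ} (ha : RD a) : ContDiff ℝ (⊤ : ℕ∞) (ser a) :=
  contDiff_infty.mpr (fun n => contDiff_ser_nat n ha)

theorem periodic_ser (a : K → ℂ) : Periodic2 (ser a) (1, 0) (0, 1) := by
  intro z
  have h0 := fun k => e_add_int k z 1 0
  have h1 := fun k => e_add_int k z 0 1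
  constructor <;> refine tsum_congr (fun k => ?_)
  · have := h0 k; push_cast at this; rw [this]
  · have := h1 k; push_cast at this; rw [this]

theorem ser_add {a b : K → ℂ} (ha : RD a) (hb : RD b) (z : ℝ × ℝ) :
    ser (a + b) z = ser a z + ser b z := by
  rw [ser, ser, ser, ← (summable_ser ha z).tsum_add (summable_ser hb z)]
  exact tsum_congr (fun k => by simp [add_mul])

theorem ser_smul (c : ℂ) (a : K → ℂ) (z : ℝ × ℝ) : ser (c • a) z = c * ser a z := by
  rw [ser, ser, ← tsum_mul_left]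
  exact tsum_congr (fun k => by simp [mul_assoc])

theorem ser_mul {a b : K → ℂ} (ha : RD a) (hb : RD b) (z : ℝ × ℝ) :
    ser a z * ser b z = ser (conv a b) z := by
  have h1 : Summable (fun k => ‖a k * e k z‖) := by simpa [norm_mul, norm_e] using ha.summable_norm
  have h2 : Summable (fun k => ‖b k * e k z‖) := by simpa [norm_mul, norm_e] using hb.summable_norm
  have hp := summable_mul_of_summable_norm h1 h2
  let ε : K × K ≃ K × K :=
    { toFun := fun p => (p.1 - p.2, p.2)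
      invFun := fun p => (p.1 + p.2, p.2)
      left_inv := fun p => by simp
      right_inv := fun p => by simp }
  rw [ser, ser, tsum_mul_tsum_of_summable_norm h1 h2, ← ε.tsum_eq]
  have hε : ∀ p : K × K, (a (ε p).1 * e (ε p).1 z) * (b (ε p).2 * e (ε p).2 z)
      = a (p.1 - p.2) * b p.2 * e p.1 z := by
    intro p
    have : e p.1 z = e (p.1 - p.2) z * e p.2 z := by rw [← e_add, sub_add_cancel]
    simp only [ε, Equiv.coe_fn_mk, this]; ring
  simp only [hε]
  have hs : Summable (fun p : K × K => a (p.1 - p.2) * b p.2 * e p.1 z) :=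
    (ε.summable_iff.mpr hp).congr hε
  rw [hs.tsum_prod, ser]
  refine tsum_congr (fun k => ?_)
  rw [conv, ← tsum_mul_right]

end P205.Tori.Fourier
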