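import Mathlib

/-!
P205, tori: the Wiener algebra `ℓ¹(ℤ²)` of absolutely convergent Fourier series, as a commutative
Banach algebra under convolution.
-/

namespace P205.Tori

open scoped ENNReal

/-- Frequencies. -/
abbrev Idx := Fin 2 → ℤ

/-- Absolutely summable coefficient families. -/
def L1 : Type := lp (fun _ : Idx => ℂ) 1

namespace L1

noncomputable instance instGroup : NormedAddCommGroup L1 :=
  inferInstanceAs (NormedAddCommGroup (lp (fun _ : Idx => ℂ) 1))

noncomputable instance instSpace : NormedSpace ℂ L1 :=
  inferInstanceAs (NormedSpace ℂ (lp (fun _ : Idx => ℂ) 1))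

noncomputable instance instComplete : CompleteSpace L1 :=
  inferInstanceAs (CompleteSpace (lp (fun _ : Idx => ℂ) 1))

/-- The coefficient at `k`. -/
def coeff (a : L1) (k : Idx) : ℂ := a.1 k

/-- The family as an element. -/
def mk (c : Idx → ℂ) (h : Summable fun k => ‖c k‖) : L1 :=
  ⟨c, memℓp_gen (by simpa using h)⟩

@[simp] theorem coeff_mk (c : Idx → ℂ) (h) (k : Idx) : coeff (mk c h) k = c k := rfl

@[ext] theorem ext {a b : L1} (h : ∀ k, coeff a k = coeff b k) : a = b := Subtype.ext (funext h)

@[simp] theorem coeff_add (a b : L1) (k : Idx) : coeff (a + b) k = coeff a k + coeff b k := rfl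

@[simp] theorem coeff_sub (a b : L1) (k : Idx) : coeff (a - b) k = coeff a k - coeff b k := rfl

@[simp] theorem coeff_neg (a : L1) (k : Idx) : coeff (-a) k = -coeff a k := rfl

@[simp] theorem coeff_zero (k : Idx) : coeff 0 k = 0 := rfl

@[simp] theorem coeff_smul (c : ℂ) (a : L1) (k : Idx) : coeff (c • a) k = c * coeff a k := rfl

theorem summable_norm (a : L1) : Summable fun k => ‖coeff a k‖ := by
  have := (lp.memℓp a).summable (by norm_num)
  simp only [ENNReal.toReal_one, Real.rpow_one] at this
  exact this

theorem norm_eq (a : L1) : ‖a‖ = ∑' k, ‖coeff a k‖ := by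
  have := lp.norm_eq_tsum_rpow (p := 1) (by norm_num) a
  simp only [ENNReal.toReal_one, Real.rpow_one, div_one] at this
  exact this

theorem norm_coeff_le (a : L1) (k : Idx) : ‖coeff a k‖ ≤ ‖a‖ := by
  rw [norm_eq]; exact (summable_norm a).le_tsum k fun j _ => norm_nonneg _

theorem norm_mk_le {c : Idx → ℂ} {g : Idx → ℝ} (hg : Summable g) (h : ∀ k, ‖c k‖ ≤ g k) :
    ∃ hs, ‖mk c hs‖ ≤ ∑' k, g k := by
  have hs := Summable.of_nonneg_of_le (fun k => norm_nonneg (c k)) h hg
  exact ⟨hs, by rw [norm_eq]; exact hs.tsum_le_tsum h hg⟩

/-- The coefficient as a continuous linear functional. -/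
noncomputable def coeffCLM (k : Idx) : L1 →L[ℂ] ℂ :=
  LinearMap.mkContinuous
    { toFun := fun a => coeff a k
      map_add' := fun a b => coeff_add a b k
      map_smul' := fun c a => coeff_smul c a k }
    1 fun a => by rw [one_mul]; exact norm_coeff_le a k

@[simp] theorem coeffCLM_apply (k : Idx) (a : L1) : coeffCLM k a = coeff a k := rfl

/-- The family with one nonzero coefficient. -/
noncomputable def single (k : Idx) (c : ℂ) : L1 := lp.single 1 k c

theorem coeff_single (k : Idx) (c : ℂ) (j : Idx) : coeff (single k c) j = if j = k then c else 0 := by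
  classical
  show (lp.single (E := fun _ : Idx => ℂ) 1 k c : ∀ _, ℂ) j = _
  rw [lp.single_apply]
  by_cases h : j = k
  · subst h; simp
  · simp [h]

theorem norm_single (k : Idx) (c : ℂ) : ‖single k c‖ = ‖c‖ :=
  lp.norm_single (E := fun _ : Idx => ℂ) (by norm_num) k c

theorem hasSum_single (a : L1) : HasSum (fun k => single k (coeff a k)) a :=
  lp.hasSum_single (E := fun _ : Idx => ℂ) ENNReal.one_ne_top a

theorem single_smul (k : Idx) (c : ℂ) : single k c = c • single k 1 := by
  ext j; simp [coeff_single]

/-- Continuous linear maps agreeing on the monomials agree. -/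
theorem clm_ext {X : Type*} [NormedAddCommGroup X] [NormedSpace ℂ X] {f g : L1 →L[ℂ] X}
    (h : ∀ k, f (single k 1) = g (single k 1)) : f = g := by
  ext a
  have e : ∀ k, f (single k (coeff a k)) = g (single k (coeff a k)) := fun k => by
    rw [single_smul, map_smul, map_smul, h]
  have h1 := (hasSum_single a).mapL f
  simp only [e] at h1
  exact h1.unique ((hasSum_single a).mapL g)

/-- Translation of the frequencies. -/
noncomputable def shift (j : Idx) : L1 →L[ℂ] L1 :=
  LinearMap.mkContinuous
    { toFun := fun a => mk (fun k => coeff a (k - j))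
        ((Equiv.subRight j).summable_iff.2 (summable_norm a))
      map_add' := fun a b => by ext k; rfl
      map_smul' := fun c a => by ext k; rfl }
    1 fun a => by
      rw [one_mul, norm_eq, norm_eq]
      exact le_of_eq ((Equiv.subRight j).tsum_eq fun k => ‖coeff a k‖)

theorem coeff_shift (j : Idx) (a : L1) (k : Idx) : coeff (shift j a) k = coeff a (k - j) := rfl

theorem norm_shift_le (j : Idx) : ‖shift j‖ ≤ 1 := LinearMap.mkContinuous_norm_le _ zero_le_one _

theorem shift_single (j k : Idx) (c : ℂ) : shift j (single k c) = single (j + k) c := by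
  ext i
  rw [coeff_shift, coeff_single, coeff_single]
  exact if_congr (by rw [sub_eq_iff_eq_add', add_comm j k]) rfl rfl

theorem summable_mulL (a : L1) : Summable fun j => coeff a j • shift j :=
  Summable.of_norm_bounded (summable_norm a) fun j => by
    rw [norm_smul]; exact mul_le_of_le_one_right (norm_nonneg _) (norm_shift_le j)

theorem norm_tsum_mulL_le (a : L1) : ‖∑' j, coeff a j • shift j‖ ≤ ‖a‖ := by
  refine (tsum_of_norm_bounded (summable_norm a).hasSum fun j => ?_).trans (le_of_eq (norm_eq a).symm)
  rw [norm_smul]; exact mul_le_of_le_one_right (norm_nonneg _) (norm_shift_le j)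

/-- Convolution as a continuous bilinear map. -/
noncomputable def mulL : L1 →L[ℂ] L1 →L[ℂ] L1 :=
  LinearMap.mkContinuous
    { toFun := fun a => ∑' j, coeff a j • shift j
      map_add' := fun a b => by
        rw [← Summable.tsum_add (summable_mulL a) (summable_mulL b)]
        exact tsum_congr fun j => by rw [coeff_add, add_smul]
      map_smul' := fun c a => by
        rw [RingHom.id_apply, ← Summable.tsum_const_smul c (summable_mulL a)]
        exact tsum_congr fun j => by rw [coeff_smul, mul_smul] }
    1 fun a => by rw [one_mul]; exact norm_tsum_mulL_le a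

theorem mulL_single (j : Idx) : mulL (single j 1) = shift j := by
  show (∑' i, coeff (single j 1) i • shift i) = shift j
  rw [tsum_eq_single j fun i hi => by rw [coeff_single, if_neg hi, zero_smul], coeff_single,
    if_pos rfl, one_smul]

theorem mulL_single_single (j k : Idx) : mulL (single j 1) (single k 1) = single (j + k) 1 := by
  rw [mulL_single, shift_single]

theorem mulL_comm (a b : L1) : mulL a b = mulL b a := by
  have h : mulL = mulL.flip := clm_ext fun j => clm_ext fun k => by
    simp [mulL_single_single, add_comm]
  exact congrFun (congrArg DFunLike.coe (congrFun (congrArg DFunLike.coe h) a)) b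

theorem mulL_assoc (a b c : L1) : mulL (mulL a b) c = mulL a (mulL b c) := by
  have h1 : ∀ j k, (mulL.flip (single k 1)).comp (mulL.flip (single j 1))
      = mulL.flip (mulL (single j 1) (single k 1)) := fun j k => clm_ext fun i => by
    simp [mulL_single_single, add_assoc]
  have h2 : ∀ a k, (mulL.flip (single k 1)).comp (mulL a)
      = (mulL a).comp (mulL.flip (single k 1)) := fun a k => clm_ext fun j => by
    simpa using congrFun (congrArg DFunLike.coe (h1 j k)) a
  have h3 : mulL (mulL a b) = (mulL a).comp (mulL b) := clm_ext fun k => by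
    simpa using congrFun (congrArg DFunLike.coe (h2 a k)) b
  exact congrFun (congrArg DFunLike.coe h3) c

theorem norm_mulL_le (a b : L1) : ‖mulL a b‖ ≤ ‖a‖ * ‖b‖ :=
  ((mulL a).le_opNorm b).trans (mul_le_mul_of_nonneg_right (norm_tsum_mulL_le a) (norm_nonneg b))

noncomputable instance instMul : Mul L1 := ⟨fun a b => mulL a b⟩

noncomputable instance instOne : One L1 := ⟨single 0 1⟩

theorem mul_def (a b : L1) : a * b = mulL a b := rfl

theorem one_def : (1 : L1) = single 0 1 := rfl

theorem one_mul' (a : L1) : (1 : L1) * a = a := by
  rw [mul_def, one_def, mulL_single]; ext k; rw [coeff_shift, sub_zero]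

noncomputable instance instCommRing : CommRing L1 :=
  { (inferInstance : AddCommGroup L1), instMul, instOne with
    left_distrib := fun a b c => map_add (mulL a) b c
    right_distrib := fun a b c => by simp only [mul_def, map_add, add_apply]
    zero_mul := fun a => by simp only [mul_def, map_zero, zero_apply]
    mul_zero := fun a => map_zero (mulL a)
    mul_assoc := mulL_assoc
    one_mul := one_mul'
    mul_one := fun a => (mulL_comm a 1).trans (one_mul' a)
    mul_comm := mulL_comm }

noncomputable instance instNormedCommRing : NormedCommRing L1 :=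
  { instGroup, instCommRing with norm_mul_le := norm_mulL_le }

noncomputable instance instNormOneClass : NormOneClass L1 := ⟨(norm_single 0 1).trans norm_one⟩

noncomputable instance instAlgebra : Algebra ℂ L1 :=
  Algebra.ofModule
    (fun c a b => by simp only [mul_def, map_smul, smul_apply])
    (fun c a b => map_smul (mulL a) c b)

noncomputable instance instNormedAlgebra : NormedAlgebra ℂ L1 :=
  { instAlgebra with norm_smul_le := fun c a => (norm_smul c a).le }

theorem coeff_mul (a b : L1) (k : Idx) : coeff (a * b) k = ∑' j, coeff a j * coeff b (k - j) := by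
  have h := ((summable_mulL a).hasSum.mapL (ContinuousLinearMap.apply ℂ L1 b)).mapL (coeffCLM k)
  exact h.tsum_eq.symm

end L1

end P205.Tori
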