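import Mathlib
import Vale.Agent.P205.Tori.FourierBase
import Vale.Agent.P205.Tori.Wiener

/-!
P205, tori: evaluation, multipliers, reality and weighted bounds in the Wiener algebra.
-/

namespace P205.Tori

open P205.Tori.Fourier (e nk phase ser RD)

namespace L1

/-- Evaluation of the series at a point. -/
noncomputable def ev (z : ℝ × ℝ) : L1 →L[ℂ] ℂ :=
  LinearMap.mkContinuous
    { toFun := fun a => ser (coeff a) z
      map_add' := fun a b => by
        have hs : ∀ a : L1, Summable fun k => coeff a k * e k z := fun a =>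
          Summable.of_norm (by simpa [norm_mul, Fourier.norm_e] using summable_norm a)
        simp only [ser]
        rw [← (hs a).tsum_add (hs b)]
        exact tsum_congr fun k => by rw [coeff_add, add_mul]
      map_smul' := fun c a => by
        simp only [ser, RingHom.id_apply, smul_eq_mul]
        rw [← tsum_mul_left]
        exact tsum_congr fun k => by rw [coeff_smul, mul_assoc] }
    1 fun a => by
      rw [one_mul, norm_eq]
      exact tsum_of_norm_bounded (summable_norm a).hasSum fun k => by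
        rw [norm_mul, Fourier.norm_e, mul_one]

theorem ev_apply (z : ℝ × ℝ) (a : L1) : ev z a = ser (coeff a) z := rfl

theorem norm_ev_le (z : ℝ × ℝ) (a : L1) : ‖ev z a‖ ≤ ‖a‖ := by
  have := (ev z).le_of_opNorm_le (LinearMap.mkContinuous_norm_le _ zero_le_one _) a
  simpa [ev] using this

theorem ev_single (z : ℝ × ℝ) (k : Idx) (c : ℂ) : ev z (single k c) = c * e k z := by
  show (∑' j, coeff (single k c) j * e j z) = _
  rw [tsum_eq_single k fun j hj => by rw [coeff_single, if_neg hj, zero_mul], coeff_single,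
    if_pos rfl]

theorem ev_mul (z : ℝ × ℝ) (a b : L1) : ev z (a * b) = ev z a * ev z b := by
  have h1 : ∀ k, (ev z).comp (mulL.flip (single k 1)) = ev z (single k 1) • ev z := fun k =>
    clm_ext fun j => by
      simp [mulL_single_single, ev_single, Fourier.e_add, mul_comm]
  have h2 : (ev z).comp (mulL a) = ev z a • ev z := clm_ext fun k => by
    simpa [mul_comm] using congrFun (congrArg DFunLike.coe (h1 k)) a
  exact congrFun (congrArg DFunLike.coe h2) b

theorem ev_one (z : ℝ × ℝ) : ev z 1 = 1 := by rw [one_def, ev_single, Fourier.e_zero, one_mul]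

theorem ev_pow (z : ℝ × ℝ) (a : L1) (i : ℕ) : ev z (a ^ i) = ev z a ^ i := by
  induction i with
  | zero => simp [ev_one]
  | succ i ih => rw [pow_succ, pow_succ, ev_mul, ih]

theorem ev_exp (z : ℝ × ℝ) (a : L1) : ev z (NormedSpace.exp a) = Complex.exp (ev z a) := by
  have h := (NormedSpace.exp_series_hasSum_exp' (𝕂 := ℂ) a).mapL (ev z)
  simp only [map_smul, ev_pow] at h
  rw [Complex.exp_eq_exp_ℂ]
  exact h.unique (NormedSpace.exp_series_hasSum_exp' (𝕂 := ℂ) (ev z a))

theorem continuous_ev : Continuous fun p : L1 × (ℝ × ℝ) => ev p.2 p.1 := by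
  refine continuous_prod_of_continuous_lipschitzWith (fun p : L1 × (ℝ × ℝ) => ev p.2 p.1) 1
    (fun a => ?_) (fun z => ?_)
  · show Continuous fun y => ∑' k, coeff a k * e k y
    exact continuous_tsum (fun k => (continuous_iff_continuousAt.2 fun y =>
      ((Fourier.hasFDerivAt_e k y).continuousAt.const_mul (coeff a k)))) (summable_norm a) fun k z => by
      rw [norm_mul, Fourier.norm_e, mul_one]
  · exact LipschitzWith.of_dist_le_mul fun a b => by
      rw [NNReal.coe_one, one_mul, dist_eq_norm, dist_eq_norm, ← map_sub]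
      exact norm_ev_le z _

/-- A bounded multiplier. -/
noncomputable def multiplier (m : Idx → ℂ) (C : ℝ) (h : ∀ k, ‖m k‖ ≤ C) : L1 →L[ℂ] L1 :=
  LinearMap.mkContinuous
    { toFun := fun a => mk (fun k => m k * coeff a k)
        (Summable.of_nonneg_of_le (fun k => norm_nonneg _)
          (fun k => (norm_mul_le _ _).trans (mul_le_mul_of_nonneg_right (h k) (norm_nonneg _)))
          ((summable_norm a).mul_left C))
      map_add' := fun a b => by ext k; simp only [coeff_mk, coeff_add, mul_add]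
      map_smul' := fun c a => by
        ext k; simp only [coeff_mk, coeff_smul, RingHom.id_apply]; ring }
    C fun a => by
      rw [norm_eq, norm_eq, ← tsum_mul_left]
      exact (summable_norm _).tsum_le_tsum (fun k => (norm_mul_le _ _).trans
        (mul_le_mul_of_nonneg_right (h k) (norm_nonneg _))) ((summable_norm a).mul_left C)

theorem coeff_multiplier (m : Idx → ℂ) (C : ℝ) (h : ∀ k, ‖m k‖ ≤ C) (a : L1) (k : Idx) :
    coeff (multiplier m C h a) k = m k * coeff a k := rfl

theorem norm_multiplier_le (m : Idx → ℂ) (C : ℝ) (h : ∀ k, ‖m k‖ ≤ C) (hC : 0 ≤ C) (a : L1) :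
    ‖multiplier m C h a‖ ≤ C * ‖a‖ :=
  (multiplier m C h).le_of_opNorm_le (LinearMap.mkContinuous_norm_le _ hC _) a

/-- The coefficients of the conjugate series. -/
def conjc (a : L1) : L1 :=
  mk (fun k => (starRingEnd ℂ) (coeff a (-k))) (by
    exact ((Equiv.neg Idx).summable_iff.2 (summable_norm a)).congr fun k =>
      (by simp : ‖coeff a (-k)‖ = ‖(starRingEnd ℂ) (coeff a (-k))‖))

theorem coeff_conjc (a : L1) (k : Idx) : coeff (conjc a) k = (starRingEnd ℂ) (coeff a (-k)) := rfl

theorem conjc_add (a b : L1) : conjc (a + b) = conjc a + conjc b := by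
  ext k; simp [coeff_conjc]

theorem conjc_sub (a b : L1) : conjc (a - b) = conjc a - conjc b := by
  ext k; simp [coeff_conjc]

theorem conjc_smul (c : ℝ) (a : L1) : conjc ((c : ℂ) • a) = (c : ℂ) • conjc a := by
  ext k; rw [coeff_conjc, coeff_smul, coeff_smul, coeff_conjc, map_mul, Complex.conj_ofReal]

theorem norm_conjc (a : L1) : ‖conjc a‖ = ‖a‖ := by
  rw [norm_eq, norm_eq]
  simp only [coeff_conjc, Complex.norm_conj]
  exact (Equiv.neg Idx).tsum_eq fun k => ‖coeff a k‖

theorem continuous_conjc : Continuous conjc :=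
  (LipschitzWith.of_dist_le_mul (K := 1) fun a b => by
    rw [NNReal.coe_one, one_mul, dist_eq_norm, dist_eq_norm, ← conjc_sub, norm_conjc]).continuous

theorem conjc_mul (a b : L1) : conjc (a * b) = conjc a * conjc b := by
  ext k
  rw [coeff_conjc, coeff_mul, coeff_mul, Complex.conj_tsum, ← (Equiv.neg Idx).tsum_eq]
  refine tsum_congr fun j => ?_
  simp only [Equiv.neg_apply, coeff_conjc, map_mul]
  rw [show -k - -j = -(k - j) by abel]

theorem conjc_one : conjc 1 = 1 := by
  ext k
  rw [coeff_conjc, one_def, coeff_single, coeff_single]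
  by_cases h : k = 0
  · simp [h]
  · rw [if_neg h, if_neg (by simpa using h), map_zero]

theorem conjc_exp (a : L1) : conjc (NormedSpace.exp a) = NormedSpace.exp (conjc a) := by
  have h := (NormedSpace.exp_series_hasSum_exp' (𝕂 := ℂ) a).map
    (AddMonoidHom.mk' conjc conjc_add) continuous_conjc
  have e1 : ∀ i : ℕ, conjc ((i.factorial : ℂ)⁻¹ • a ^ i) = (i.factorial : ℂ)⁻¹ • conjc a ^ i := by
    intro i
    have e2 : conjc (a ^ i) = conjc a ^ i := by
      induction i with
      | zero => simpa using conjc_one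
      | succ i ih => rw [pow_succ, pow_succ, conjc_mul, ih]
    rw [← e2, show ((i.factorial : ℂ))⁻¹ = (((i.factorial : ℝ)⁻¹ : ℝ) : ℂ) by push_cast; ring,
      conjc_smul]
  have h2 : HasSum (fun i : ℕ => (i.factorial : ℂ)⁻¹ • conjc a ^ i) (conjc (NormedSpace.exp a)) :=
    h.congr_fun fun i => (e1 i).symm
  exact h2.unique (NormedSpace.exp_series_hasSum_exp' (𝕂 := ℂ) (conjc a))

theorem ev_conjc (z : ℝ × ℝ) (a : L1) : ev z (conjc a) = (starRingEnd ℂ) (ev z a) := by
  show (∑' k, coeff (conjc a) k * e k z) = (starRingEnd ℂ) (∑' k, coeff a k * e k z)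
  rw [Complex.conj_tsum, ← (Equiv.neg Idx).tsum_eq]
  refine tsum_congr fun k => ?_
  rw [coeff_conjc, Equiv.neg_apply, neg_neg, map_mul]
  congr 1
  rw [Fourier.e, Fourier.e, ← Complex.exp_conj, Fourier.phase_apply, Fourier.phase_apply]
  congr 1
  simp only [map_mul, Complex.conj_I, Complex.conj_ofReal, Pi.neg_apply, Int.cast_neg]
  push_cast
  ring

/-- The weight. -/
noncomputable def wt (n : ℕ) (δ : ℝ) (k : Idx) : ℝ := (1 + δ * nk k) ^ n

/-- The weighted norm is at most `R`. -/
def Bd (n : ℕ) (δ R : ℝ) (a : L1) : Prop := ∀ s : Finset Idx, ∑ k ∈ s, wt n δ k * ‖coeff a k‖ ≤ R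

variable {n : ℕ} {δ R R' : ℝ} {a b : L1}

theorem one_le_wt (hδ : 0 ≤ δ) (k : Idx) : 1 ≤ wt n δ k :=
  one_le_pow₀ (le_add_of_nonneg_right (mul_nonneg hδ (Fourier.nk_nonneg k)))

theorem wt_pos (hδ : 0 ≤ δ) (k : Idx) : 0 < wt n δ k := lt_of_lt_of_le one_pos (one_le_wt hδ k)

theorem wt_add_le (hδ : 0 ≤ δ) (j k : Idx) : wt n δ (j + k) ≤ wt n δ j * wt n δ k := by
  have h1 := mul_nonneg hδ (Fourier.nk_nonneg j)
  have h2 := mul_nonneg hδ (Fourier.nk_nonneg k)
  rw [wt, wt, wt, ← mul_pow]
  refine pow_le_pow_left₀ (by linarith [mul_nonneg hδ (Fourier.nk_nonneg (j + k))]) ?_ n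
  nlinarith [mul_le_mul_of_nonneg_left (Fourier.nk_add_le j k) hδ]

theorem Bd.nonneg (h : Bd n δ R a) : 0 ≤ R := by simpa using h ∅

theorem Bd.mono (h : Bd n δ R a) (hR : R ≤ R') : Bd n δ R' a := fun s => (h s).trans hR

theorem Bd.add (hδ : 0 ≤ δ) (h : Bd n δ R a) (h' : Bd n δ R' b) : Bd n δ (R + R') (a + b) :=
  fun s => by
    refine le_trans (Finset.sum_le_sum fun k _ => ?_)
      ((le_of_eq Finset.sum_add_distrib).trans (add_le_add (h s) (h' s)))
    rw [← mul_add, coeff_add]
    exact mul_le_mul_of_nonneg_left (norm_add_le _ _) (wt_pos hδ k).le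

theorem Bd.neg (h : Bd n δ R a) : Bd n δ R (-a) := fun s => by simpa using h s

theorem Bd.sub (hδ : 0 ≤ δ) (h : Bd n δ R a) (h' : Bd n δ R' b) : Bd n δ (R + R') (a - b) := by
  rw [sub_eq_add_neg]; exact h.add hδ h'.neg

theorem Bd.smul (c : ℂ) (h : Bd n δ R a) : Bd n δ (‖c‖ * R) (c • a) := fun s => by
  simp only [coeff_smul, norm_mul, ← mul_assoc, mul_comm _ ‖c‖]
  simp only [mul_assoc, ← Finset.mul_sum]
  exact mul_le_mul_of_nonneg_left (h s) (norm_nonneg c)

theorem Bd.zero (hR : 0 ≤ R) : Bd n δ R (0 : L1) := fun s => by simpa using hR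

theorem Bd.one : Bd n δ 1 (1 : L1) := fun s => by
  simp only [one_def, coeff_single]
  rw [Finset.sum_congr rfl fun k _ => show wt n δ k * ‖if k = (0 : Idx) then (1 : ℂ) else 0‖
    = if k = 0 then 1 else 0 by split_ifs with h <;> simp [h, wt, nk]]
  rw [Finset.sum_ite_eq']
  split_ifs <;> norm_num

theorem Bd.multiplier (hδ : 0 ≤ δ) (m : Idx → ℂ) (C : ℝ) (hm : ∀ k, ‖m k‖ ≤ C) (h : Bd n δ R a) :
    Bd n δ (C * R) (L1.multiplier m C hm a) := fun s => by
  have hC : 0 ≤ C := (norm_nonneg _).trans (hm 0)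
  refine le_trans (Finset.sum_le_sum fun k _ => ?_) ((le_of_eq (Finset.mul_sum ..).symm).trans
    (mul_le_mul_of_nonneg_left (h s) hC))
  rw [coeff_multiplier, norm_mul, ← mul_assoc C, mul_comm C (wt n δ k), mul_assoc]
  exact mul_le_mul_of_nonneg_left (mul_le_mul_of_nonneg_right (hm k) (norm_nonneg _))
    (wt_pos hδ k).le

theorem Bd.mul (hδ : 0 ≤ δ) (h : Bd n δ R a) (h' : Bd n δ R' b) : Bd n δ (R * R') (a * b) := by
  intro s
  have hs : ∀ k, Summable fun j => ‖coeff a j * coeff b (k - j)‖ := fun k =>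
    Summable.of_nonneg_of_le (fun j => norm_nonneg _)
      (fun j => (norm_mul _ _).trans_le
        (mul_le_mul_of_nonneg_left (norm_coeff_le b _) (norm_nonneg _)))
      ((summable_norm a).mul_right ‖b‖)
  have h1 : ∀ k, wt n δ k * ‖coeff (a * b) k‖
      ≤ ∑' j, wt n δ k * ‖coeff a j * coeff b (k - j)‖ := fun k => by
    rw [coeff_mul, tsum_mul_left]
    exact mul_le_mul_of_nonneg_left (norm_tsum_le_tsum_norm (hs k)) (wt_pos hδ k).le
  refine (Finset.sum_le_sum fun k _ => h1 k).trans ?_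
  rw [← Summable.tsum_finsetSum fun k _ => (hs k).mul_left _]
  refine Real.tsum_le_of_sum_le (fun j => Finset.sum_nonneg fun k _ =>
    mul_nonneg (wt_pos hδ k).le (norm_nonneg _)) fun t => ?_
  have h2 : ∀ j, ∑ k ∈ s, wt n δ k * ‖coeff a j * coeff b (k - j)‖
      ≤ wt n δ j * ‖coeff a j‖ * R' := fun j => by
    have h3 := h' (s.map (Equiv.subRight j).toEmbedding)
    rw [Finset.sum_map] at h3
    refine le_trans ?_ (mul_le_mul_of_nonneg_left h3
      (mul_nonneg (wt_pos hδ j).le (norm_nonneg _)))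
    rw [Finset.mul_sum]
    refine Finset.sum_le_sum fun k _ => ?_
    simp only [Equiv.coe_toEmbedding, Equiv.subRight_apply, norm_mul]
    have h4 := wt_add_le (n := n) hδ j (k - j)
    rw [add_sub_cancel] at h4
    calc wt n δ k * (‖coeff a j‖ * ‖coeff b (k - j)‖)
        ≤ wt n δ j * wt n δ (k - j) * (‖coeff a j‖ * ‖coeff b (k - j)‖) :=
          mul_le_mul_of_nonneg_right h4 (by positivity)
      _ = _ := by ring
  refine (Finset.sum_le_sum fun j _ => h2 j).trans ?_
  rw [← Finset.sum_mul]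
  exact mul_le_mul_of_nonneg_right (h t) h'.nonneg

theorem Bd.pow (hδ : 0 ≤ δ) (h : Bd n δ R a) (i : ℕ) : Bd n δ (R ^ i) (a ^ i) := by
  induction i with
  | zero => simpa using Bd.one
  | succ i ih => rw [pow_succ, pow_succ]; exact ih.mul hδ h

theorem isClosed_Bd : IsClosed {a : L1 | Bd n δ R a} := by
  have : {a : L1 | Bd n δ R a}
      = ⋂ s : Finset Idx, {a | ∑ k ∈ s, wt n δ k * ‖coeff a k‖ ≤ R} := by
    ext a; simp [Bd]
  rw [this]
  exact isClosed_iInter fun s => isClosed_le
    (continuous_finsetSum s fun k _ => continuous_const.mul (coeffCLM k).continuous.norm)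
    continuous_const

theorem Bd.exp (hδ : 0 ≤ δ) (h : Bd n δ R a) : Bd n δ (Real.exp R) (NormedSpace.exp a) := by
  have hs := (NormedSpace.exp_series_hasSum_exp' (𝕂 := ℂ) a).tendsto_sum_nat
  refine isClosed_Bd.mem_of_tendsto hs (Filter.Eventually.of_forall fun N => ?_)
  refine Bd.mono ?_ (Real.sum_le_exp_of_nonneg h.nonneg N)
  induction N with
  | zero => simpa using Bd.zero (n := n) (δ := δ) le_rfl
  | succ N ih =>
    rw [Finset.sum_range_succ, Finset.sum_range_succ]
    refine ih.add hδ ?_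
    have := (h.pow hδ N).smul ((N.factorial : ℂ))⁻¹
    rw [norm_inv, Complex.norm_natCast, inv_mul_eq_div] at this
    exact this

/-- A finite weighted norm of every order gives rapid decay. -/
theorem rd_of_Bd {a : L1} (h : ∀ n : ℕ, ∃ δ R : ℝ, 0 < δ ∧ δ ≤ 1 ∧ Bd n δ R a) :
    RD (coeff a) := by
  intro n
  obtain ⟨δ, R, hδ, hδ1, hB⟩ := h n
  refine ⟨R / δ ^ n, fun k => ?_⟩
  rw [le_div_iff₀ (pow_pos hδ n)]
  have h1 := hB {k}
  rw [Finset.sum_singleton] at h1
  refine le_trans ?_ h1
  rw [mul_assoc, ← mul_pow, mul_comm]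
  refine mul_le_mul_of_nonneg_right (pow_le_pow_left₀ ?_ ?_ n) (norm_nonneg _)
  · exact mul_nonneg (Fourier.nk1_pos k).le hδ.le
  · linarith

/-- Rapidly decreasing data have a weighted norm close to the plain one. -/
theorem exists_Bd {a : L1} (h : RD (coeff a)) (n : ℕ) :
    ∀ᶠ δ in nhdsWithin (0 : ℝ) (Set.Ioi 0), Bd n δ (‖a‖ + 1) a := by
  have ht : Filter.Tendsto (fun δ => ∑' k, wt n δ k * ‖coeff a k‖) (nhdsWithin (0 : ℝ) (Set.Ioi 0))
      (nhds (∑' k, ‖coeff a k‖)) := by
    refine tendsto_tsum_of_dominated_convergence (h.summable_pow n) (fun k => ?_) ?_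
    · have hc : Continuous fun δ : ℝ => wt n δ k * ‖coeff a k‖ := by unfold wt; fun_prop
      simpa [wt] using (hc.tendsto 0).mono_left nhdsWithin_le_nhds
    · filter_upwards [Ioo_mem_nhdsGT one_pos] with δ hδ k
      rw [norm_mul, norm_norm, Real.norm_of_nonneg (wt_pos hδ.1.le k).le, mul_comm]
      refine mul_le_mul_of_nonneg_left (pow_le_pow_left₀ ?_ ?_ n) (norm_nonneg _)
      · have := mul_nonneg hδ.1.le (Fourier.nk_nonneg k); linarith
      · have := mul_le_mul_of_nonneg_right hδ.2.le (Fourier.nk_nonneg k); linarith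
  rw [← norm_eq] at ht
  filter_upwards [ht.eventually_le_const (lt_add_one ‖a‖), Ioo_mem_nhdsGT one_pos] with δ hδ hδ1 s
  refine le_trans (Summable.sum_le_tsum s (fun k _ => mul_nonneg (wt_pos hδ1.1.le k).le
    (norm_nonneg _)) ?_) hδ
  refine Summable.of_nonneg_of_le (fun k => mul_nonneg (wt_pos hδ1.1.le k).le (norm_nonneg _))
    (fun k => ?_) (h.summable_pow n)
  rw [mul_comm]
  refine mul_le_mul_of_nonneg_left (pow_le_pow_left₀ ?_ ?_ n) (norm_nonneg _)
  · have := mul_nonneg hδ1.1.le (Fourier.nk_nonneg k); linarith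
  · have := mul_le_mul_of_nonneg_right hδ1.2.le (Fourier.nk_nonneg k); linarith

end L1

end P205.Tori
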