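import Vale.Agent.P205.Tori.FourierBase

/-!
P205, tori: Fourier coefficients of smooth periodic functions on the plane.
-/

namespace P205.Tori.Fourier

open MeasureTheory Set Complex

noncomputable local instance : MeasureSpace UnitAddCircle := ⟨AddCircle.haarAddCircle⟩

noncomputable local instance :
    Measure.IsAddHaarMeasure (volume : Measure UnitAddCircle) :=
  inferInstanceAs (Measure.IsAddHaarMeasure AddCircle.haarAddCircle)

noncomputable local instance : IsProbabilityMeasure (volume : Measure UnitAddCircle) :=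
  inferInstanceAs (IsProbabilityMeasure AddCircle.haarAddCircle)

/-- Periodic for the integer lattice. -/
abbrev Per (f : ℝ × ℝ → ℂ) : Prop := Periodic2 f (1, 0) (0, 1)

/-- Continuous and periodic. -/
def CP (f : ℝ × ℝ → ℂ) : Prop := Continuous f ∧ Per f

/-- Smooth and periodic. -/
def SP (f : ℝ × ℝ → ℂ) : Prop := ContDiff ℝ (⊤ : ℕ∞) f ∧ Per f

theorem SP.cp {f : ℝ × ℝ → ℂ} (h : SP f) : CP f := ⟨h.1.continuous, h.2⟩

theorem SP.differentiable {f : ℝ × ℝ → ℂ} (h : SP f) : Differentiable ℝ f :=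
  h.1.differentiable (by simp)

theorem sp_ser {a : K → ℂ} (ha : RD a) : SP (ser a) := ⟨contDiff_ser ha, periodic_ser a⟩

/-- The unit square. -/
def square : Set (ℝ × ℝ) := Ioc 0 1 ×ˢ Ioc 0 1

/-- The Fourier coefficients. -/
noncomputable def coef (f : ℝ × ℝ → ℂ) (k : K) : ℂ := ∫ z in square, e (-k) z * f z

theorem volume_square : volume square = 1 := by
  rw [square, Measure.volume_eq_prod, Measure.prod_prod]; simp

theorem integrableOn_square {f : ℝ × ℝ → ℂ} (hf : Continuous f) : IntegrableOn f square :=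
  (hf.continuousOn.integrableOn_compact (isCompact_Icc.prod isCompact_Icc)).mono_set
    (prod_mono Ioc_subset_Icc_self Ioc_subset_Icc_self)

theorem continuous_e (k : K) : Continuous (e k) :=
  continuous_iff_continuousAt.mpr fun z => (hasFDerivAt_e k z).continuousAt

theorem per_e (k : K) : Per (e k) := fun z => by
  refine ⟨?_, ?_⟩
  · simpa using e_add_int k z 1 0
  · simpa using e_add_int k z 0 1

theorem contDiff_e (k : K) : ContDiff ℝ (⊤ : ℕ∞) (e k) := (phase k).contDiff.cexp

theorem sp_e (k : K) : SP (e k) := ⟨contDiff_e k, per_e k⟩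

theorem norm_coef_le {f : ℝ × ℝ → ℂ} {M : ℝ} (h : ∀ z ∈ square, ‖f z‖ ≤ M) (k : K) :
    ‖coef f k‖ ≤ M := by
  have := norm_setIntegral_le_of_norm_le_const (μ := volume) (s := square)
    (f := fun z => e (-k) z * f z) (C := M) (by simp [volume_square])
    (fun z hz => by rw [norm_mul, norm_e, one_mul]; exact h z hz)
  simpa [coef, measureReal_def, volume_square] using this

theorem coef_add {f g : ℝ × ℝ → ℂ} (hf : Continuous f) (hg : Continuous g) (k : K) :
    coef (fun z => f z + g z) k = coef f k + coef g k := by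
  have h1 : IntegrableOn (fun z => e (-k) z * f z) square :=
    integrableOn_square ((continuous_e _).mul hf)
  have h2 : IntegrableOn (fun z => e (-k) z * g z) square :=
    integrableOn_square ((continuous_e _).mul hg)
  rw [coef, coef, coef, ← integral_add h1 h2]
  simp [mul_add]

theorem coef_const_mul (c : ℂ) (f : ℝ × ℝ → ℂ) (k : K) :
    coef (fun z => c * f z) k = c * coef f k := by
  rw [coef, coef, ← integral_const_mul]
  simp [mul_left_comm]

theorem coef_neg (f : ℝ × ℝ → ℂ) (k : K) : coef (fun z => -f z) k = -coef f k := by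
  simpa using coef_const_mul (-1) f k

theorem coef_finset_sum {ι : Type} (s : Finset ι) (f : ι → ℝ × ℝ → ℂ)
    (hf : ∀ i ∈ s, Continuous (f i)) (k : K) :
    coef (fun z => ∑ i ∈ s, f i z) k = ∑ i ∈ s, coef (f i) k := by
  simp only [coef, Finset.mul_sum]
  exact integral_finsetSum s fun i hi => integrableOn_square ((continuous_e _).mul (hf i hi))

theorem coef_mul_e (f : ℝ × ℝ → ℂ) (l k : K) :
    coef (fun z => f z * e l z) k = coef f (k - l) := by
  rw [coef, coef]
  congr 1
  funext z
  rw [neg_sub, sub_eq_neg_add, e_add]; ring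

/-- Differentiation kills the integral over a period. -/
theorem integral_pd_zero {g : ℝ × ℝ → ℂ} (hg : ContDiff ℝ 1 g) (hp : Per g) :
    (∫ z in square, fderiv ℝ g z (1, 0)) = 0 ∧ (∫ z in square, fderiv ℝ g z (0, 1)) = 0 := by
  have hd : Differentiable ℝ g := hg.differentiable one_ne_zero
  have hc : ∀ v, Continuous (fun z => fderiv ℝ g z v) := fun v =>
    (hg.continuous_fderiv one_ne_zero).clm_apply continuous_const
  have hrw : (volume : Measure (ℝ × ℝ)).restrict square
      = (volume.restrict (Ioc (0 : ℝ) 1)).prod (volume.restrict (Ioc (0 : ℝ) 1)) := by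
    rw [Measure.prod_restrict, square, ← Measure.volume_eq_prod]
  have hi : ∀ v, Integrable (fun z => fderiv ℝ g z v)
      ((volume.restrict (Ioc (0 : ℝ) 1)).prod (volume.restrict (Ioc (0 : ℝ) 1))) := fun v => by
    have := integrableOn_square (hc v)
    rwa [IntegrableOn, hrw] at this
  constructor
  · rw [hrw, integral_prod_symm _ (hi _)]
    refine integral_eq_zero_of_ae (Filter.Eventually.of_forall fun y => ?_)
    show ∫ x in Ioc (0 : ℝ) 1, fderiv ℝ g (x, y) (1, 0) = 0
    rw [← intervalIntegral.integral_of_le zero_le_one,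
      intervalIntegral.integral_eq_sub_of_hasDerivAt (f := fun x => g (x, y))]
    · have := (hp (0, y)).1; simp at this; rw [this, sub_self]
    · exact fun x _ => (hd (x, y)).hasFDerivAt.comp_hasDerivAt x
        ((hasDerivAt_id x).prodMk (hasDerivAt_const x y))
    · exact ((hc _).comp (continuous_id.prodMk continuous_const)).intervalIntegrable _ _
  · rw [hrw, integral_prod _ (hi _)]
    refine integral_eq_zero_of_ae (Filter.Eventually.of_forall fun x => ?_)
    show ∫ y in Ioc (0 : ℝ) 1, fderiv ℝ g (x, y) (0, 1) = 0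
    rw [← intervalIntegral.integral_of_le zero_le_one,
      intervalIntegral.integral_eq_sub_of_hasDerivAt (f := fun y => g (x, y))]
    · have := (hp (x, 0)).2; simp at this; rw [this, sub_self]
    · exact fun y _ => (hd (x, y)).hasFDerivAt.comp_hasDerivAt y
        ((hasDerivAt_const y x).prodMk (hasDerivAt_id y))
    · exact ((hc _).comp (continuous_const.prodMk continuous_id)).intervalIntegrable _ _

theorem per_fderiv {f : ℝ × ℝ → ℂ} (h : Per f) (v : ℝ × ℝ) :
    Per (fun z => fderiv ℝ f z v) := by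
  have key : ∀ c : ℝ × ℝ, (∀ z, f (z + c) = f z) → ∀ z, fderiv ℝ f (z + c) = fderiv ℝ f z := by
    intro c hc z
    rw [← fderiv_comp_add_right]
    congr 1
    exact funext hc
  exact fun z => ⟨by simp only [key _ (fun z => (h z).1) z],
    by simp only [key _ (fun z => (h z).2) z]⟩

theorem SP.pd {f : ℝ × ℝ → ℂ} (h : SP f) (v : ℝ × ℝ) : SP (fun z => fderiv ℝ f z v) :=
  ⟨(h.1.fderiv_right (by norm_cast)).clm_apply contDiff_const, per_fderiv h.2 v⟩

theorem coef_pd_basic {f : ℝ × ℝ → ℂ} (h : SP f) (k : K) (v : ℝ × ℝ)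
    (hv : v = (1, 0) ∨ v = (0, 1)) :
    coef (fun z => fderiv ℝ f z v) k = phase k v * coef f k := by
  set g : ℝ × ℝ → ℂ := fun z => e (-k) z * f z
  have hg : ContDiff ℝ 1 g :=
    ((contDiff_e _).mul h.1).of_le (by exact_mod_cast (le_top : ((1 : ℕ) : ℕ∞) ≤ ⊤))
  have hp : Per g := fun z => ⟨by simp only [g, (per_e _ z).1, (h.2 z).1],
    by simp only [g, (per_e _ z).2, (h.2 z).2]⟩
  have hfd : ∀ z, fderiv ℝ g z v = e (-k) z * fderiv ℝ f z v - phase k v * (e (-k) z * f z) := by
    intro z
    have := ((hasFDerivAt_e (-k) z).fun_mul (h.differentiable z).hasFDerivAt).fderiv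
    rw [show g = fun z => e (-k) z * f z from rfl, this]
    have hn : phase (-k) v = -phase k v := by simp [phase_apply]; ring
    simp [hn]; ring
  have hz : (∫ z in square, fderiv ℝ g z v) = 0 := by
    rcases hv with rfl | rfl
    · exact (integral_pd_zero hg hp).1
    · exact (integral_pd_zero hg hp).2
  simp only [hfd] at hz
  have h1 : IntegrableOn (fun z => e (-k) z * fderiv ℝ f z v) square :=
    integrableOn_square ((continuous_e _).mul (h.pd v).1.continuous)
  have h2 : IntegrableOn (fun z => phase k v * (e (-k) z * f z)) square :=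
    integrableOn_square (continuous_const.mul ((continuous_e _).mul h.1.continuous))
  rw [integral_sub h1 h2, integral_const_mul, sub_eq_zero] at hz
  exact hz

theorem coef_dx {f : ℝ × ℝ → ℂ} (h : SP f) (k : K) :
    coef (fun z => fderiv ℝ f z (1, 0)) k = (2 * Real.pi * (k 0 : ℝ) * I : ℂ) * coef f k := by
  rw [coef_pd_basic h k _ (Or.inl rfl)]
  congr 1; rw [phase_apply]; push_cast; ring

theorem coef_dy {f : ℝ × ℝ → ℂ} (h : SP f) (k : K) :
    coef (fun z => fderiv ℝ f z (0, 1)) k = (2 * Real.pi * (k 1 : ℝ) * I : ℂ) * coef f k := by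
  rw [coef_pd_basic h k _ (Or.inr rfl)]
  congr 1; rw [phase_apply]; push_cast; ring

theorem rd_coef {f : ℝ × ℝ → ℂ} (h : SP f) : RD (coef f) := by
  intro n
  induction n generalizing f with
  | zero =>
    obtain ⟨M, hM⟩ := (isCompact_Icc.prod isCompact_Icc).exists_bound_of_continuousOn
      (s := Icc (0 : ℝ) 1 ×ˢ Icc (0 : ℝ) 1) h.1.continuous.continuousOn
    exact ⟨M, fun k => by
      simpa using norm_coef_le (fun z hz => hM z
        (prod_mono Ioc_subset_Icc_self Ioc_subset_Icc_self hz)) k⟩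
  | succ n ih =>
    obtain ⟨A, hA⟩ := ih h
    obtain ⟨B, hB⟩ := ih (h.pd (1, 0))
    obtain ⟨C, hC⟩ := ih (h.pd (0, 1))
    refine ⟨A + B + C, fun k => ?_⟩
    have hpos : 0 ≤ (1 + nk k) ^ n := pow_nonneg (nk1_pos k).le n
    have hπ : (1 : ℝ) ≤ 2 * Real.pi := by linarith [Real.pi_gt_three]
    have e0 : |(k 0 : ℝ)| * ‖coef f k‖ ≤ ‖coef (fun z => fderiv ℝ f z (1, 0)) k‖ := by
      rw [coef_dx h, norm_mul]
      refine mul_le_mul_of_nonneg_right ?_ (norm_nonneg _)
      simp [abs_of_pos Real.pi_pos]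
      nlinarith [abs_nonneg (k 0 : ℝ)]
    have e1 : |(k 1 : ℝ)| * ‖coef f k‖ ≤ ‖coef (fun z => fderiv ℝ f z (0, 1)) k‖ := by
      rw [coef_dy h, norm_mul]
      refine mul_le_mul_of_nonneg_right ?_ (norm_nonneg _)
      simp [abs_of_pos Real.pi_pos]
      nlinarith [abs_nonneg (k 1 : ℝ)]
    calc ‖coef f k‖ * (1 + nk k) ^ (n + 1)
        = ‖coef f k‖ * (1 + nk k) ^ n + (|(k 0 : ℝ)| * ‖coef f k‖) * (1 + nk k) ^ n
          + (|(k 1 : ℝ)| * ‖coef f k‖) * (1 + nk k) ^ n := by unfold nk; ring
      _ ≤ A + B + C := add_le_add (add_le_add (hA k)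
          ((mul_le_mul_of_nonneg_right e0 hpos).trans (hB k)))
          ((mul_le_mul_of_nonneg_right e1 hpos).trans (hC k))

/-- The projection to the torus. -/
noncomputable def toT (z : ℝ × ℝ) : UnitAddTorus (Fin 2) :=
  (Homeomorph.finTwoArrow (X := UnitAddCircle)).symm ((z.1 : UnitAddCircle), (z.2 : UnitAddCircle))

theorem isQuotientMap_toT : Topology.IsQuotientMap toT :=
  (Homeomorph.finTwoArrow (X := UnitAddCircle)).symm.isQuotientMap.comp
    (QuotientAddGroup.isOpenQuotientMap_mk.prodMap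
      QuotientAddGroup.isOpenQuotientMap_mk).isQuotientMap

/-- A periodic function, on the torus. -/
noncomputable def lift (f : ℝ × ℝ → ℂ) (t : UnitAddTorus (Fin 2)) : ℂ :=
  f ((AddCircle.equivIco 1 0 (t 0) : ℝ), (AddCircle.equivIco 1 0 (t 1) : ℝ))

theorem per_int {f : ℝ × ℝ → ℂ} (h : Per f) (z : ℝ × ℝ) (m n : ℤ) :
    f (z + ((m : ℝ), (n : ℝ))) = f z := by
  have h0 : Function.Periodic f (1, 0) := fun z => (h z).1
  have h1 : Function.Periodic f (0, 1) := fun z => (h z).2
  have := ((h0.zsmul m).add_period (h1.zsmul n)) z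
  simpa using this

theorem exists_equivIco_eq (x : ℝ) :
    ∃ m : ℤ, (AddCircle.equivIco 1 0 (x : UnitAddCircle) : ℝ) = x + m := by
  have hx : ((AddCircle.equivIco 1 0 (x : UnitAddCircle) : ℝ) : UnitAddCircle) = (x : UnitAddCircle) :=
    (AddCircle.equivIco 1 0).symm_apply_apply _
  rw [← sub_eq_zero, ← AddCircle.coe_sub, AddCircle.coe_eq_zero_iff] at hx
  obtain ⟨m, hm⟩ := hx
  rw [zsmul_eq_mul, mul_one] at hm
  exact ⟨m, by linarith⟩

theorem lift_toT {f : ℝ × ℝ → ℂ} (h : Per f) (z : ℝ × ℝ) : lift f (toT z) = f z := by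
  obtain ⟨m, hm⟩ := exists_equivIco_eq z.1
  obtain ⟨n, hn⟩ := exists_equivIco_eq z.2
  simp only [lift, toT, Homeomorph.finTwoArrow_symm_apply, Matrix.cons_val_zero,
    Matrix.cons_val_one, hm, hn]
  exact per_int h z m n

theorem continuous_lift {f : ℝ × ℝ → ℂ} (h : CP f) : Continuous (lift f) := by
  rw [isQuotientMap_toT.continuous_iff]
  have : lift f ∘ toT = f := funext (lift_toT h.2)
  rw [this]; exact h.1

theorem mFourier_toT (k : K) (z : ℝ × ℝ) : UnitAddTorus.mFourier k (toT z) = e k z := by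
  simp only [UnitAddTorus.mFourier, ContinuousMap.coe_mk, Fin.prod_univ_two, toT,
    Homeomorph.finTwoArrow_symm_apply, Matrix.cons_val_zero, Matrix.cons_val_one,
    fourier_coe_apply, e, ← Complex.exp_add, phase_apply]
  congr 1; push_cast; ring

theorem integral_torus (g : UnitAddTorus (Fin 2) → ℂ) :
    ∫ t, g t = ∫ z in square, g (toT z) := by
  rw [UnitAddTorus.integral_preimage g 0,
    ← (volume_preserving_finTwoArrow ℝ).symm.setIntegral_preimage_emb
      MeasurableEquiv.finTwoArrow.symm.measurableEmbedding]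
  congr 1
  · congr 1
    ext z
    simp [square, Fin.forall_fin_two, MeasurableEquiv.finTwoArrow]
  · funext z
    congr 1
    funext i
    fin_cases i <;> simp [toT, MeasurableEquiv.finTwoArrow]

theorem mFourierCoeff_lift {f : ℝ × ℝ → ℂ} (h : Per f) (k : K) :
    UnitAddTorus.mFourierCoeff (lift f) k = coef f k := by
  rw [UnitAddTorus.mFourierCoeff, integral_torus, coef]
  simp [smul_eq_mul, mFourier_toT, lift_toT h]

/-- Inversion. -/
theorem ser_coef {f : ℝ × ℝ → ℂ} (h : SP f) (z : ℝ × ℝ) : ser (coef f) z = f z := by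
  let F : C(UnitAddTorus (Fin 2), ℂ) := ⟨lift f, continuous_lift h.cp⟩
  have hF : UnitAddTorus.mFourierCoeff F = coef f := funext (mFourierCoeff_lift h.2)
  have hs : Summable (UnitAddTorus.mFourierCoeff F) := by rw [hF]; exact (rd_coef h).summable
  have := UnitAddTorus.hasSum_mFourier_series_apply_of_summable hs (toT z)
  rw [hF] at this
  simp only [mFourier_toT, smul_eq_mul] at this
  rw [show F (toT z) = f z from lift_toT h.2 z] at this
  exact this.tsum_eq

/-- Parseval. -/
theorem hasSum_sq_coef {f : ℝ × ℝ → ℂ} (h : CP f) :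
    HasSum (fun k => ‖coef f k‖ ^ 2) (∫ z in square, ‖f z‖ ^ 2) := by
  let F : C(UnitAddTorus (Fin 2), ℂ) := ⟨lift f, continuous_lift h⟩
  have := UnitAddTorus.hasSum_sq_mFourierCoeff (ContinuousMap.toLp 2 volume ℂ F)
  simp only [UnitAddTorus.mFourierCoeff_toLp] at this
  have hc : UnitAddTorus.mFourierCoeff F = coef f := funext (mFourierCoeff_lift h.2)
  rw [hc] at this
  have hi : ∫ t, ‖ContinuousMap.toLp (E := ℂ) 2 volume ℂ F t‖ ^ 2
      = ∫ z in square, ‖f z‖ ^ 2 := by
    have e1 : ∫ t, ‖ContinuousMap.toLp (E := ℂ) 2 volume ℂ F t‖ ^ 2 = ∫ t, ‖F t‖ ^ 2 := by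
      refine integral_congr_ae ?_
      filter_upwards [ContinuousMap.coeFn_toLp (p := 2) (𝕜 := ℂ) volume F] with t ht
      rw [ht]
    have e2 := integral_torus (fun t => ((‖F t‖ ^ 2 : ℝ) : ℂ))
    have e3 : ∀ z, F (toT z) = f z := fun z => lift_toT h.2 z
    simp only [e3, integral_complex_ofReal] at e2
    rw [e1]; exact Complex.ofReal_inj.mp e2
  rwa [hi] at this

theorem coef_e (l k : K) : coef (e l) k = if k = l then 1 else 0 := by
  have h1 : coef (e l) k = coef (fun _ => 1) (k - l) := by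
    rw [← coef_mul_e]; simp
  rw [h1]
  split_ifs with hkl
  · simp [hkl, coef, e_zero, measureReal_def, volume_square]
  · have hsp : SP (fun _ : ℝ × ℝ => (1 : ℂ)) := ⟨contDiff_const, fun _ => ⟨rfl, rfl⟩⟩
    obtain ⟨i, hi⟩ := Function.ne_iff.mp hkl
    have hz : ∀ v : ℝ × ℝ, coef (fun z => fderiv ℝ (fun _ : ℝ × ℝ => (1 : ℂ)) z v) (k - l) = 0 := by
      intro v; simp [coef]
    have hne : ((k - l) i : ℂ) ≠ 0 := by
      simpa [sub_eq_zero] using hi
    fin_cases i
    · have h := coef_dx hsp (k - l); rw [hz] at h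
      simp only [zero_eq_mul, mul_eq_zero] at h
      simp only [Pi.sub_apply, Int.cast_sub, Fin.zero_eta] at h hne
      simp [Real.pi_ne_zero, I_ne_zero, hne] at h
      exact h
    · have h := coef_dy hsp (k - l); rw [hz] at h
      simp only [zero_eq_mul, mul_eq_zero] at h
      simp only [Pi.sub_apply, Int.cast_sub, Fin.mk_one] at h hne
      simp [Real.pi_ne_zero, I_ne_zero, hne] at h
      exact h

end P205.Tori.Fourier
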