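import Mathlib
import Vale.Agent.P205.Tori.Interfaces
import Vale.Agent.P205.Tori.Calc
import Vale.Agent.P205.Tori.Fourier
import Vale.Agent.P205.Tori.Coeff

/-!
P205, tori, module Solve (notes/P205/TORI.md §2): small periodic solutions of the flatness
equation, by contraction in the Wiener algebra; the weighted norms give smoothness and the closed
connection form shows that the mean of the right-hand side vanishes.
-/

namespace P205.Tori.Solve

open MeasureTheory Filter Topology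
open P205.Tori.Fourier (phase nk RD ser e SP coef square)

/-- A lattice of full rank. -/
structure Lat where
  l₁ : ℝ × ℝ
  l₂ : ℝ × ℝ
  det : l₁.1 * l₂.2 - l₁.2 * l₂.1 ≠ 0

variable (Λ : Lat)

namespace Lat

/-- The determinant. -/
def d : ℝ := Λ.l₁.1 * Λ.l₂.2 - Λ.l₁.2 * Λ.l₂.1

theorem d_ne : Λ.d ≠ 0 := Λ.det

/-- From the unit square to the cell. -/
noncomputable def L : ℝ × ℝ →L[ℝ] ℝ × ℝ :=
  (ContinuousLinearMap.fst ℝ ℝ ℝ).smulRight Λ.l₁ + (ContinuousLinearMap.snd ℝ ℝ ℝ).smulRight Λ.l₂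

/-- Its inverse. -/
noncomputable def W : ℝ × ℝ →L[ℝ] ℝ × ℝ :=
  (Λ.d⁻¹ • (Λ.l₂.2 • ContinuousLinearMap.fst ℝ ℝ ℝ - Λ.l₂.1 • ContinuousLinearMap.snd ℝ ℝ ℝ)).prod
    (Λ.d⁻¹ • (Λ.l₁.1 • ContinuousLinearMap.snd ℝ ℝ ℝ - Λ.l₁.2 • ContinuousLinearMap.fst ℝ ℝ ℝ))

theorem L_apply (z : ℝ × ℝ) : Λ.L z = z.1 • Λ.l₁ + z.2 • Λ.l₂ := rfl

theorem W_apply (z : ℝ × ℝ) :
    Λ.W z = (Λ.d⁻¹ * (Λ.l₂.2 * z.1 - Λ.l₂.1 * z.2), Λ.d⁻¹ * (Λ.l₁.1 * z.2 - Λ.l₁.2 * z.1)) := by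
  simp [W]

theorem L_W (z : ℝ × ℝ) : Λ.L (Λ.W z) = z := by
  have := Λ.d_ne
  ext <;> simp [L_apply, W_apply] <;> field_simp <;> simp [d] <;> ring

theorem W_L (z : ℝ × ℝ) : Λ.W (Λ.L z) = z := by
  have := Λ.d_ne
  ext <;> simp [L_apply, W_apply] <;> field_simp <;> simp [d] <;> ring

theorem W_l₁ : Λ.W Λ.l₁ = (1, 0) := by
  simpa [L_apply] using Λ.W_L (1, 0)

theorem W_l₂ : Λ.W Λ.l₂ = (0, 1) := by
  simpa [L_apply] using Λ.W_L (0, 1)

/-- The frequency vector of `k`, paired with `w`. -/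
noncomputable def q (k : Idx) (w : ℝ × ℝ) : ℝ := (phase k (Λ.W w)).im

theorem phase_eq (k : Idx) (w : ℝ × ℝ) : phase k (Λ.W w) = (Λ.q k w : ℂ) * Complex.I := by
  simp [q, Fourier.phase_apply]

theorem q_eq (k : Idx) (w : ℝ × ℝ) :
    Λ.q k w = w.1 * Λ.q k (1, 0) + w.2 * Λ.q k (0, 1) := by
  have h : w = w.1 • ((1 : ℝ), (0 : ℝ)) + w.2 • ((0 : ℝ), (1 : ℝ)) := by ext <;> simp
  conv_lhs => rw [h]
  simp only [q, map_add, map_smul, Complex.add_im, Complex.smul_im, smul_eq_mul]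

theorem q_neg (k : Idx) (w : ℝ × ℝ) : Λ.q (-k) w = -Λ.q k w := by
  simp [q, Fourier.phase_apply]
  ring

theorem q_l₁ (k : Idx) : Λ.q k Λ.l₁ = 2 * Real.pi * k 0 := by
  simp [q, W_l₁, Fourier.phase_apply]

theorem q_l₂ (k : Idx) : Λ.q k Λ.l₂ = 2 * Real.pi * k 1 := by
  simp [q, W_l₂, Fourier.phase_apply]

/-- The symbol of `-Δ`. -/
noncomputable def D (k : Idx) : ℝ := Λ.q k (1, 0) ^ 2 + Λ.q k (0, 1) ^ 2

theorem D_nonneg (k : Idx) : 0 ≤ Λ.D k := by unfold D; positivity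

theorem D_zero : Λ.D 0 = 0 := by simp [D, q, Fourier.phase_apply]

/-- The bound of the multipliers. -/
noncomputable def C : ℝ := Λ.l₁.1 ^ 2 + Λ.l₁.2 ^ 2 + Λ.l₂.1 ^ 2 + Λ.l₂.2 ^ 2 + 1

theorem one_le_C : 1 ≤ Λ.C := le_add_of_nonneg_left (by positivity)

theorem C_nonneg : 0 ≤ Λ.C := zero_le_one.trans Λ.one_le_C

theorem one_le_CD {k : Idx} (hk : k ≠ 0) : 1 ≤ (Λ.C - 1) * Λ.D k := by
  obtain ⟨i, hi⟩ := Function.ne_iff.mp hk
  have key : ∀ (m : ℤ) (l : ℝ × ℝ), m ≠ 0 → Λ.q k l = 2 * Real.pi * m →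
      1 ≤ (l.1 ^ 2 + l.2 ^ 2) * Λ.D k := by
    intro m l hm hl
    have h1 : (1 : ℝ) ≤ (m : ℝ) ^ 2 := by
      exact_mod_cast Int.one_le_abs hm |>.trans (Int.le_self_sq |m| |>.trans_eq (sq_abs m))
    have h2 : (1 : ℝ) ≤ (2 * Real.pi) ^ 2 := by nlinarith [Real.pi_gt_three]
    rw [Λ.q_eq] at hl
    calc (1 : ℝ) ≤ (2 * Real.pi * m) ^ 2 := by rw [mul_pow]; nlinarith
      _ ≤ _ := by
          rw [← hl]; unfold D
          nlinarith [sq_nonneg (l.1 * Λ.q k (0, 1) - l.2 * Λ.q k (1, 0))]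
  have hD := Λ.D_nonneg k
  fin_cases i
  · refine (key (k 0) Λ.l₁ (by simpa using hi) (Λ.q_l₁ k)).trans ?_
    unfold C
    nlinarith [mul_nonneg (sq_nonneg Λ.l₂.1) hD, mul_nonneg (sq_nonneg Λ.l₂.2) hD]
  · refine (key (k 1) Λ.l₂ (by simpa using hi) (Λ.q_l₂ k)).trans ?_
    unfold C
    nlinarith [mul_nonneg (sq_nonneg Λ.l₁.1) hD, mul_nonneg (sq_nonneg Λ.l₁.2) hD]

theorem D_ne {k : Idx} (hk : k ≠ 0) : Λ.D k ≠ 0 := fun h => by
  have := Λ.one_le_CD hk; rw [h, mul_zero] at this; linarith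

theorem inv_D_le (k : Idx) : (Λ.D k)⁻¹ ≤ Λ.C - 1 := by
  rcases eq_or_ne k 0 with rfl | hk
  · rw [D_zero, inv_zero]; linarith [Λ.one_le_C]
  · rw [inv_le_iff_one_le_mul₀ (lt_of_le_of_ne (Λ.D_nonneg k) (Λ.D_ne hk).symm)]
    exact Λ.one_le_CD hk

noncomputable def m0 (k : Idx) : ℂ := ((-(Λ.D k)⁻¹ : ℝ) : ℂ)
noncomputable def mx (k : Idx) : ℂ := phase k (Λ.W (1, 0)) * Λ.m0 k
noncomputable def my (k : Idx) : ℂ := phase k (Λ.W (0, 1)) * Λ.m0 k
noncomputable def mxx (k : Idx) : ℂ := phase k (Λ.W (1, 0)) * Λ.mx k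
noncomputable def mxy (k : Idx) : ℂ := phase k (Λ.W (0, 1)) * Λ.mx k
noncomputable def myy (k : Idx) : ℂ := phase k (Λ.W (0, 1)) * Λ.my k

theorem norm_m0 (k : Idx) : ‖Λ.m0 k‖ ≤ Λ.C := by
  rw [m0, Complex.norm_real, norm_neg, Real.norm_of_nonneg (inv_nonneg.2 (Λ.D_nonneg k))]
  linarith [Λ.inv_D_le k]

theorem norm_phase_m0 (k : Idx) (w : ℝ × ℝ) :
    ‖phase k (Λ.W w) * Λ.m0 k‖ = |Λ.q k w| * (Λ.D k)⁻¹ := by
  rw [norm_mul, phase_eq, norm_mul, Complex.norm_real, Complex.norm_I, mul_one, m0,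
    Complex.norm_real, norm_neg, Real.norm_of_nonneg (inv_nonneg.2 (Λ.D_nonneg k)),
    Real.norm_eq_abs]

theorem norm_phase2_m0 (k : Idx) (w w' : ℝ × ℝ) :
    ‖phase k (Λ.W w) * (phase k (Λ.W w') * Λ.m0 k)‖ = |Λ.q k w| * |Λ.q k w'| * (Λ.D k)⁻¹ := by
  rw [norm_mul, norm_phase_m0, phase_eq, norm_mul, Complex.norm_real, Complex.norm_I, mul_one,
    Real.norm_eq_abs, mul_assoc]

theorem first_le {a b k} (h : a ^ 2 + b ^ 2 = Λ.D k) : |a| * (Λ.D k)⁻¹ ≤ Λ.C := by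
  have h0 := inv_nonneg.2 (Λ.D_nonneg k)
  have h1 : |a| ≤ 1 + Λ.D k := by nlinarith [sq_abs a, sq_nonneg (|a| - 1), sq_nonneg b]
  calc |a| * (Λ.D k)⁻¹ ≤ (Λ.D k)⁻¹ + Λ.D k * (Λ.D k)⁻¹ := by
        nlinarith [mul_le_mul_of_nonneg_right h1 h0]
    _ ≤ (Λ.C - 1) + 1 := add_le_add (Λ.inv_D_le k) mul_inv_le_one
    _ = Λ.C := by ring

theorem second_le {a b k} (h : |a| * |b| ≤ Λ.D k) : |a| * |b| * (Λ.D k)⁻¹ ≤ Λ.C :=
  (mul_le_mul_of_nonneg_right h (inv_nonneg.2 (Λ.D_nonneg k))).trans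
    (mul_inv_le_one.trans Λ.one_le_C)

theorem norm_mx (k : Idx) : ‖Λ.mx k‖ ≤ Λ.C := by
  rw [mx, norm_phase_m0]; exact Λ.first_le (b := Λ.q k (0, 1)) rfl

theorem norm_my (k : Idx) : ‖Λ.my k‖ ≤ Λ.C := by
  rw [my, norm_phase_m0]; exact Λ.first_le (b := Λ.q k (1, 0)) (add_comm _ _)

theorem norm_mxx (k : Idx) : ‖Λ.mxx k‖ ≤ Λ.C := by
  rw [mxx, mx, norm_phase2_m0]
  exact Λ.second_le (by unfold D; nlinarith [sq_abs (Λ.q k (1, 0)), sq_nonneg (Λ.q k (0, 1))])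

theorem norm_mxy (k : Idx) : ‖Λ.mxy k‖ ≤ Λ.C := by
  rw [mxy, mx, norm_phase2_m0]
  exact Λ.second_le (by
    unfold D
    nlinarith [sq_abs (Λ.q k (1, 0)), sq_abs (Λ.q k (0, 1)),
      sq_nonneg (|Λ.q k (1, 0)| - |Λ.q k (0, 1)|)])

theorem norm_myy (k : Idx) : ‖Λ.myy k‖ ≤ Λ.C := by
  rw [myy, my, norm_phase2_m0]
  exact Λ.second_le (by unfold D; nlinarith [sq_abs (Λ.q k (0, 1)), sq_nonneg (Λ.q k (1, 0))])

noncomputable def M0 : L1 →L[ℂ] L1 := L1.multiplier Λ.m0 Λ.C Λ.norm_m0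
noncomputable def Mx : L1 →L[ℂ] L1 := L1.multiplier Λ.mx Λ.C Λ.norm_mx
noncomputable def My : L1 →L[ℂ] L1 := L1.multiplier Λ.my Λ.C Λ.norm_my
noncomputable def Mxx : L1 →L[ℂ] L1 := L1.multiplier Λ.mxx Λ.C Λ.norm_mxx
noncomputable def Mxy : L1 →L[ℂ] L1 := L1.multiplier Λ.mxy Λ.C Λ.norm_mxy
noncomputable def Myy : L1 →L[ℂ] L1 := L1.multiplier Λ.myy Λ.C Λ.norm_myy

end Lat

/-! ### Real series -/

/-- A real series. -/
def IsR (a : L1) : Prop := L1.conjc a = a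

variable {a b : L1}

theorem IsR.zero : IsR (0 : L1) := by ext k; simp [L1.coeff_conjc]
theorem IsR.add (ha : IsR a) (hb : IsR b) : IsR (a + b) := by
  unfold IsR at *; rw [L1.conjc_add, ha, hb]
theorem IsR.sub (ha : IsR a) (hb : IsR b) : IsR (a - b) := by
  unfold IsR at *; rw [L1.conjc_sub, ha, hb]
theorem IsR.mul (ha : IsR a) (hb : IsR b) : IsR (a * b) := by
  unfold IsR at *; rw [L1.conjc_mul, ha, hb]
theorem IsR.exp (ha : IsR a) : IsR (NormedSpace.exp a) := by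
  unfold IsR at *; rw [L1.conjc_exp, ha]
theorem IsR.smul (c : ℝ) (ha : IsR a) : IsR ((c : ℂ) • a) := by
  unfold IsR at *; rw [L1.conjc_smul, ha]
theorem IsR.multiplier {m : Idx → ℂ} {C : ℝ} (h : ∀ k, ‖m k‖ ≤ C)
    (hm : ∀ k, (starRingEnd ℂ) (m (-k)) = m k) (ha : IsR a) : IsR (L1.multiplier m C h a) := by
  have e : ∀ k, (starRingEnd ℂ) (L1.coeff a (-k)) = L1.coeff a k := fun k => by
    rw [← L1.coeff_conjc]; exact congrArg (fun x => L1.coeff x k) ha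
  ext k
  rw [L1.coeff_conjc, L1.coeff_multiplier, L1.coeff_multiplier, map_mul, hm, e]

theorem isClosed_IsR : IsClosed {a : L1 | IsR a} :=
  isClosed_eq L1.continuous_conjc continuous_id

theorem IsR.ev_eq (ha : IsR a) (z : ℝ × ℝ) : L1.ev z a = ((L1.ev z a).re : ℂ) :=
  (Complex.conj_eq_iff_re.1 (by rw [← L1.ev_conjc, ha])).symm

namespace Lat

theorem conj_phase (k : Idx) (w : ℝ × ℝ) :
    (starRingEnd ℂ) (phase (-k) (Λ.W w)) = phase k (Λ.W w) := by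
  rw [phase_eq, phase_eq, q_neg, map_mul, Complex.conj_ofReal, Complex.conj_I, Complex.ofReal_neg]
  ring

theorem conj_m0 (k : Idx) : (starRingEnd ℂ) (Λ.m0 (-k)) = Λ.m0 k := by
  simp [m0, D, q_neg]

theorem isR_M0 (ha : IsR a) : IsR (Λ.M0 a) := ha.multiplier _ Λ.conj_m0
theorem isR_Mx (ha : IsR a) : IsR (Λ.Mx a) :=
  ha.multiplier _ fun k => by simp only [mx, map_mul, conj_phase, conj_m0]
theorem isR_My (ha : IsR a) : IsR (Λ.My a) :=
  ha.multiplier _ fun k => by simp only [my, map_mul, conj_phase, conj_m0]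
theorem isR_Mxx (ha : IsR a) : IsR (Λ.Mxx a) :=
  ha.multiplier _ fun k => by simp only [mxx, mx, map_mul, conj_phase, conj_m0]
theorem isR_Mxy (ha : IsR a) : IsR (Λ.Mxy a) :=
  ha.multiplier _ fun k => by simp only [mxy, mx, map_mul, conj_phase, conj_m0]
theorem isR_Myy (ha : IsR a) : IsR (Λ.Myy a) :=
  ha.multiplier _ fun k => by simp only [myy, my, map_mul, conj_phase, conj_m0]

theorem lap_eq (f : L1) : Λ.Mxx f + Λ.Myy f = f - L1.coeff f 0 • (1 : L1) := by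
  ext k
  simp only [Mxx, Myy, L1.coeff_add, L1.coeff_multiplier, L1.coeff_sub, L1.coeff_smul, L1.one_def,
    L1.coeff_single, mxx, myy, mx, my, phase_eq, m0]
  rcases eq_or_ne k 0 with rfl | hk
  · simp [D_zero]
  · have hD : (Λ.D k : ℂ) ≠ 0 := by exact_mod_cast Λ.D_ne hk
    rw [if_neg hk, mul_zero, sub_zero]
    push_cast
    field_simp
    simp only [D]; push_cast
    linear_combination (-(L1.coeff f k)) * ((Λ.q k (1, 0) : ℂ) ^ 2 + (Λ.q k (0, 1) : ℂ) ^ 2) * Complex.I_sq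

/-! ### Functions on the torus -/

/-- The real function of a series. -/
noncomputable def F (a : L1) (z : ℝ × ℝ) : ℝ := (L1.ev (Λ.W z) a).re

theorem contDiff_F (ha : RD (L1.coeff a)) : ContDiff ℝ (⊤ : ℕ∞) (Λ.F a) :=
  Complex.reCLM.contDiff.comp ((Fourier.contDiff_ser ha).comp Λ.W.contDiff)

theorem periodic_F (a : L1) : Periodic2 (Λ.F a) Λ.l₁ Λ.l₂ := fun z => by
  have h := Fourier.periodic_ser (L1.coeff a) (Λ.W z)
  constructor <;>
    simp only [F, L1.ev_apply, map_add, W_l₁, W_l₂, h.1, h.2]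

theorem fderiv_F (ha : RD (L1.coeff a)) (w : ℝ × ℝ)
    (hb : ∀ k, L1.coeff b k = phase k (Λ.W w) * L1.coeff a k) (z : ℝ × ℝ) :
    fderiv ℝ (Λ.F a) z w = Λ.F b z := by
  have h : HasFDerivAt (Λ.F a)
      (Complex.reCLM.comp ((fderiv ℝ (ser (L1.coeff a)) (Λ.W z)).comp Λ.W)) z :=
    Complex.reCLM.hasFDerivAt.comp z
      ((Fourier.differentiable_ser ha (Λ.W z)).hasFDerivAt.comp z Λ.W.hasFDerivAt)
  rw [h.fderiv]
  simp only [ContinuousLinearMap.coe_comp, Function.comp_apply, Fourier.fderiv_ser ha,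
    Complex.reCLM_apply, F, L1.ev_apply]
  rw [show L1.coeff b = Fourier.dcoef (Λ.W w) (L1.coeff a) from funext hb]

theorem rd_mult {m : Idx → ℂ} {C : ℝ} (h : ∀ k, ‖m k‖ ≤ C) (hC : 0 ≤ C)
    (ha : RD (L1.coeff a)) : RD (L1.coeff (L1.multiplier m C h a)) :=
  ha.of_le (m := 0) hC fun k => by
    rw [L1.coeff_multiplier, pow_zero, one_mul, norm_mul]
    exact mul_le_mul_of_nonneg_right (h k) (norm_nonneg _)

theorem dx_M0 {f : L1} (hf : RD (L1.coeff f)) :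
    dx (Λ.F (Λ.M0 f)) = Λ.F (Λ.Mx f) ∧ dy (Λ.F (Λ.M0 f)) = Λ.F (Λ.My f) :=
  have h := rd_mult Λ.norm_m0 Λ.C_nonneg hf
  ⟨funext fun z => Λ.fderiv_F h (1, 0) (fun k => by
      simp only [Mx, L1.coeff_multiplier, mx, mul_assoc]) z,
   funext fun z => Λ.fderiv_F h (0, 1) (fun k => by
      simp only [My, L1.coeff_multiplier, my, mul_assoc]) z⟩

theorem d2_M0 {f : L1} (hf : RD (L1.coeff f)) :
    dx (dx (Λ.F (Λ.M0 f))) = Λ.F (Λ.Mxx f) ∧ dy (dx (Λ.F (Λ.M0 f))) = Λ.F (Λ.Mxy f) ∧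
      dy (dy (Λ.F (Λ.M0 f))) = Λ.F (Λ.Myy f) := by
  rw [(Λ.dx_M0 hf).1, (Λ.dx_M0 hf).2]
  have hx := rd_mult Λ.norm_mx Λ.C_nonneg hf
  have hy := rd_mult Λ.norm_my Λ.C_nonneg hf
  exact ⟨funext fun z => Λ.fderiv_F hx (1, 0) (fun k => by
      simp only [Mxx, L1.coeff_multiplier, mxx, mul_assoc]) z,
    funext fun z => Λ.fderiv_F hx (0, 1) (fun k => by
      simp only [Mxy, L1.coeff_multiplier, mxy, mul_assoc]) z,
    funext fun z => Λ.fderiv_F hy (0, 1) (fun k => by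
      simp only [Myy, L1.coeff_multiplier, myy, mul_assoc]) z⟩

/-- The coefficients of a periodic function, with their properties. -/
theorem exists_data {g : ℝ × ℝ → ℝ} (hg : ContDiff ℝ (⊤ : ℕ∞) g) (hp : Periodic2 g Λ.l₁ Λ.l₂) :
    ∃ a : L1, RD (L1.coeff a) ∧ IsR a ∧ ∀ z, L1.ev (Λ.W z) a = (g z : ℂ) := by
  have hsp : SP (fun z => (g (Λ.L z) : ℂ)) := by
    refine ⟨Complex.ofRealCLM.contDiff.comp (hg.comp Λ.L.contDiff), fun z => ?_⟩
    simp [map_add, L_apply, (hp _).1, (hp _).2]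
  refine ⟨L1.mk _ (Fourier.rd_coef hsp).summable_norm, Fourier.rd_coef hsp, ?_, fun z => ?_⟩
  · ext k
    rw [L1.coeff_conjc, L1.coeff_mk, L1.coeff_mk, coef, coef, ← integral_conj]
    refine setIntegral_congr_fun (measurableSet_Ioc.prod measurableSet_Ioc) fun z _ => ?_
    simp only [map_mul, Complex.conj_ofReal, neg_neg]
    congr 1
    rw [e, e, ← Complex.exp_conj, Fourier.phase_apply, Fourier.phase_apply]
    congr 1
    simp only [map_mul, Complex.conj_I, Complex.conj_ofReal, Pi.neg_apply, Int.cast_neg]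
    push_cast
    ring
  · rw [L1.ev_apply]
    exact (Fourier.ser_coef hsp (Λ.W z)).trans (by rw [L_W])

/-- An exact form integrates to zero over a cell. -/
theorem integral_deriv_zero {g : ℝ × ℝ → ℝ} (hg : ContDiff ℝ (⊤ : ℕ∞) g)
    (hp : Periodic2 g Λ.l₁ Λ.l₂) (w : ℝ × ℝ) : ∫ z in square, fderiv ℝ g (Λ.L z) w = 0 := by
  have hsp : SP (fun z => (g (Λ.L z) : ℂ)) := by
    refine ⟨Complex.ofRealCLM.contDiff.comp (hg.comp Λ.L.contDiff), fun z => ?_⟩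
    simp [map_add, L_apply, (hp _).1, (hp _).2]
  have hd : ∀ z u, fderiv ℝ (fun z => (g (Λ.L z) : ℂ)) z u
      = ((fderiv ℝ g (Λ.L z) (Λ.L u) : ℝ) : ℂ) := fun z u => by
    have h : HasFDerivAt (fun z => (g (Λ.L z) : ℂ))
        (Complex.ofRealCLM.comp ((fderiv ℝ g (Λ.L z)).comp Λ.L)) z :=
      Complex.ofRealCLM.hasFDerivAt.comp z
        ((hg.differentiable (by simp) _).hasFDerivAt.comp z Λ.L.hasFDerivAt)
    rw [h.fderiv]; rfl
  obtain ⟨h1, h2⟩ := Fourier.integral_pd_zero (hsp.1.of_le (by exact_mod_cast le_top)) hsp.2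
  simp only [hd, integral_complex_ofReal, Complex.ofReal_eq_zero] at h1 h2
  have hw : w = (Λ.W w).1 • Λ.L (1, 0) + (Λ.W w).2 • Λ.L (0, 1) := by
    conv_lhs => rw [← Λ.L_W w, L_apply]
    simp [L_apply]
  have hi : ∀ u, IntegrableOn (fun z => fderiv ℝ g (Λ.L z) u) square := fun u => by
    refine (Continuous.continuousOn ?_).integrableOn_compact (isCompact_Icc.prod isCompact_Icc)
      |>.mono_set (Set.prod_mono Set.Ioc_subset_Icc_self Set.Ioc_subset_Icc_self)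
    exact ((hg.continuous_fderiv (by simp)).comp Λ.L.continuous).clm_apply continuous_const
  rw [hw]
  simp only [map_add, map_smul, smul_eq_mul]
  rw [integral_add ((hi _).const_mul _) ((hi _).const_mul _), integral_const_mul,
    integral_const_mul, h1, h2, mul_zero, mul_zero, add_zero]

end Lat

/-! ### The nonlinearity -/

/-- The nonlinearity as a polynomial in the derivatives. -/
def npoly {A : Type} [CommRing A] (a b A' B C p q R : A) : A :=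
  (a * a + b * b) * (R - p * p - q * q) + (A' * C - B * B)
    + p * (C * a - B * b) - q * (B * a - A' * b) - p * (A' * a + B * b) - q * (B * a + C * b)

/-- The coefficients of the derivatives of `v`. -/
structure Dat where
  x : L1
  y : L1
  xx : L1
  xy : L1
  yy : L1

variable (V : Dat)

/-- The right hand side. -/
noncomputable def G (f : L1) : L1 :=
  NormedSpace.exp ((2 : ℂ) • Λ.M0 f) *
    npoly (V.x + Λ.Mx f) (V.y + Λ.My f) (V.xx + Λ.Mxx f) (V.xy + Λ.Mxy f) (V.yy + Λ.Myy f)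
      (Λ.Mx f) (Λ.My f) (Λ.Mxx f + Λ.Myy f)

theorem contDiff_G : ContDiff ℂ 1 (G Λ V) := by
  have he : ContDiff ℂ 1 (NormedSpace.exp : L1 → L1) :=
    contDiff_iff_contDiffAt.2 fun z => (NormedSpace.exp_analytic z).contDiffAt
  refine (he.comp (Λ.M0.contDiff.const_smul (2 : ℂ))).mul ?_
  unfold npoly
  fun_prop

/-- The conditions on the data. -/
structure Dat.Good (v : ℝ × ℝ → ℝ) : Prop where
  rd : RD (L1.coeff V.x) ∧ RD (L1.coeff V.y) ∧ RD (L1.coeff V.xx) ∧ RD (L1.coeff V.xy) ∧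
    RD (L1.coeff V.yy)
  real : IsR V.x ∧ IsR V.y ∧ IsR V.xx ∧ IsR V.xy ∧ IsR V.yy
  ev_x : ∀ z, L1.ev (Λ.W z) V.x = (dx v z : ℂ)
  ev_y : ∀ z, L1.ev (Λ.W z) V.y = (dy v z : ℂ)
  ev_xx : ∀ z, L1.ev (Λ.W z) V.xx = (dx (dx v) z : ℂ)
  ev_xy : ∀ z, L1.ev (Λ.W z) V.xy = (dy (dx v) z : ℂ)
  ev_yy : ∀ z, L1.ev (Λ.W z) V.yy = (dy (dy v) z : ℂ)

theorem periodic_pd {g : ℝ × ℝ → ℝ} {l₁ l₂ : ℝ × ℝ} (h : Periodic2 g l₁ l₂) :
    Periodic2 (dx g) l₁ l₂ ∧ Periodic2 (dy g) l₁ l₂ := by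
  have key : ∀ c : ℝ × ℝ, (∀ z, g (z + c) = g z) → ∀ z, fderiv ℝ g (z + c) = fderiv ℝ g z := by
    intro c hc z
    rw [← fderiv_comp_add_right]
    congr 1
    exact funext hc
  refine ⟨fun z => ?_, fun z => ?_⟩ <;>
    simp only [dx, dy, key _ (fun z => (h z).1) z, key _ (fun z => (h z).2) z, and_self]

theorem exists_good {v : ℝ × ℝ → ℝ} (hv : ContDiff ℝ (⊤ : ℕ∞) v)
    (hp : Periodic2 v Λ.l₁ Λ.l₂) : ∃ V : Dat, V.Good Λ v := by
  obtain ⟨px, py⟩ := periodic_pd hp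
  obtain ⟨x, a1, a2, a3⟩ := Λ.exists_data (contDiff_dx hv) px
  obtain ⟨y, b1, b2, b3⟩ := Λ.exists_data (contDiff_dy hv) py
  obtain ⟨xx, c1, c2, c3⟩ := Λ.exists_data (contDiff_dx (contDiff_dx hv)) (periodic_pd px).1
  obtain ⟨xy, d1, d2, d3⟩ := Λ.exists_data (contDiff_dy (contDiff_dx hv)) (periodic_pd px).2
  obtain ⟨yy, e1, e2, e3⟩ := Λ.exists_data (contDiff_dy (contDiff_dy hv)) (periodic_pd py).2
  exact ⟨⟨x, y, xx, xy, yy⟩, ⟨a1, b1, c1, d1, e1⟩, ⟨a2, b2, c2, d2, e2⟩, a3, b3, c3, d3, e3⟩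

variable {v : ℝ × ℝ → ℝ} {f : L1}

theorem isR_G (hV : V.Good Λ v) (hf : IsR f) : IsR (G Λ V f) := by
  obtain ⟨hx, hy, hxx, hxy, hyy⟩ := hV.real
  have a := hx.add (Λ.isR_Mx hf)
  have b := hy.add (Λ.isR_My hf)
  have A := hxx.add (Λ.isR_Mxx hf)
  have B := hxy.add (Λ.isR_Mxy hf)
  have C := hyy.add (Λ.isR_Myy hf)
  have p := Λ.isR_Mx hf
  have q := Λ.isR_My hf
  have R := (Λ.isR_Mxx hf).add (Λ.isR_Myy hf)
  exact (((Λ.isR_M0 hf).smul 2).exp).mul ((((((a.mul a).add (b.mul b)).mul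
    ((R.sub (p.mul p)).sub (q.mul q))).add ((A.mul C).sub (B.mul B))).add
    (p.mul ((C.mul a).sub (B.mul b)))).sub (q.mul ((B.mul a).sub (A.mul b))) |>.sub
    (p.mul ((A.mul a).add (B.mul b))) |>.sub (q.mul ((B.mul a).add (C.mul b))))

open L1 in
theorem exists_bd_G : ∃ M : ℝ, ∀ (n : ℕ) (δ : ℝ), 0 ≤ δ →
    Bd n δ (‖V.x‖ + 1) V.x → Bd n δ (‖V.y‖ + 1) V.y → Bd n δ (‖V.xx‖ + 1) V.xx →
    Bd n δ (‖V.xy‖ + 1) V.xy → Bd n δ (‖V.yy‖ + 1) V.yy →
    ∀ f, Bd n δ 1 f → Bd n δ M (G Λ V f) := by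
  apply Exists.intro
  intro n δ hδ hx hy hxx hxy hyy f hf
  have p := hf.multiplier hδ Λ.mx Λ.C Λ.norm_mx
  have q := hf.multiplier hδ Λ.my Λ.C Λ.norm_my
  have Mxx := hf.multiplier hδ Λ.mxx Λ.C Λ.norm_mxx
  have Myy := hf.multiplier hδ Λ.myy Λ.C Λ.norm_myy
  have a := hx.add hδ p
  have b := hy.add hδ q
  have A := hxx.add hδ Mxx
  have B := hxy.add hδ (hf.multiplier hδ Λ.mxy Λ.C Λ.norm_mxy)
  have C := hyy.add hδ Myy
  have R := Mxx.add hδ Myy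
  exact (((hf.multiplier hδ Λ.m0 Λ.C Λ.norm_m0).smul (2 : ℂ)).exp hδ).mul hδ
    ((((((a.mul hδ a).add hδ (b.mul hδ b)).mul hδ
      ((R.sub hδ (p.mul hδ p)).sub hδ (q.mul hδ q))).add hδ
      ((A.mul hδ C).sub hδ (B.mul hδ B))).add hδ
      (p.mul hδ ((C.mul hδ a).sub hδ (B.mul hδ b)))).sub hδ
      (q.mul hδ ((B.mul hδ a).sub hδ (A.mul hδ b))) |>.sub hδ
      (p.mul hδ ((A.mul hδ a).add hδ (B.mul hδ b))) |>.sub hδ
      (q.mul hδ ((B.mul hδ a).add hδ (C.mul hδ b))))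

/-- Existence of the fixed points, real and rapidly decreasing, Lipschitz in the parameter. -/
theorem exists_fixed (hV : V.Good Λ v) : ∃ ε₀ : ℝ, 0 < ε₀ ∧ ∃ f : ℝ → L1,
    f 0 = 0 ∧ ContinuousOn f (Set.Icc 0 ε₀) ∧
    ∀ ε ∈ Set.Icc 0 ε₀, f ε = (ε : ℂ) • G Λ V (f ε) ∧ IsR (f ε) ∧ RD (L1.coeff (f ε)) ∧
      ‖f ε‖ ≤ 1 ∧
      ε * Real.exp (2 * Λ.C) * ((‖V.x‖ + Λ.C) ^ 2 + (‖V.y‖ + Λ.C) ^ 2) < 1 := by
  obtain ⟨K, t, ht, hK⟩ := (contDiff_G Λ V).contDiffAt.exists_lipschitzOnWith (x := (0 : L1))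
  obtain ⟨ρ', hρ', hsub⟩ := Metric.nhds_basis_closedBall.mem_iff.1 ht
  obtain ⟨M', hM'⟩ := exists_bd_G Λ V
  set ρ := min ρ' 1
  have hρ : 0 < ρ := lt_min hρ' one_pos
  have hρ1 : ρ ≤ 1 := min_le_right _ _
  set E := Real.exp (2 * Λ.C) * ((‖V.x‖ + Λ.C) ^ 2 + (‖V.y‖ + Λ.C) ^ 2)
  set M : ℝ := ‖G Λ V 0‖ + K
  have hE : 0 ≤ E := by positivity
  have hM : 0 ≤ M := by positivity
  set S : ℝ := 2 * (K + M + |M'| + E + 1)
  have hS : 0 < S := by positivity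
  have hlip : ∀ a b : L1, ‖a‖ ≤ ρ → ‖b‖ ≤ ρ → ‖G Λ V a - G Λ V b‖ ≤ K * ‖a - b‖ := by
    intro a b ha hb
    have hm : ∀ {c : L1}, ‖c‖ ≤ ρ → c ∈ t := fun hc => hsub (by
      rw [Metric.mem_closedBall, dist_zero_right]; exact hc.trans (min_le_left _ _))
    simpa [dist_eq_norm] using hK.dist_le_mul a (hm ha) b (hm hb)
  have hbd : ∀ a : L1, ‖a‖ ≤ ρ → ‖G Λ V a‖ ≤ M := fun a ha => by
    have := hlip a 0 ha (by rw [norm_zero]; exact hρ.le)
    rw [sub_zero] at this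
    have := mul_le_mul_of_nonneg_left (ha.trans hρ1) K.coe_nonneg
    linarith [norm_le_norm_add_norm_sub' (G Λ V a) (G Λ V 0)]
  refine ⟨ρ / S, by positivity, ?_⟩
  have small : ∀ ε ∈ Set.Icc 0 (ρ / S), ∀ X : ℝ, 0 ≤ X → X ≤ K + M + |M'| + E + 1 →
      ε * X ≤ ρ / 2 := fun ε hε X hX0 hX => by
    calc ε * X ≤ ρ / S * (K + M + |M'| + E + 1) := mul_le_mul hε.2 hX hX0 (by positivity)
      _ = ρ / 2 := by simp only [S]; field_simp
  have hK0 := K.coe_nonneg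
  have habs := abs_nonneg M'
  have ex : ∀ ε : ℝ, ∃ f : L1, ε ∈ Set.Icc 0 (ρ / S) →
      f = (ε : ℂ) • G Λ V f ∧ ‖f‖ ≤ ρ ∧ IsR f ∧ RD (L1.coeff f) := by
    intro ε
    by_cases hε : ε ∈ Set.Icc 0 (ρ / S)
    swap
    · exact ⟨0, fun h => absurd h hε⟩
    set T : L1 → L1 := fun a => (ε : ℂ) • G Λ V a
    set s : Set L1 := Metric.closedBall 0 ρ
    have hsf : Set.MapsTo T s s := fun a ha => by
      simp only [s, Metric.mem_closedBall, dist_zero_right, T, norm_smul, Complex.norm_real,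
        Real.norm_of_nonneg hε.1] at ha ⊢
      have := small ε hε M hM (by linarith)
      have := mul_le_mul_of_nonneg_left (hbd a ha) hε.1
      linarith
    have hc : ContractingWith (1 / 2) (hsf.restrict T s s) := by
      refine ⟨by norm_num, LipschitzWith.of_dist_le_mul fun a b => ?_⟩
      show dist (T a) (T b) ≤ ((1 / 2 : NNReal) : ℝ) * dist (a : L1) b
      rw [dist_eq_norm, dist_eq_norm, ← smul_sub, norm_smul, Complex.norm_real,
        Real.norm_of_nonneg hε.1]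
      have h1 := mul_le_mul_of_nonneg_left
        (hlip a b (mem_closedBall_zero_iff.1 a.2) (mem_closedBall_zero_iff.1 b.2)) hε.1
      have h2 := small ε hε K hK0 (by linarith)
      push_cast
      nlinarith [norm_nonneg ((a : L1) - b)]
    obtain ⟨f, hfs, hfix, hlim, -⟩ := hc.exists_fixedPoint' Metric.isClosed_closedBall.isComplete
      hsf (show (0 : L1) ∈ s by simp [s, hρ.le]) (edist_ne_top _ _)
    refine ⟨f, fun _ => ⟨hfix.symm, by simpa [s] using hfs, ?_, L1.rd_of_Bd fun n => ?_⟩⟩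
    · refine isClosed_IsR.mem_of_tendsto hlim (Eventually.of_forall fun i => ?_)
      induction i with
      | zero => exact IsR.zero
      | succ i ih =>
        rw [Function.iterate_succ_apply']
        exact (isR_G Λ V hV ih).smul ε
    · obtain ⟨r1, r2, r3, r4, r5⟩ := hV.rd
      obtain ⟨δ, h1, h2, h3, h4, h5, hδ⟩ := ((L1.exists_Bd r1 n).and ((L1.exists_Bd r2 n).and
        ((L1.exists_Bd r3 n).and ((L1.exists_Bd r4 n).and ((L1.exists_Bd r5 n).and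
        (Ioo_mem_nhdsGT one_pos)))))).exists
      refine ⟨δ, 1, hδ.1, hδ.2.le,
        L1.isClosed_Bd.mem_of_tendsto hlim (Eventually.of_forall fun i => ?_)⟩
      induction i with
      | zero => exact L1.Bd.zero zero_le_one
      | succ i ih =>
        rw [Function.iterate_succ_apply']
        refine ((hM' n δ hδ.1.le h1 h2 h3 h4 h5 _ ih).smul (ε : ℂ)).mono ?_
        rw [Complex.norm_real, Real.norm_of_nonneg hε.1]
        have := small ε hε |M'| habs (by linarith)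
        have := mul_le_mul_of_nonneg_left (le_abs_self M') hε.1
        linarith
  choose f hf using ex
  have h0 : f 0 = 0 := by
    have := (hf 0 ⟨le_rfl, by positivity⟩).1
    simpa using this
  refine ⟨f, h0, ?_, fun ε hε => ⟨(hf ε hε).1, (hf ε hε).2.2.1, (hf ε hε).2.2.2,
    (hf ε hε).2.1.trans hρ1, ?_⟩⟩
  · refine (LipschitzOnWith.of_dist_le_mul (K := (2 * M).toNNReal) fun a ha b hb => ?_).continuousOn
    rw [Real.coe_toNNReal _ (by linarith), Real.dist_eq, dist_eq_norm]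
    obtain ⟨ea, na, -⟩ := hf a ha
    obtain ⟨eb, nb, -⟩ := hf b hb
    have key : f a - f b
        = ((a - b : ℝ) : ℂ) • G Λ V (f a) + (b : ℂ) • (G Λ V (f a) - G Λ V (f b)) := by
      conv_lhs => rw [ea, eb]
      rw [Complex.ofReal_sub, sub_smul, smul_sub]; abel
    have h := norm_add_le (((a - b : ℝ) : ℂ) • G Λ V (f a))
      ((b : ℂ) • (G Λ V (f a) - G Λ V (f b)))
    rw [← key, norm_smul, norm_smul, Complex.norm_real, Complex.norm_real, Real.norm_eq_abs,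
      Real.norm_of_nonneg hb.1] at h
    have h1 := mul_le_mul_of_nonneg_left (hbd _ na) (abs_nonneg (a - b))
    have h2 := mul_le_mul_of_nonneg_left (hlip _ _ na nb) hb.1
    have h3 := small b hb K hK0 (by linarith)
    nlinarith [norm_nonneg (f a - f b)]
  · have := small ε hε E hE (by linarith)
    have e1 : ε * Real.exp (2 * Λ.C) * ((‖V.x‖ + Λ.C) ^ 2 + (‖V.y‖ + Λ.C) ^ 2) = ε * E := by
      simp only [E]; ring
    linarith

theorem abs_F_le (a : L1) (z : ℝ × ℝ) : |Λ.F a z| ≤ ‖a‖ :=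
  (Complex.abs_re_le_norm _).trans (L1.norm_ev_le _ a)

/-- A fixed point solves the equation. -/
theorem solves_of_fixed (hv : ContDiff ℝ (⊤ : ℕ∞) v) (hp : Periodic2 v Λ.l₁ Λ.l₂)
    (hV : V.Good Λ v) {ε : ℝ} (hε : 0 ≤ ε) (hf : f = (ε : ℂ) • G Λ V f) (hR : IsR f)
    (hd : RD (L1.coeff f)) (hn : ‖f‖ ≤ 1)
    (hs : ε * Real.exp (2 * Λ.C) * ((‖V.x‖ + Λ.C) ^ 2 + (‖V.y‖ + Λ.C) ^ 2) < 1) :
    Solves v (Λ.F (Λ.M0 f)) ε := by
  set r := Λ.F (Λ.M0 f) with hr_def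
  obtain ⟨dx1, dy1⟩ := Λ.dx_M0 hd
  obtain ⟨dxx, dxy, dyy⟩ := Λ.d2_M0 hd
  have hr : ContDiff ℝ (⊤ : ℕ∞) r := Λ.contDiff_F (Lat.rd_mult Λ.norm_m0 Λ.C_nonneg hd)
  have hrp : Periodic2 r Λ.l₁ Λ.l₂ := Λ.periodic_F _
  have dv := hv.differentiable (by simp)
  have dr := hr.differentiable (by simp)
  have ux : dx (v + r) = dx v + dx r := funext fun z => dx_add dv dr
  have uy : dy (v + r) = dy v + dy r := funext fun z => dy_add dv dr
  -- values
  set c := (L1.coeff f 0).re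
  have main : ∀ z, dx (dx r) z + dy (dy r) z = kap r ε z * nl v r z - c := by
    intro z
    have e0 := (Λ.isR_M0 hR).ev_eq (Λ.W z)
    have e1 := (Λ.isR_Mx hR).ev_eq (Λ.W z)
    have e2 := (Λ.isR_My hR).ev_eq (Λ.W z)
    have e3 := (Λ.isR_Mxx hR).ev_eq (Λ.W z)
    have e4 := (Λ.isR_Mxy hR).ev_eq (Λ.W z)
    have e5 := (Λ.isR_Myy hR).ev_eq (Λ.W z)
    have hu : nl v r z = npoly (dx v z + dx r z) (dy v z + dy r z) (dx (dx v) z + dx (dx r) z)
        (dy (dx v) z + dy (dx r) z) (dy (dy v) z + dy (dy r) z) (dx r z) (dy r z)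
        (dx (dx r) z + dy (dy r) z) := by
      simp only [nl, npoly, ux, uy,
        dx_add (contDiff_dx hv |>.differentiable (by simp)) (contDiff_dx hr |>.differentiable (by simp)),
        dy_add (contDiff_dx hv |>.differentiable (by simp)) (contDiff_dx hr |>.differentiable (by simp)),
        dy_add (contDiff_dy hv |>.differentiable (by simp)) (contDiff_dy hr |>.differentiable (by simp)),
        Pi.add_apply]
      ring
    have hG : L1.ev (Λ.W z) (G Λ V f) = ((Real.exp (2 * r z) * nl v r z : ℝ) : ℂ) := by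
      rw [hu, dxx, dxy, dyy, dx1, dy1]
      simp only [G, npoly, hr_def, Lat.F, L1.ev_mul, L1.ev_exp, map_add, map_sub, map_smul,
        smul_eq_mul, hV.ev_x, hV.ev_y, hV.ev_xx, hV.ev_xy, hV.ev_yy]
      rw [e0, e1, e2, e3, e4, e5]
      push_cast
      simp only [Complex.ofReal_re]
    have hl := congrArg (fun a => (L1.ev (Λ.W z) a).re) (Λ.lap_eq f)
    simp only [map_sub, map_smul, L1.ev_one, map_add, Complex.add_re, Complex.sub_re, smul_eq_mul,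
      mul_one] at hl
    have hz : L1.ev (Λ.W z) f = ((ε * (Real.exp (2 * r z) * nl v r z) : ℝ) : ℂ) := by
      conv_lhs => rw [hf]
      rw [map_smul, hG, smul_eq_mul, ← Complex.ofReal_mul]
    rw [hz, Complex.ofReal_re] at hl
    rw [dxx, dyy]
    simp only [Lat.F, kap] at hl ⊢
    linarith
  -- the mean vanishes
  have nMx : ∀ z, |dx r z| ≤ Λ.C := fun z => by
    rw [dx1]
    exact (abs_F_le Λ _ z).trans ((L1.norm_multiplier_le _ _ _ Λ.C_nonneg f).trans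
      (mul_le_of_le_one_right Λ.C_nonneg hn))
  have nMy : ∀ z, |dy r z| ≤ Λ.C := fun z => by
    rw [dy1]
    exact (abs_F_le Λ _ z).trans ((L1.norm_multiplier_le _ _ _ Λ.C_nonneg f).trans
      (mul_le_of_le_one_right Λ.C_nonneg hn))
  have nr : ∀ z, r z ≤ Λ.C := fun z => (le_abs_self _).trans
    ((abs_F_le Λ _ z).trans ((L1.norm_multiplier_le _ _ _ Λ.C_nonneg f).trans
      (mul_le_of_le_one_right Λ.C_nonneg hn)))
  have nV : ∀ (a : L1) (g : ℝ × ℝ → ℝ), (∀ z, L1.ev (Λ.W z) a = (g z : ℂ)) →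
      ∀ z, |g z| ≤ ‖a‖ := fun a g h z => by
    simpa [h z] using L1.norm_ev_le (Λ.W z) a
  have hk0 : ∀ z, 0 ≤ kap r ε z * gsq v r z := fun z =>
    mul_nonneg (mul_nonneg hε (Real.exp_pos _).le) (add_nonneg (sq_nonneg _) (sq_nonneg _))
  have hpos : ∀ z, kap r ε z * gsq v r z < 1 := fun z => by
    refine lt_of_le_of_lt (mul_le_mul ?_ ?_ (add_nonneg (sq_nonneg _) (sq_nonneg _))
      (mul_nonneg hε (Real.exp_pos _).le)) hs
    · exact mul_le_mul_of_nonneg_left (Real.exp_le_exp.2 (by linarith [nr z])) hε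
    · rw [gsq, ux, uy, Pi.add_apply, Pi.add_apply]
      refine add_le_add ?_ ?_
      · rw [← sq_abs (dx v z + dx r z)]
        exact pow_le_pow_left₀ (abs_nonneg _)
          ((abs_add_le _ _).trans (add_le_add (nV _ _ hV.ev_x z) (nMx z))) 2
      · rw [← sq_abs (dy v z + dy r z)]
        exact pow_le_pow_left₀ (abs_nonneg _)
          ((abs_add_le _ _).trans (add_le_add (nV _ _ hV.ev_y z) (nMy z))) 2
  obtain ⟨ho1, ho2⟩ := contDiff_om hv hr hpos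
  have pu : Periodic2 (v + r) Λ.l₁ Λ.l₂ := fun z => by simp [(hp z).1, (hp z).2, (hrp z).1, (hrp z).2]
  obtain ⟨pux, puy⟩ := periodic_pd pu
  obtain ⟨puxx, puxy⟩ := periodic_pd pux
  obtain ⟨-, puyy⟩ := periodic_pd puy
  obtain ⟨prx, pry⟩ := periodic_pd hrp
  have po1 : Periodic2 (om₁ v r ε) Λ.l₁ Λ.l₂ := fun z => by
    constructor <;> simp only [om₁, w₁, bet, kap, root, gsq, (hrp z).1, (hrp z).2, (pux z).1,
      (pux z).2, (puy z).1, (puy z).2, (puxx z).1, (puxx z).2, (puxy z).1, (puxy z).2,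
      (pry z).1, (pry z).2]
  have po2 : Periodic2 (om₂ v r ε) Λ.l₁ Λ.l₂ := fun z => by
    constructor <;> simp only [om₂, w₂, bet, kap, root, gsq, (hrp z).1, (hrp z).2, (pux z).1,
      (pux z).2, (puy z).1, (puy z).2, (puyy z).1, (puyy z).2, (puxy z).1, (puxy z).2,
      (prx z).1, (prx z).2]
  have hcurl : ∀ z, dx (om₂ v r ε) z - dy (om₁ v r ε) z = c * (root v r ε z ^ 3)⁻¹ := fun z => by
    rw [om_curl hv hr hpos z, main z, ← div_eq_mul_inv]; ring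
  have hint : ∫ z in square, c * (root v r ε (Λ.L z) ^ 3)⁻¹ = 0 := by
    simp only [← hcurl, dx, dy]
    rw [integral_sub, Λ.integral_deriv_zero ho2 po2, Λ.integral_deriv_zero ho1 po1, sub_zero]
    all_goals
      refine (Continuous.continuousOn ?_).integrableOn_compact (isCompact_Icc.prod isCompact_Icc)
        |>.mono_set (Set.prod_mono Set.Ioc_subset_Icc_self Set.Ioc_subset_Icc_self)
      first
        | exact ((ho2.continuous_fderiv (by simp)).comp Λ.L.continuous).clm_apply continuous_const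
        | exact ((ho1.continuous_fderiv (by simp)).comp Λ.L.continuous).clm_apply continuous_const
  rw [integral_const_mul] at hint
  have hroot : ∀ z, 0 < root v r ε z ∧ root v r ε z ≤ 1 := fun z =>
    ⟨root_pos hpos z, Real.sqrt_le_one.2 (by linarith [hk0 z])⟩
  have hone : (1 : ℝ) ≤ ∫ z in square, (root v r ε (Λ.L z) ^ 3)⁻¹ := by
    have := setIntegral_ge_of_const_le (c := (1 : ℝ)) (μ := volume) (s := square)
      (f := fun z => (root v r ε (Λ.L z) ^ 3)⁻¹) (measurableSet_Ioc.prod measurableSet_Ioc)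
      (by simp [Fourier.volume_square])
      (fun z _ => one_le_inv_iff₀.2 ⟨pow_pos (hroot _).1 3, pow_le_one₀ (hroot _).1.le (hroot _).2⟩)
      ?_
    · simpa [measureReal_def, Fourier.volume_square] using this
    · refine (Continuous.continuousOn ?_).integrableOn_compact (isCompact_Icc.prod isCompact_Icc)
        |>.mono_set (Set.prod_mono Set.Ioc_subset_Icc_self Set.Ioc_subset_Icc_self)
      exact (((contDiff_root hv hr hpos).continuous.comp Λ.L.continuous).pow 3).inv₀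
        fun z => (pow_pos (hroot _).1 3).ne'
  have hc : c = 0 := (mul_eq_zero.1 hint).resolve_right (by linarith)
  intro z
  rw [main z, hc, sub_zero]; rfl

theorem continuousOn_F {f : ℝ → L1} {s : Set ℝ} (hf : ContinuousOn f s) (M : L1 →L[ℂ] L1) :
    ContinuousOn (fun p : ℝ × ℝ × ℝ => Λ.F (M (f p.1)) p.2) (s ×ˢ Set.univ) := by
  have h1 : ContinuousOn (fun p : ℝ × ℝ × ℝ => f p.1) (s ×ˢ Set.univ) :=
    hf.comp continuous_fst.continuousOn fun p hp => hp.1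
  have h2 : ContinuousOn (fun p : ℝ × ℝ × ℝ => (M (f p.1), Λ.W p.2)) (s ×ˢ Set.univ) :=
    (M.continuous.comp_continuousOn h1).prodMk (Λ.W.continuous.comp continuous_snd).continuousOn
  have h3 : Continuous fun q : L1 × (ℝ × ℝ) => (L1.ev q.2 q.1).re :=
    Continuous.comp (g := Complex.re) Complex.continuous_re L1.continuous_ev
  have h4 := Continuous.comp_continuousOn (g := fun q : L1 × (ℝ × ℝ) => (L1.ev q.2 q.1).re)
    (f := fun p : ℝ × ℝ × ℝ => (M (f p.1), Λ.W p.2)) h3 h2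
  exact h4

/-- Module Solve. -/
theorem solve : SolveStmt := by
  intro l₁ l₂ hl v hv hp
  obtain ⟨Λ, rfl, rfl⟩ : ∃ Λ : Lat, Λ.l₁ = l₁ ∧ Λ.l₂ = l₂ := ⟨⟨l₁, l₂, hl⟩, rfl, rfl⟩
  obtain ⟨V, hV⟩ := exists_good Λ hv hp
  obtain ⟨ε₀, hε₀, f, f0, fc, hf⟩ := exists_fixed Λ V hV
  refine ⟨ε₀, hε₀, fun ε => Λ.F (Λ.M0 (f ε)), fun z => ?_, fun ε hε => ?_, ?_, ?_, ?_⟩
  · simp [Lat.F, f0]
  · obtain ⟨h1, h2, h3, h4, h5⟩ := hf ε hε
    exact ⟨Λ.contDiff_F (Lat.rd_mult Λ.norm_m0 Λ.C_nonneg h3), Λ.periodic_F _,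
      solves_of_fixed Λ V hv hp hV hε.1 h1 h2 h3 h4 h5⟩
  all_goals have cF := continuousOn_F Λ fc
  · exact cF Λ.M0
  · refine continuousOn_clm_apply.2 fun w => ?_
    refine ContinuousOn.congr (((cF Λ.Mx).const_smul w.1).add ((cF Λ.My).const_smul w.2))
      fun p hp => ?_
    obtain ⟨-, -, h3, -⟩ := hf p.1 hp.1
    simp only [Pi.add_apply, Pi.smul_apply, fderiv_eq_dx_dy, (Λ.dx_M0 h3).1, (Λ.dx_M0 h3).2,
      smul_eq_mul]
  · refine continuousOn_clm_apply.2 fun w => continuousOn_clm_apply.2 fun w' => ?_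
    refine ContinuousOn.congr ((((cF Λ.Mxx).const_smul (w.1 * w'.1)).add
      ((cF Λ.Mxy).const_smul (w.2 * w'.1 + w.1 * w'.2))).add
      ((cF Λ.Myy).const_smul (w.2 * w'.2))) fun p hp => ?_
    obtain ⟨-, -, h3, -⟩ := hf p.1 hp.1
    obtain ⟨dxx, dxy, dyy⟩ := Λ.d2_M0 h3
    set r := Λ.F (Λ.M0 (f p.1))
    have hr : ContDiff ℝ (⊤ : ℕ∞) r := Λ.contDiff_F (Lat.rd_mult Λ.norm_m0 Λ.C_nonneg h3)
    have hd : DifferentiableAt ℝ (fderiv ℝ r) p.2 :=
      ((hr.fderiv_right (m := (⊤ : ℕ∞)) (by norm_cast)).differentiable (by simp)) _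
    have e1 : fderiv ℝ (fderiv ℝ r) p.2 w w'
        = fderiv ℝ (fun y => fderiv ℝ r y w') p.2 w := by
      rw [fderiv_clm_apply hd (differentiableAt_const w')]; simp
    have e2 : (fun y => fderiv ℝ r y w') = fun y => w'.1 * dx r y + w'.2 * dy r y :=
      funext fun y => fderiv_eq_dx_dy r y w'
    have h : HasFDerivAt (fun y => w'.1 * dx r y + w'.2 * dy r y)
        (w'.1 • fderiv ℝ (dx r) p.2 + w'.2 • fderiv ℝ (dy r) p.2) p.2 :=
      (((contDiff_dx hr).differentiable (by simp) _).hasFDerivAt.const_mul w'.1).add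
        (((contDiff_dy hr).differentiable (by simp) _).hasFDerivAt.const_mul w'.2)
    show fderiv ℝ (fderiv ℝ r) p.2 w w' = _
    rw [e1, e2, h.fderiv]
    simp only [add_apply, smul_apply,
      smul_eq_mul, fderiv_eq_dx_dy (dx r), fderiv_eq_dx_dy (dy r),
      dx_dy hr, dxx, dxy, dyy, Pi.add_apply, Pi.smul_apply]
    ring

end P205.Tori.Solve
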