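import Vale.Agent.P205.Tori.Fourier

/-!
P205, tori, module Uniform: the Beltrami fixed point on square-summable coefficients.
Multiplication by a function of sup norm `< 1` followed by a unimodular multiplier is a
contraction, and it stays one with polynomial weights.
-/

namespace P205.Tori.Fourier

open MeasureTheory Complex
open scoped ComplexConjugate

/-- The multiplier of `∂/∂z`. -/
noncomputable def mA (k : K) : ℂ := Real.pi * I * ((k 0 : ℂ) - I * (k 1 : ℂ))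

/-- The multiplier of `∂/∂z̄`. -/
noncomputable def mB (k : K) : ℂ := Real.pi * I * ((k 0 : ℂ) + I * (k 1 : ℂ))

/-- `∂z ∘ (∂z̄)⁻¹`, continued by minus conjugation at the constant mode. -/
noncomputable def S (x : K → ℂ) (k : K) : ℂ :=
  if k = 0 then -conj (x k) else mA k / mB k * x k

theorem normSq_eq (k : K) : ‖mA k‖ = ‖mB k‖ := by
  rw [mA, mB, norm_mul, norm_mul (Real.pi * I : ℂ)]
  congr 1
  rw [Complex.norm_def, Complex.norm_def]
  congr 1
  simp [Complex.normSq_apply]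

theorem mB_ne_zero {k : K} (hk : k ≠ 0) : mB k ≠ 0 := by
  intro h
  simp only [mB, mul_eq_zero, ofReal_eq_zero, Real.pi_ne_zero, I_ne_zero, or_self, false_or] at h
  have h0 : (k 0 : ℝ) = 0 := by simpa using congrArg Complex.re h
  have h1 : (k 1 : ℝ) = 0 := by simpa using congrArg Complex.im h
  apply hk
  funext i
  fin_cases i
  · exact_mod_cast h0
  · exact_mod_cast h1

theorem norm_S (x : K → ℂ) (k : K) : ‖S x k‖ = ‖x k‖ := by
  unfold S
  split_ifs with h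
  · rw [norm_neg, Complex.norm_conj]
  · rw [norm_mul, norm_div, normSq_eq, div_self (norm_ne_zero_iff.mpr (mB_ne_zero h)), one_mul]

theorem S_sub (x y : K → ℂ) (k : K) : S x k - S y k = S (fun j => x j - y j) k := by
  unfold S
  split_ifs with h
  · rw [map_sub]; ring
  · ring

theorem S_real_mul (r : K → ℝ) (x : K → ℂ) (k : K) :
    S (fun j => (r j : ℂ) * x j) k = (r k : ℂ) * S x k := by
  unfold S
  split_ifs with h
  · rw [map_mul, Complex.conj_ofReal]; ring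
  · ring

/-- A kernel is bounded by `c` on square-summable families. -/
def KB (Kr : K → K → ℂ) (c : ℝ) : Prop :=
  ∀ (F G : Finset K) (x : K → ℂ),
    ∑ k ∈ F, ‖∑ l ∈ G, Kr k l * x l‖ ^ 2 ≤ c ^ 2 * ∑ l ∈ G, ‖x l‖ ^ 2

/-- A kernel is dominated by a summable convolution kernel. -/
def KDom (Kr : K → K → ℂ) : Prop :=
  ∃ ρ : K → ℝ, Summable ρ ∧ ∀ k l, ‖Kr k l‖ ≤ ρ (k - l)

/-- Square summable. -/
def L2 (x : K → ℂ) : Prop := Summable (fun k => ‖x k‖ ^ 2)

theorem RD.l2 {a : K → ℂ} (h : RD a) : L2 a := by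
  obtain ⟨C, hC⟩ := h 0
  refine Summable.of_nonneg_of_le (fun k => sq_nonneg _) (fun k => ?_)
    (h.summable_norm.mul_left C)
  rw [sq]
  exact mul_le_mul_of_nonneg_right (by simpa using hC k) (norm_nonneg _)

theorem L2.bounded {x : K → ℂ} (h : L2 x) (k : K) : ‖x k‖ ≤ Real.sqrt (∑' j, ‖x j‖ ^ 2) :=
  Real.le_sqrt_of_sq_le (h.le_tsum k fun _ _ => sq_nonneg _)

/-- The operator of a kernel. -/
noncomputable def app (Kr : K → K → ℂ) (x : K → ℂ) (k : K) : ℂ := ∑' l, Kr k l * x l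

theorem summable_app {Kr : K → K → ℂ} (hd : KDom Kr) {x : K → ℂ} (hx : L2 x) (k : K) :
    Summable (fun l => Kr k l * x l) := by
  obtain ⟨ρ, hρ, hle⟩ := hd
  refine Summable.of_norm_bounded
    ((hρ.comp_injective (Equiv.subLeft k).injective).mul_right (Real.sqrt (∑' j, ‖x j‖ ^ 2)))
    (fun l => ?_)
  rw [norm_mul]
  exact mul_le_mul (hle k l) (hx.bounded l) (norm_nonneg _) ((norm_nonneg _).trans (hle k l))

theorem app_bound {Kr : K → K → ℂ} {c : ℝ} (hd : KDom Kr) (hb : KB Kr c) {x : K → ℂ}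
    (hx : L2 x) : L2 (app Kr x) ∧ ∑' k, ‖app Kr x k‖ ^ 2 ≤ c ^ 2 * ∑' l, ‖x l‖ ^ 2 := by
  have hF : ∀ F : Finset K, ∑ k ∈ F, ‖app Kr x k‖ ^ 2 ≤ c ^ 2 * ∑' l, ‖x l‖ ^ 2 := by
    intro F
    have ht : Filter.Tendsto (fun G : Finset K => ∑ k ∈ F, ‖∑ l ∈ G, Kr k l * x l‖ ^ 2)
        Filter.atTop (nhds (∑ k ∈ F, ‖app Kr x k‖ ^ 2)) :=
      tendsto_finsetSum _ fun k _ => ((summable_app hd hx k).hasSum.norm).pow 2
    refine le_of_tendsto' ht fun G => (hb F G x).trans ?_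
    exact mul_le_mul_of_nonneg_left (hx.sum_le_tsum G fun l _ => sq_nonneg _) (sq_nonneg c)
  have hs : L2 (app Kr x) := summable_of_sum_le (fun k => sq_nonneg _) hF
  exact ⟨hs, hs.tsum_le_of_sum_le hF⟩

theorem app_sub {Kr : K → K → ℂ} (hd : KDom Kr) {x y : K → ℂ} (hx : L2 x) (hy : L2 y) (k : K) :
    app Kr x k - app Kr y k = app Kr (fun l => x l - y l) k := by
  rw [app, app, app, ← (summable_app hd hx k).tsum_sub (summable_app hd hy k)]
  exact tsum_congr fun l => by ring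

theorem L2.add {x y : K → ℂ} (hx : L2 x) (hy : L2 y) : L2 (fun k => x k + y k) := by
  refine Summable.of_nonneg_of_le (fun k => sq_nonneg _) (fun k => ?_)
    ((Summable.add hx hy).mul_left 2)
  have := norm_add_le (x k) (y k)
  nlinarith [norm_nonneg (x k + y k), sq_nonneg (‖x k‖ - ‖y k‖)]

theorem L2.sub {x y : K → ℂ} (hx : L2 x) (hy : L2 y) : L2 (fun k => x k - y k) := by
  have : L2 (fun k => -y k) := by simpa [L2] using hy
  simpa [sub_eq_add_neg] using hx.add this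

/-- The fixed point equation has exactly one square-summable solution. -/
theorem exists_unique_fixed {Kr : K → K → ℂ} {c : ℝ} (hc : 0 ≤ c) (hc1 : c < 1) (hd : KDom Kr)
    (hb : KB Kr c) {a : K → ℂ} (ha : L2 a) :
    ∃! x : K → ℂ, L2 x ∧ ∀ k, x k = S (fun j => a j + app Kr x j) k := by
  have hmem : ∀ x : lp (fun _ : K => ℂ) 2, L2 (x : K → ℂ) := fun x => by
    have := (lp.memℓp x).summable (by norm_num)
    simpa [L2] using this
  have hm2 : ∀ x : K → ℂ, L2 x → Memℓp x 2 := fun x hx => memℓp_gen (by simpa [L2] using hx)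
  have hnorm : ∀ x : lp (fun _ : K => ℂ) 2, ‖x‖ ^ 2 = ∑' k, ‖x k‖ ^ 2 := fun x => by
    simpa using lp.norm_rpow_eq_tsum (p := 2) (by norm_num) x
  have hS : ∀ x : K → ℂ, L2 x → L2 (S x) := fun x hx => by simpa [L2, norm_S] using hx
  let T : lp (fun _ : K => ℂ) 2 → lp (fun _ : K => ℂ) 2 := fun x =>
    ⟨fun k => S (fun j => a j + app Kr x j) k,
      hm2 _ (hS _ (ha.add (app_bound hd hb (hmem x)).1))⟩
  have hT : ContractingWith ⟨c, hc⟩ T := by
    refine ⟨by exact_mod_cast hc1, LipschitzWith.of_dist_le_mul fun x y => ?_⟩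
    rw [dist_eq_norm, dist_eq_norm]
    show ‖T x - T y‖ ≤ c * ‖x - y‖
    refine le_of_pow_le_pow_left₀ two_ne_zero (mul_nonneg hc (norm_nonneg _)) ?_
    rw [mul_pow, hnorm, hnorm]
    have e : ∀ k, ‖(T x - T y) k‖ = ‖app Kr (fun l => x l - y l) k‖ := fun k => by
      show ‖S (fun j => a j + app Kr x j) k - S (fun j => a j + app Kr y j) k‖ = _
      rw [S_sub, norm_S, add_sub_add_left_eq_sub, app_sub hd (hmem x) (hmem y)]
    simp only [e]
    exact (app_bound hd hb ((hmem x).sub (hmem y))).2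
  refine ⟨fun k => hT.fixedPoint T k, ⟨hmem _, fun k => ?_⟩, fun x hx => ?_⟩
  · exact (congrArg (fun u : lp (fun _ : K => ℂ) 2 => u k) hT.fixedPoint_isFixedPt).symm
  · have hfx : Function.IsFixedPt T ⟨x, hm2 x hx.1⟩ :=
      Subtype.ext (funext fun k => (hx.2 k).symm)
    rw [← hT.fixedPoint_unique hfx]

theorem KB.add {K₁ K₂ : K → K → ℂ} {c₁ c₂ : ℝ} (h₁ : 0 ≤ c₁) (h₂ : 0 ≤ c₂) (hb₁ : KB K₁ c₁)
    (hb₂ : KB K₂ c₂) : KB (fun k l => K₁ k l + K₂ k l) (c₁ + c₂) := by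
  intro F G x
  set X := ∑ l ∈ G, ‖x l‖ ^ 2 with hX
  set f : K → ℝ := fun k => ‖∑ l ∈ G, K₁ k l * x l‖
  set g : K → ℝ := fun k => ‖∑ l ∈ G, K₂ k l * x l‖
  have hf : ∑ k ∈ F, f k ^ 2 ≤ c₁ ^ 2 * X := hb₁ F G x
  have hg : ∑ k ∈ F, g k ^ 2 ≤ c₂ ^ 2 * X := hb₂ F G x
  have hX0 : 0 ≤ X := Finset.sum_nonneg fun _ _ => sq_nonneg _
  have hfg : ∑ k ∈ F, f k * g k ≤ c₁ * c₂ * X := by
    refine le_of_pow_le_pow_left₀ two_ne_zero (by positivity) ?_
    calc (∑ k ∈ F, f k * g k) ^ 2 ≤ (∑ k ∈ F, f k ^ 2) * ∑ k ∈ F, g k ^ 2 :=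
          Finset.sum_mul_sq_le_sq_mul_sq F f g
      _ ≤ (c₁ ^ 2 * X) * (c₂ ^ 2 * X) :=
          mul_le_mul hf hg (Finset.sum_nonneg fun _ _ => sq_nonneg _) (by positivity)
      _ = _ := by ring
  calc ∑ k ∈ F, ‖∑ l ∈ G, (K₁ k l + K₂ k l) * x l‖ ^ 2 ≤ ∑ k ∈ F, (f k + g k) ^ 2 := by
        refine Finset.sum_le_sum fun k _ => pow_le_pow_left₀ (norm_nonneg _) ?_ 2
        simp only [add_mul, Finset.sum_add_distrib]
        exact norm_add_le _ _
    _ = (∑ k ∈ F, f k ^ 2) + (∑ k ∈ F, g k ^ 2) + 2 * ∑ k ∈ F, f k * g k := by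
        rw [Finset.mul_sum, ← Finset.sum_add_distrib, ← Finset.sum_add_distrib]
        exact Finset.sum_congr rfl fun k _ => by ring
    _ ≤ (c₁ + c₂) ^ 2 * X := by nlinarith

/-- Young's inequality for a dominated kernel. -/
theorem kb_of_dom {Kr : K → K → ℂ} {ρ : K → ℝ} (hρ : Summable ρ) (h0 : ∀ j, 0 ≤ ρ j)
    (hle : ∀ k l, ‖Kr k l‖ ≤ ρ (k - l)) : KB Kr (∑' j, ρ j) := by
  intro F G x
  have hrow : ∀ k, ∑ l ∈ G, ρ (k - l) ≤ ∑' j, ρ j := fun k => by
    have h := hρ.sum_le_tsum (G.map (Equiv.subLeft k).toEmbedding) fun j _ => h0 j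
    simpa using h
  have hcol : ∀ l, ∑ k ∈ F, ρ (k - l) ≤ ∑' j, ρ j := fun l => by
    have h := hρ.sum_le_tsum (F.map (Equiv.subRight l).toEmbedding) fun j _ => h0 j
    simpa using h
  have hR : 0 ≤ ∑' j, ρ j := tsum_nonneg h0
  calc ∑ k ∈ F, ‖∑ l ∈ G, Kr k l * x l‖ ^ 2
      ≤ ∑ k ∈ F, (∑' j, ρ j) * ∑ l ∈ G, ρ (k - l) * ‖x l‖ ^ 2 := by
        refine Finset.sum_le_sum fun k _ => ?_
        have h1 : ‖∑ l ∈ G, Kr k l * x l‖ ≤ ∑ l ∈ G, ρ (k - l) * ‖x l‖ :=
          (norm_sum_le _ _).trans (Finset.sum_le_sum fun l _ => by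
            rw [norm_mul]; exact mul_le_mul_of_nonneg_right (hle k l) (norm_nonneg _))
        refine (pow_le_pow_left₀ (norm_nonneg _) h1 2).trans ?_
        refine (Finset.sum_sq_le_sum_mul_sum_of_sq_le_mul (R := ℝ) G
          (f := fun l => ρ (k - l)) (g := fun l => ρ (k - l) * ‖x l‖ ^ 2) (fun l _ => h0 (k - l))
          (fun l _ => mul_nonneg (h0 (k - l)) (sq_nonneg _)) (fun l _ => le_of_eq (by ring))).trans ?_
        exact mul_le_mul_of_nonneg_right (hrow k)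
          (Finset.sum_nonneg fun l _ => mul_nonneg (h0 _) (sq_nonneg _))
    _ = (∑' j, ρ j) * ∑ l ∈ G, (∑ k ∈ F, ρ (k - l)) * ‖x l‖ ^ 2 := by
        rw [← Finset.mul_sum, Finset.sum_comm]
        simp [Finset.sum_mul]
    _ ≤ (∑' j, ρ j) * ∑ l ∈ G, (∑' j, ρ j) * ‖x l‖ ^ 2 := by
        gcongr with l hl; exact hcol l
    _ = (∑' j, ρ j) ^ 2 * ∑ l ∈ G, ‖x l‖ ^ 2 := by rw [← Finset.mul_sum]; ring

/-- The kernel of multiplication by `μ`. -/
noncomputable def Kmul (μ : ℝ × ℝ → ℂ) (k l : K) : ℂ := coef μ (k - l)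

theorem cp_mul {f g : ℝ × ℝ → ℂ} (hf : CP f) (hg : CP g) : CP (fun z => f z * g z) :=
  ⟨hf.1.mul hg.1, fun z => ⟨by simp only [(hf.2 z).1, (hg.2 z).1],
    by simp only [(hf.2 z).2, (hg.2 z).2]⟩⟩

theorem kb_mul {μ : ℝ × ℝ → ℂ} (hμ : CP μ) {κ : ℝ} (hκ : ∀ z, ‖μ z‖ ≤ κ) :
    KB (Kmul μ) κ := by
  intro F G x
  set P : ℝ × ℝ → ℂ := fun z => ∑ l ∈ G, x l * e l z
  have hP : CP P := ⟨continuous_finsetSum _ fun l _ => continuous_const.mul (continuous_e l),
    fun z => ⟨by simp only [P, (per_e _ z).1], by simp only [P, (per_e _ z).2]⟩⟩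
  have h1 : ∀ k, coef (fun z => μ z * P z) k = ∑ l ∈ G, Kmul μ k l * x l := fun k => by
    have : (fun z => μ z * P z) = fun z => ∑ l ∈ G, x l * (μ z * e l z) := by
      funext z; simp only [P, Finset.mul_sum]; exact Finset.sum_congr rfl fun l _ => by ring
    rw [this, coef_finset_sum G (fun l z => x l * (μ z * e l z))
      (fun l _ => continuous_const.mul (hμ.1.mul (continuous_e l)))]
    exact Finset.sum_congr rfl fun l _ => by rw [coef_const_mul, coef_mul_e, Kmul]; ring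
  have h2 : ∀ k, coef P k = if k ∈ G then x k else 0 := fun k => by
    rw [coef_finset_sum G (fun l z => x l * e l z)
      (fun l _ => continuous_const.mul (continuous_e l))]
    simp [coef_const_mul, coef_e, Finset.sum_ite_eq]
  have hPsum : ∫ z in square, ‖P z‖ ^ 2 = ∑ l ∈ G, ‖x l‖ ^ 2 := by
    rw [← (hasSum_sq_coef hP).tsum_eq, tsum_eq_sum (s := G) (fun k hk => by simp [h2, hk])]
    exact Finset.sum_congr rfl fun k hk => by simp [h2, hk]
  have hI : ∫ z in square, ‖μ z * P z‖ ^ 2 ≤ κ ^ 2 * ∫ z in square, ‖P z‖ ^ 2 := by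
    rw [← integral_const_mul]
    refine integral_mono ?_ ?_ fun z => ?_
    · exact ((continuous_norm.comp (hμ.1.mul hP.1)).pow 2).continuousOn.integrableOn_compact
        (isCompact_Icc.prod isCompact_Icc) |>.mono_set
        (Set.prod_mono Set.Ioc_subset_Icc_self Set.Ioc_subset_Icc_self)
    · exact (continuous_const.mul ((continuous_norm.comp hP.1).pow 2)).continuousOn
        |>.integrableOn_compact (isCompact_Icc.prod isCompact_Icc) |>.mono_set
        (Set.prod_mono Set.Ioc_subset_Icc_self Set.Ioc_subset_Icc_self)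
    · rw [norm_mul, mul_pow]
      exact mul_le_mul_of_nonneg_right (pow_le_pow_left₀ (norm_nonneg _) (hκ z) 2) (sq_nonneg _)
  have := sum_le_hasSum F (fun k _ => sq_nonneg _) (hasSum_sq_coef (cp_mul hμ hP))
  simp only [h1] at this
  rw [hPsum] at hI
  exact this.trans hI

theorem weight_sub_one {a δ : ℝ} (ha : 0 ≤ a) (hδ : 0 ≤ δ) (hδ1 : δ ≤ 1) (n : ℕ) :
    (1 + δ * a) ^ n - 1 ≤ δ * ((1 + a) ^ n - 1) := by
  induction n with
  | zero => simp
  | succ n ih =>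
    have h1 : 0 ≤ (1 + δ * a) ^ n - 1 := by
      nlinarith [one_le_pow₀ (M₀ := ℝ) (a := 1 + δ * a) (by nlinarith) (n := n)]
    have h2 : (1 + δ * a) ≤ 1 + a := by nlinarith
    calc (1 + δ * a) ^ (n + 1) - 1 = ((1 + δ * a) ^ n - 1) * (1 + δ * a) + δ * a := by ring
      _ ≤ δ * ((1 + a) ^ n - 1) * (1 + a) + δ * a := by
          gcongr
          · exact le_trans h1 ih
      _ = δ * ((1 + a) ^ (n + 1) - 1) := by ring

/-- The Beltrami equation on coefficients: a rapidly decreasing solution. -/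
theorem exists_beltrami {μ : ℝ × ℝ → ℂ} (hμ : SP μ) {κ : ℝ} (hκ1 : κ < 1)
    (hκ : ∀ z, ‖μ z‖ ≤ κ) {a : K → ℂ} (ha : RD a) :
    ∃ x : K → ℂ, RD x ∧ ∀ k, x k = S (fun j => a j + conv (coef μ) x j) k := by
  have hκ0 : 0 ≤ κ := (norm_nonneg _).trans (hκ 0)
  have hm : RD (coef μ) := rd_coef hμ
  have hd : KDom (Kmul μ) := ⟨fun j => ‖coef μ j‖, hm.summable_norm, fun k l => le_rfl⟩
  obtain ⟨x, ⟨hx, hfix⟩, huniq⟩ := exists_unique_fixed hκ0 hκ1 hd (kb_mul hμ.cp hκ) ha.l2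
  refine ⟨x, ?_, hfix⟩
  intro n
  set M := ∑' j, ‖coef μ j‖ * (1 + nk j) ^ n with hM
  have hM0 : 0 ≤ M := tsum_nonneg fun j => mul_nonneg (norm_nonneg _) (pow_nonneg (nk1_pos j).le n)
  obtain ⟨δ, hδ0, hδ1, hδ⟩ : ∃ δ : ℝ, 0 < δ ∧ δ ≤ 1 ∧ κ + δ * M < 1 := by
    refine ⟨min 1 ((1 - κ) / (2 * (M + 1))), lt_min one_pos (div_pos (by linarith) (by linarith)),
      min_le_left _ _, ?_⟩
    have h := min_le_right (1 : ℝ) ((1 - κ) / (2 * (M + 1)))
    have h' := mul_le_mul_of_nonneg_right h hM0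
    have : (1 - κ) / (2 * (M + 1)) * M < 1 - κ := by
      rw [div_mul_eq_mul_div, div_lt_iff₀ (by linarith)]
      nlinarith
    linarith
  set w : K → ℝ := fun k => (1 + δ * nk k) ^ n with hw
  have hw0 : ∀ k, 1 ≤ w k := fun k => one_le_pow₀ (by nlinarith [nk_nonneg k])
  have hwpos : ∀ k, 0 < w k := fun k => lt_of_lt_of_le one_pos (hw0 k)
  have hwmul : ∀ k l, w k ≤ w (k - l) * w l := by
    intro k l
    rw [hw, ← mul_pow]
    refine pow_le_pow_left₀ (by nlinarith [nk_nonneg k]) ?_ n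
    have := nk_add_le (k - l) l
    rw [sub_add_cancel] at this
    nlinarith [mul_nonneg (mul_nonneg hδ0.le hδ0.le)
      (mul_nonneg (nk_nonneg (k - l)) (nk_nonneg l))]
  have hwneg : ∀ j, w (-j) = w j := fun j => by simp only [hw, nk_neg]
  set R : K → K → ℂ := fun k l => coef μ (k - l) * ((w k / w l - 1 : ℝ) : ℂ) with hR
  set ρ : K → ℝ := fun j => δ * (‖coef μ j‖ * (1 + nk j) ^ n) with hρ
  have hρ0 : ∀ j, 0 ≤ ρ j := fun j =>
    mul_nonneg hδ0.le (mul_nonneg (norm_nonneg _) (pow_nonneg (nk1_pos j).le n))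
  have hρs : Summable ρ := (hm.summable_pow n).mul_left δ
  have hRle : ∀ k l, ‖R k l‖ ≤ ρ (k - l) := by
    intro k l
    have hb : |w k / w l - 1| ≤ w (k - l) - 1 := by
      rw [abs_le]
      constructor
      · have h1 := hwmul l k
        rw [← neg_sub k l, hwneg] at h1
        have h2 : 1 / w (k - l) ≤ w k / w l := by
          rw [div_le_div_iff₀ (hwpos _) (hwpos _)]; linarith
        have h3 : 2 - w (k - l) ≤ 1 / w (k - l) := by
          rw [le_div_iff₀ (hwpos _)]; nlinarith [sq_nonneg (w (k - l) - 1)]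
        linarith
      · have : w k / w l ≤ w (k - l) := by
          rw [div_le_iff₀ (hwpos _)]; exact hwmul k l
        linarith
    calc ‖R k l‖ = ‖coef μ (k - l)‖ * |w k / w l - 1| := by
          rw [hR]; simp only [norm_mul, Complex.norm_real, Real.norm_eq_abs]
      _ ≤ ‖coef μ (k - l)‖ * (δ * (1 + nk (k - l)) ^ n) := by
          refine mul_le_mul_of_nonneg_left (hb.trans ?_) (norm_nonneg _)
          have := weight_sub_one (nk_nonneg (k - l)) hδ0.le hδ1 n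
          nlinarith
      _ = ρ (k - l) := by rw [hρ]; ring
  have hKw : ∀ k l, Kmul μ k l + R k l = coef μ (k - l) * ((w k / w l : ℝ) : ℂ) := fun k l => by
    rw [hR, Kmul]; push_cast; ring
  have hbw : KB (fun k l => Kmul μ k l + R k l) (κ + ∑' j, ρ j) :=
    (kb_mul hμ.cp hκ).add hκ0 (tsum_nonneg hρ0) (kb_of_dom hρs hρ0 hRle)
  have hdw : KDom (fun k l => Kmul μ k l + R k l) :=
    ⟨fun j => ‖coef μ j‖ + ρ j, hm.summable_norm.add hρs,
      fun k l => (norm_add_le _ _).trans (add_le_add le_rfl (hRle k l))⟩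
  have hc' : κ + ∑' j, ρ j < 1 := by rw [hρ, tsum_mul_left]; exact hδ
  have haw : L2 (fun j => (w j : ℂ) * a j) := by
    refine RD.l2 (ha.of_le (C := 1) (m := n) zero_le_one fun j => ?_)
    rw [one_mul, norm_mul, Complex.norm_real, Real.norm_of_nonneg (hwpos j).le]
    refine mul_le_mul_of_nonneg_right ?_ (norm_nonneg _)
    exact pow_le_pow_left₀ (by nlinarith [nk_nonneg j]) (by nlinarith [nk_nonneg j]) n
  obtain ⟨y, ⟨hy, hyfix⟩, -⟩ :=
    exists_unique_fixed (add_nonneg hκ0 (tsum_nonneg hρ0)) hc' hdw hbw haw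
  have hxy : (fun k => y k / (w k : ℂ)) = x := by
    refine huniq _ ⟨?_, fun k => ?_⟩
    · refine Summable.of_nonneg_of_le (fun k => sq_nonneg _) (fun k => ?_) hy
      rw [norm_div, Complex.norm_real, Real.norm_of_nonneg (hwpos k).le]
      exact pow_le_pow_left₀ (div_nonneg (norm_nonneg _) (hwpos k).le)
        (div_le_self (norm_nonneg _) (hw0 k)) 2
    · have hsum : ∀ j, (w j : ℂ) * a j + app (fun k l => Kmul μ k l + R k l) y j
          = (w j : ℂ) * (a j + app (Kmul μ) (fun l => y l / (w l : ℂ)) j) := by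
        intro j
        rw [mul_add, app, app, ← tsum_mul_left]
        refine congrArg _ (tsum_congr fun l => ?_)
        rw [hKw, Kmul]; push_cast; ring
      have hk := hyfix k
      simp only [hsum, S_real_mul] at hk
      show y k / (w k : ℂ) = _
      rw [hk, mul_div_cancel_left₀ _ (by exact_mod_cast (hwpos k).ne')]
  refine ⟨Real.sqrt (∑' j, ‖y j‖ ^ 2) / δ ^ n, fun k => ?_⟩
  rw [← hxy, norm_div, Complex.norm_real, Real.norm_of_nonneg (hwpos k).le,
    le_div_iff₀ (pow_pos hδ0 n), div_mul_eq_mul_div, div_mul_eq_mul_div, div_le_iff₀ (hwpos k),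
    mul_assoc, ← mul_pow]
  refine mul_le_mul (hy.bounded k) ?_ (pow_nonneg (mul_nonneg (nk1_pos k).le hδ0.le) n)
    (Real.sqrt_nonneg _)
  exact pow_le_pow_left₀ (mul_nonneg (nk1_pos k).le hδ0.le) (by nlinarith [nk_nonneg k]) n

end P205.Tori.Fourier
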