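import Mathlib

/-!
P205, isometric immersions of tori into `ℝ⁴` (notes/P205/TORI.md): definitions.
-/

namespace P205.Tori

/-- The first partial derivative. -/
noncomputable def dx (f : ℝ × ℝ → ℝ) (z : ℝ × ℝ) : ℝ := fderiv ℝ f z (1, 0)

/-- The second partial derivative. -/
noncomputable def dy (f : ℝ × ℝ → ℝ) (z : ℝ × ℝ) : ℝ := fderiv ℝ f z (0, 1)

/-- Periodic for the lattice of `l₁, l₂`. -/
def Periodic2 {E : Type} (f : ℝ × ℝ → E) (l₁ l₂ : ℝ × ℝ) : Prop :=
  ∀ z, f (z + l₁) = f z ∧ f (z + l₂) = f z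

/-- The Euclidean inner product of the plane. -/
def dot (w w' : ℝ × ℝ) : ℝ := w.1 * w'.1 + w.2 * w'.2

/-- The nonlinearity: `Δ r = ε e^{2r} nl v r` says that
`e^{-2u} e^{2v} |dz|² - ε du²`, `u = v + r`, is flat. -/
noncomputable def nl (v r : ℝ × ℝ → ℝ) (z : ℝ × ℝ) : ℝ :=
  let u := v + r
  let a := dx u z
  let b := dy u z
  let p := dx r z
  let q := dy r z
  let A := dx (dx u) z
  let B := dy (dx u) z
  let C := dy (dy u) z
  (a ^ 2 + b ^ 2) * (dx (dx r) z + dy (dy r) z - p ^ 2 - q ^ 2) + (A * C - B ^ 2)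
    + p * (C * a - B * b) - q * (B * a - A * b) - p * (A * a + B * b) - q * (B * a + C * b)

/-- `r` solves the flatness equation. -/
def Solves (v r : ℝ × ℝ → ℝ) (ε : ℝ) : Prop :=
  ∀ z, dx (dx r) z + dy (dy r) z = ε * Real.exp (2 * r z) * nl v r z

/-- The target space. -/
abbrev R4 := EuclideanSpace ℝ (Fin 4)

end P205.Tori
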