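import Vale.Agent.P205.Tori.Calc
import Vale.Agent.P205.Tori.Interfaces

/-!
P205, tori: the developing map of the flat metric (proof of `DevelopStmt`).
-/

namespace P205.Tori

open MeasureTheory

/-- The primitive of `P dx + Q dy` vanishing at the origin. -/
noncomputable def prim (P Q : ℝ × ℝ → ℝ) (z : ℝ × ℝ) : ℝ :=
  ∫ t in (0 : ℝ)..1, (P (t • z) * z.1 + Q (t • z) * z.2)

theorem prim_zero (P Q : ℝ × ℝ → ℝ) : prim P Q 0 = 0 := by simp [prim]

/-- The one-form `P dx + Q dy`. -/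
noncomputable def form (P Q : ℝ × ℝ → ℝ) (z : ℝ × ℝ) : ℝ × ℝ →L[ℝ] ℝ :=
  P z • ContinuousLinearMap.fst ℝ ℝ ℝ + Q z • ContinuousLinearMap.snd ℝ ℝ ℝ

theorem form_apply (P Q : ℝ × ℝ → ℝ) (z w : ℝ × ℝ) :
    form P Q z w = P z * w.1 + Q z * w.2 := by simp [form]

theorem hasFDerivAt_prim {P Q : ℝ × ℝ → ℝ} (hP : ContDiff ℝ (⊤ : ℕ∞) P)
    (hQ : ContDiff ℝ (⊤ : ℕ∞) Q) (h : ∀ z, dy P z = dx Q z) (z : ℝ × ℝ) :
    HasFDerivAt (prim P Q) (form P Q z) z := by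
  have hd : ∀ a, HasFDerivAt (form P Q)
      ((fderiv ℝ P a).smulRight (ContinuousLinearMap.fst ℝ ℝ ℝ)
        + (fderiv ℝ Q a).smulRight (ContinuousLinearMap.snd ℝ ℝ ℝ)) a := fun a =>
    ((hP.differentiable (by simp) a).hasFDerivAt.smul_const (ContinuousLinearMap.fst ℝ ℝ ℝ)).add
      ((hQ.differentiable (by simp) a).hasFDerivAt.smul_const (ContinuousLinearMap.snd ℝ ℝ ℝ))
  have hsym : ∀ a ∈ (Set.univ : Set (ℝ × ℝ)), ∀ x y,
      fderiv ℝ (form P Q) a x y = fderiv ℝ (form P Q) a y x := by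
    intro a _ x y
    rw [(hd a).fderiv]
    simp only [add_apply, ContinuousLinearMap.smulRight_apply, smul_apply,
      ContinuousLinearMap.coe_fst', ContinuousLinearMap.coe_snd', smul_eq_mul,
      fderiv_eq_dx_dy P, fderiv_eq_dx_dy Q, h a]
    ring
  obtain ⟨f, hf⟩ := convex_univ.exists_forall_hasFDerivAt_of_fderiv_symmetric isOpen_univ
    (fun a _ => (hd a).differentiableAt.differentiableWithinAt) hsym
  have hf' : ∀ a, HasFDerivAt f (form P Q a) a := fun a => hf a (Set.mem_univ a)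
  have e : prim P Q = fun a => f a - f 0 := by
    funext a
    have hline : ∀ t : ℝ, HasDerivAt (fun t : ℝ => f (t • a)) (P (t • a) * a.1 + Q (t • a) * a.2) t := by
      intro t
      have := (hf' (t • a)).comp_hasDerivAt t ((hasDerivAt_id t).smul_const a)
      simpa [form_apply, Function.comp_def] using this
    have hc : Continuous fun t : ℝ => P (t • a) * a.1 + Q (t • a) * a.2 :=
      ((hP.continuous.comp (continuous_id.smul continuous_const)).mul continuous_const).add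
        ((hQ.continuous.comp (continuous_id.smul continuous_const)).mul continuous_const)
    rw [prim, intervalIntegral.integral_eq_sub_of_hasDerivAt (fun t _ => hline t)
      (hc.intervalIntegrable _ _)]
    simp
  rw [e]
  exact (hf' z).sub_const _

theorem contDiff_prim {P Q : ℝ × ℝ → ℝ} (hP : ContDiff ℝ (⊤ : ℕ∞) P)
    (hQ : ContDiff ℝ (⊤ : ℕ∞) Q) (h : ∀ z, dy P z = dx Q z) :
    ContDiff ℝ (⊤ : ℕ∞) (prim P Q) := by
  rw [contDiff_infty_iff_fderiv]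
  refine ⟨fun z => (hasFDerivAt_prim hP hQ h z).differentiableAt, ?_⟩
  rw [show fderiv ℝ (prim P Q) = form P Q from funext fun z => (hasFDerivAt_prim hP hQ h z).fderiv]
  exact (hP.smul contDiff_const).add (hQ.smul contDiff_const)

theorem continuous_prim {X : Type*} [TopologicalSpace X] {P Q : X → ℝ × ℝ → ℝ}
    (hP : Continuous P.uncurry) (hQ : Continuous Q.uncurry) :
    Continuous fun p : X × (ℝ × ℝ) => prim (P p.1) (Q p.1) p.2 := by
  refine intervalIntegral.continuous_parametric_intervalIntegral_of_continuous' ?_ 0 1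
  have e : Continuous fun q : (X × (ℝ × ℝ)) × ℝ => (q.1.1, q.2 • q.1.2) :=
    (continuous_fst.comp continuous_fst).prodMk (continuous_snd.smul (continuous_snd.comp continuous_fst))
  exact ((hP.comp e).mul (continuous_fst.comp (continuous_snd.comp continuous_fst))).add
    ((hQ.comp e).mul (continuous_snd.comp (continuous_snd.comp continuous_fst)))

theorem periodic_fderiv {E F : Type*} [NormedAddCommGroup E] [NormedSpace ℝ E]
    [NormedAddCommGroup F] [NormedSpace ℝ F] {f : E → F} {l : E} (h : ∀ z, f (z + l) = f z)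
    (z : E) : fderiv ℝ f (z + l) = fderiv ℝ f z := by
  rw [← fderiv_comp_add_right l, funext h]

/-- A periodic function of `(ε, z)`, continuous, is bounded. -/
theorem periodic_bound {l₁ l₂ : ℝ × ℝ} (hl : l₁.1 * l₂.2 - l₁.2 * l₂.1 ≠ 0) {ε₀ : ℝ}
    {H : ℝ → ℝ × ℝ → ℝ} (hH : ContinuousOn (fun p : ℝ × ℝ × ℝ => H p.1 p.2) (Set.Icc 0 ε₀ ×ˢ Set.univ))
    (hper : ∀ ε ∈ Set.Icc 0 ε₀, Periodic2 (H ε) l₁ l₂) :
    ∃ C, ∀ ε ∈ Set.Icc 0 ε₀, ∀ z, |H ε z| ≤ C := by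
  obtain ⟨K, hKd⟩ : ∃ K, K = (fun q : ℝ × ℝ => q.1 • l₁ + q.2 • l₂) ''
      (Set.Icc 0 1 ×ˢ Set.Icc 0 1) := ⟨_, rfl⟩
  have hK : IsCompact K := hKd ▸ (isCompact_Icc.prod isCompact_Icc).image (by fun_prop)
  obtain ⟨C, hC⟩ := (isCompact_Icc.prod hK).exists_bound_of_continuousOn
    (hH.mono (Set.prod_mono subset_rfl (Set.subset_univ _)))
  refine ⟨C, fun ε hε z => ?_⟩
  set d : ℝ := l₁.1 * l₂.2 - l₁.2 * l₂.1 with hd
  set a : ℝ := (z.1 * l₂.2 - z.2 * l₂.1) / d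
  set b : ℝ := (l₁.1 * z.2 - l₁.2 * z.1) / d
  have hz : z = ((Int.fract a) • l₁ + (Int.fract b) • l₂) + ⌊a⌋ • l₁ + ⌊b⌋ • l₂ := by
    have e : z = a • l₁ + b • l₂ := by
      ext <;> simp [a, b] <;> field_simp <;> rw [hd] <;> ring
    conv_lhs => rw [e, ← Int.fract_add_floor a, ← Int.fract_add_floor b]
    simp only [add_smul, Int.cast_smul_eq_zsmul]
    abel
  have p1 : Function.Periodic (H ε) l₁ := fun w => (hper ε hε w).1
  have p2 : Function.Periodic (H ε) l₂ := fun w => (hper ε hε w).2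
  rw [hz, (p2.zsmul _) _, (p1.zsmul _) _]
  refine le_of_eq_of_le (Real.norm_eq_abs _).symm (hC (ε, _) ⟨hε, hKd ▸ ⟨(Int.fract a, Int.fract b),
    ⟨⟨Int.fract_nonneg _, (Int.fract_lt_one _).le⟩,
      ⟨Int.fract_nonneg _, (Int.fract_lt_one _).le⟩⟩, rfl⟩⟩)

variable (v r : ℝ × ℝ → ℝ) (ε : ℝ)

/-- The angle of the coframe. -/
noncomputable def ang : ℝ × ℝ → ℝ := prim (om₁ v r ε) (om₂ v r ε)

noncomputable def e₁₁ (z : ℝ × ℝ) : ℝ :=
  Real.cos (ang v r ε z) * s₁₁ v r ε z - Real.sin (ang v r ε z) * s₁₂ v r ε z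

noncomputable def e₁₂ (z : ℝ × ℝ) : ℝ :=
  Real.cos (ang v r ε z) * s₁₂ v r ε z - Real.sin (ang v r ε z) * s₂₂ v r ε z

noncomputable def e₂₁ (z : ℝ × ℝ) : ℝ :=
  Real.sin (ang v r ε z) * s₁₁ v r ε z + Real.cos (ang v r ε z) * s₁₂ v r ε z

noncomputable def e₂₂ (z : ℝ × ℝ) : ℝ :=
  Real.sin (ang v r ε z) * s₁₂ v r ε z + Real.cos (ang v r ε z) * s₂₂ v r ε z

/-- The developing map. -/
noncomputable def dev (z : ℝ × ℝ) : ℝ × ℝ :=
  (prim (e₁₁ v r ε) (e₁₂ v r ε) z, prim (e₂₁ v r ε) (e₂₂ v r ε) z)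

variable {v r ε}

section

variable (hv : ContDiff ℝ (⊤ : ℕ∞) v) (hr : ContDiff ℝ (⊤ : ℕ∞) r)
  (hpos : ∀ z, kap r ε z * gsq v r z < 1) (hsol : Solves v r ε)
include hv hr hpos hsol

theorem hasFDerivAt_ang (z : ℝ × ℝ) :
    HasFDerivAt (ang v r ε) (form (om₁ v r ε) (om₂ v r ε) z) z := by
  refine hasFDerivAt_prim (contDiff_om hv hr hpos).1 (contDiff_om hv hr hpos).2 (fun w => ?_) z
  have h := om_curl hv hr hpos w
  rw [hsol w, kap, sub_self, neg_zero, zero_div] at h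
  linarith

theorem contDiff_ang : ContDiff ℝ (⊤ : ℕ∞) (ang v r ε) := by
  refine contDiff_prim (contDiff_om hv hr hpos).1 (contDiff_om hv hr hpos).2 fun w => ?_
  have h := om_curl hv hr hpos w
  rw [hsol w, kap, sub_self, neg_zero, zero_div] at h
  linarith

theorem contDiff_e : ContDiff ℝ (⊤ : ℕ∞) (e₁₁ v r ε) ∧ ContDiff ℝ (⊤ : ℕ∞) (e₁₂ v r ε) ∧
    ContDiff ℝ (⊤ : ℕ∞) (e₂₁ v r ε) ∧ ContDiff ℝ (⊤ : ℕ∞) (e₂₂ v r ε) := by
  obtain ⟨h1, h2, h3⟩ := contDiff_s hv hr hpos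
  have ha := contDiff_ang hv hr hpos hsol
  exact ⟨(ha.cos.mul h1).sub (ha.sin.mul h2), (ha.cos.mul h2).sub (ha.sin.mul h3),
    (ha.sin.mul h1).add (ha.cos.mul h2), (ha.sin.mul h2).add (ha.cos.mul h3)⟩

theorem e_closed (z : ℝ × ℝ) :
    dy (e₁₁ v r ε) z = dx (e₁₂ v r ε) z ∧ dy (e₂₁ v r ε) z = dx (e₂₂ v r ε) z := by
  obtain ⟨h1, h2, h3⟩ := contDiff_s hv hr hpos
  have ha := hasFDerivAt_ang hv hr hpos hsol z
  have dd : ∀ {h : ℝ × ℝ → ℝ}, ContDiff ℝ (⊤ : ℕ∞) h → HasFDerivAt h (fderiv ℝ h z) z :=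
    fun hh => (hh.differentiable (by simp) z).hasFDerivAt
  have d11 : HasFDerivAt (e₁₁ v r ε) _ z := (ha.cos.mul (dd h1)).sub (ha.sin.mul (dd h2))
  have d12 : HasFDerivAt (e₁₂ v r ε) _ z := (ha.cos.mul (dd h2)).sub (ha.sin.mul (dd h3))
  have d21 : HasFDerivAt (e₂₁ v r ε) _ z := (ha.sin.mul (dd h1)).add (ha.cos.mul (dd h2))
  have d22 : HasFDerivAt (e₂₂ v r ε) _ z := (ha.sin.mul (dd h2)).add (ha.cos.mul (dd h3))
  obtain ⟨c1, c2⟩ := closed_identities hv hr hpos z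
  simp only [dx, dy] at c1 c2
  simp only [dx, dy, d11.fderiv, d12.fderiv, d21.fderiv, d22.fderiv, add_apply, sub_apply,
    smul_apply, form_apply, smul_eq_mul]
  constructor
  · linear_combination Real.cos (ang v r ε z) * c1 - Real.sin (ang v r ε z) * c2
  · linear_combination Real.sin (ang v r ε z) * c1 + Real.cos (ang v r ε z) * c2

theorem hasFDerivAt_dev (z : ℝ × ℝ) :
    HasFDerivAt (dev v r ε)
      ((form (e₁₁ v r ε) (e₁₂ v r ε) z).prod (form (e₂₁ v r ε) (e₂₂ v r ε) z)) z := by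
  obtain ⟨a, b, c, d⟩ := contDiff_e hv hr hpos hsol
  exact (hasFDerivAt_prim a b (fun w => (e_closed hv hr hpos hsol w).1) z).prodMk
    (hasFDerivAt_prim c d (fun w => (e_closed hv hr hpos hsol w).2) z)

theorem contDiff_dev : ContDiff ℝ (⊤ : ℕ∞) (dev v r ε) := by
  obtain ⟨a, b, c, d⟩ := contDiff_e hv hr hpos hsol
  exact (contDiff_prim a b (fun w => (e_closed hv hr hpos hsol w).1)).prodMk
    (contDiff_prim c d (fun w => (e_closed hv hr hpos hsol w).2))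

theorem dev_pullback (z w w' : ℝ × ℝ) :
    dot (fderiv ℝ (dev v r ε) z w) (fderiv ℝ (dev v r ε) z w')
      = Real.exp (-2 * r z) * dot w w' - ε * fderiv ℝ (v + r) z w * fderiv ℝ (v + r) z w' := by
  rw [(hasFDerivAt_dev hv hr hpos hsol z).fderiv]
  simp only [dot, ContinuousLinearMap.prod_apply, form_apply, fderiv_eq_dx_dy (v + r)]
  have k1 := bet_mul (v := v) hpos z
  have k2 := bet_sq hpos z
  have hk : ε = Real.exp (-r z) ^ 2 * kap r ε z := by
    rw [kap, ← mul_assoc, mul_comm (Real.exp (-r z) ^ 2), mul_assoc, sq, ← Real.exp_add,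
      ← Real.exp_add, show -r z + -r z + 2 * r z = 0 by ring, Real.exp_zero, mul_one]
  have he : Real.exp (-2 * r z) = Real.exp (-r z) ^ 2 := by
    rw [sq, ← Real.exp_add]; ring_nf
  have hc := Real.cos_sq_add_sin_sq (ang v r ε z)
  rw [he]
  conv_rhs => rw [hk]
  simp only [e₁₁, e₁₂, e₂₁, e₂₂, s₁₁, s₁₂, s₂₂]
  set E := Real.exp (-r z)
  set c := Real.cos (ang v r ε z)
  set n := Real.sin (ang v r ε z)
  set β := bet v r ε z
  set a := dx (v + r) z
  set b := dy (v + r) z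
  set M : ℝ := (w.1 * a + w.2 * b) * (w'.1 * a + w'.2 * b)
  linear_combination E ^ 2 * ((w.1 * w'.1 + w.2 * w'.2) - β * (2 - β * (a ^ 2 + b ^ 2)) * M) * hc
    + E ^ 2 * β * M * k2 - E ^ 2 * M * k1

variable {l : ℝ × ℝ} (hvl : ∀ z, v (z + l) = v z) (hrl : ∀ z, r (z + l) = r z)
include hvl hrl

set_option linter.unusedSectionVars false in
theorem periodic_data (z : ℝ × ℝ) :
    om₁ v r ε (z + l) = om₁ v r ε z ∧ om₂ v r ε (z + l) = om₂ v r ε z ∧
      s₁₁ v r ε (z + l) = s₁₁ v r ε z ∧ s₁₂ v r ε (z + l) = s₁₂ v r ε z ∧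
      s₂₂ v r ε (z + l) = s₂₂ v r ε z := by
  have d1 : ∀ {f : ℝ × ℝ → ℝ}, (∀ z, f (z + l) = f z) → (∀ z, dx f (z + l) = dx f z) ∧
      ∀ z, dy f (z + l) = dy f z := fun hf =>
    ⟨fun z => by rw [dx, dx, periodic_fderiv hf], fun z => by rw [dy, dy, periodic_fderiv hf]⟩
  have hu : ∀ z, (v + r) (z + l) = (v + r) z := fun z => by simp [hvl, hrl]
  obtain ⟨r1, r2⟩ := d1 hrl
  obtain ⟨u1, u2⟩ := d1 hu
  obtain ⟨u11, u12⟩ := d1 u1
  obtain ⟨-, u22⟩ := d1 u2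
  simp [om₁, om₂, s₁₁, s₁₂, s₂₂, bet, root, kap, gsq, w₁, w₂, r1, r2, u1, u2, u11, u12, u22, hrl]

theorem ang_shift (z : ℝ × ℝ) : ang v r ε (z + l) = ang v r ε z + ang v r ε l := by
  have hd : ∀ w, HasFDerivAt (fun w => ang v r ε (w + l) - ang v r ε w)
      (0 : ℝ × ℝ →L[ℝ] ℝ) w := by
    intro w
    have h1 := (hasFDerivAt_ang hv hr hpos hsol (w + l)).comp w
      ((hasFDerivAt_id w).add_const l)
    have h2 := h1.sub (hasFDerivAt_ang hv hr hpos hsol w)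
    refine h2.congr_fderiv ?_
    ext <;> simp [form, (periodic_data hv hr hpos hsol hvl hrl w).1,
      (periodic_data hv hr hpos hsol hvl hrl w).2.1]
  have := is_const_of_fderiv_eq_zero (fun w => (hd w).differentiableAt) (fun w => (hd w).fderiv) z 0
  rw [zero_add, show ang v r ε 0 = 0 from prim_zero _ _] at this
  linarith

theorem dev_shift (z : ℝ × ℝ) :
    dev v r ε (z + l) = (Real.cos (ang v r ε l) * (dev v r ε z).1
        - Real.sin (ang v r ε l) * (dev v r ε z).2,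
      Real.sin (ang v r ε l) * (dev v r ε z).1 + Real.cos (ang v r ε l) * (dev v r ε z).2)
      + dev v r ε l := by
  set c := Real.cos (ang v r ε l) with hc
  set n := Real.sin (ang v r ε l) with hn
  set f : ℝ × ℝ → ℝ × ℝ := fun w => dev v r ε (w + l)
    - (c * (dev v r ε w).1 - n * (dev v r ε w).2, n * (dev v r ε w).1 + c * (dev v r ε w).2)
  have hd : ∀ w, HasFDerivAt f (0 : ℝ × ℝ →L[ℝ] ℝ × ℝ) w := by
    intro w
    have h1 := (hasFDerivAt_dev hv hr hpos hsol (w + l)).comp w ((hasFDerivAt_id w).add_const l)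
    have hZ := hasFDerivAt_dev hv hr hpos hsol w
    have hp := hZ.fst
    have hq := hZ.snd
    have h2 := h1.sub (((hp.const_mul c).sub (hq.const_mul n)).prodMk
      ((hp.const_mul n).add (hq.const_mul c)))
    refine h2.congr_fderiv ?_
    obtain ⟨-, -, p1, p2, p3⟩ := periodic_data hv hr hpos hsol hvl hrl w
    apply ContinuousLinearMap.ext
    intro u
    simp only [sub_apply, add_apply, smul_apply, zero_apply, ContinuousLinearMap.prod_apply,
      ContinuousLinearMap.comp_apply, ContinuousLinearMap.id_apply, form_apply,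
      ContinuousLinearMap.coe_fst', ContinuousLinearMap.coe_snd', smul_eq_mul, Prod.mk_sub_mk,
      Prod.mk_eq_zero]
    simp only [e₁₁, e₁₂, e₂₁, e₂₂, p1, p2, p3, ang_shift hv hr hpos hsol hvl hrl w, Real.cos_add,
      Real.sin_add, ← hc, ← hn]
    constructor <;> ring
  have h := is_const_of_fderiv_eq_zero (fun w => (hd w).differentiableAt) (fun w => (hd w).fderiv) z 0
  have h0 : dev v r ε 0 = 0 := Prod.ext (prim_zero _ _) (prim_zero _ _)
  simp only [f, zero_add, h0, Prod.fst_zero, Prod.snd_zero, mul_zero, sub_zero, add_zero] at h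
  rw [sub_eq_iff_eq_add'] at h
  simpa [Prod.mk_zero_zero] using h

end

/-- A rotation part would make the translations dependent. -/
theorem no_rotation {μ₁ μ₂ : ℝ} {X Y : ℝ × ℝ} (h1 : |μ₁| < Real.pi) (h2 : |μ₂| < Real.pi)
    (hdet : (-Real.sin (μ₂ / 2) * X.1 - Real.cos (μ₂ / 2) * X.2)
        * (Real.cos (μ₁ / 2) * Y.1 - Real.sin (μ₁ / 2) * Y.2)
      - (Real.cos (μ₂ / 2) * X.1 - Real.sin (μ₂ / 2) * X.2)
        * (-Real.sin (μ₁ / 2) * Y.1 - Real.cos (μ₁ / 2) * Y.2) ≠ 0)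
    (heq : (Real.cos μ₁ * Y.1 - Real.sin μ₁ * Y.2, Real.sin μ₁ * Y.1 + Real.cos μ₁ * Y.2) + X
      = (Real.cos μ₂ * X.1 - Real.sin μ₂ * X.2, Real.sin μ₂ * X.1 + Real.cos μ₂ * X.2) + Y) :
    μ₁ = 0 ∧ μ₂ = 0 := by
  have dbl : ∀ μ : ℝ, Real.sin μ = 2 * Real.sin (μ / 2) * Real.cos (μ / 2) ∧
      Real.cos μ = 1 - 2 * Real.sin (μ / 2) ^ 2 := fun μ => by
    have hs := Real.sin_two_mul (μ / 2)
    have hc := Real.cos_two_mul' (μ / 2)
    rw [show 2 * (μ / 2) = μ by ring] at hs hc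
    exact ⟨hs, by linarith [Real.cos_sq_add_sin_sq (μ / 2)]⟩
  simp only [Prod.ext_iff, Prod.fst_add, Prod.snd_add, (dbl μ₁).1, (dbl μ₁).2, (dbl μ₂).1,
    (dbl μ₂).2] at heq
  obtain ⟨ea, eb⟩ := heq
  set s := Real.sin (μ₁ / 2)
  set c := Real.cos (μ₁ / 2)
  set s' := Real.sin (μ₂ / 2)
  set c' := Real.cos (μ₂ / 2)
  have t1 : 2 * s' * ((-s' * X.1 - c' * X.2) * (c * Y.1 - s * Y.2)
      - (c' * X.1 - s' * X.2) * (-s * Y.1 - c * Y.2)) = 0 := by
    linear_combination -(c * Y.1 - s * Y.2) * ea + (-s * Y.1 - c * Y.2) * eb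
  have t2 : 2 * s * ((-s' * X.1 - c' * X.2) * (c * Y.1 - s * Y.2)
      - (c' * X.1 - s' * X.2) * (-s * Y.1 - c * Y.2)) = 0 := by
    linear_combination -(c' * X.1 - s' * X.2) * ea + (-s' * X.1 - c' * X.2) * eb
  have z2 : s' = 0 := by
    rcases mul_eq_zero.1 t1 with h | h
    · linarith
    · exact absurd h hdet
  have z1 : s = 0 := by
    rcases mul_eq_zero.1 t2 with h | h
    · linarith
    · exact absurd h hdet
  rw [abs_lt] at h1 h2
  have hp := Real.pi_pos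
  constructor
  · have := (Real.sin_eq_zero_iff_of_lt_of_lt (by linarith) (by linarith)).1 z1
    linarith
  · have := (Real.sin_eq_zero_iff_of_lt_of_lt (by linarith) (by linarith)).1 z2
    linarith

/-- The data of `DevelopStmt`. -/
structure Family (l₁ l₂ : ℝ × ℝ) (v : ℝ × ℝ → ℝ) (ε₀ : ℝ) (r : ℝ → ℝ × ℝ → ℝ) : Prop where
  hv : ContDiff ℝ (⊤ : ℕ∞) v
  hvp : Periodic2 v l₁ l₂
  hr : ∀ ε ∈ Set.Icc 0 ε₀, ContDiff ℝ (⊤ : ℕ∞) (r ε) ∧ Periodic2 (r ε) l₁ l₂ ∧ Solves v (r ε) ε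
  c0 : ContinuousOn (fun p : ℝ × ℝ × ℝ => r p.1 p.2) (Set.Icc 0 ε₀ ×ˢ Set.univ)
  c1 : ContinuousOn (fun p : ℝ × ℝ × ℝ => fderiv ℝ (r p.1) p.2) (Set.Icc 0 ε₀ ×ˢ Set.univ)
  c2 : ContinuousOn (fun p : ℝ × ℝ × ℝ => fderiv ℝ (fderiv ℝ (r p.1)) p.2)
    (Set.Icc 0 ε₀ ×ˢ Set.univ)

/-- For small parameters the metric is positive. -/
theorem Family.small {l₁ l₂ : ℝ × ℝ} {ε₀ : ℝ} {r : ℝ → ℝ × ℝ → ℝ} {v : ℝ × ℝ → ℝ}
    (h : Family l₁ l₂ v ε₀ r) (hl : l₁.1 * l₂.2 - l₁.2 * l₂.1 ≠ 0) (hε₀ : 0 < ε₀) :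
    ∃ ε₂ : ℝ, 0 < ε₂ ∧ ε₂ ≤ ε₀ ∧
      ∀ ε ∈ Set.Icc 0 ε₂, ∀ z, kap (r ε) ε z * gsq v (r ε) z < 1 := by
  obtain ⟨hv, hvp, hr, c0, c1, c2⟩ := h
  have hdu : ∀ ε ∈ Set.Icc 0 ε₀, ∀ z, dx (v + r ε) z = dx v z + dx (r ε) z ∧
      dy (v + r ε) z = dy v z + dy (r ε) z := fun ε hε z =>
    ⟨dx_add (hv.differentiable (by simp)) ((hr ε hε).1.differentiable (by simp)),
      dy_add (hv.differentiable (by simp)) ((hr ε hε).1.differentiable (by simp))⟩
  have hsq : ContinuousOn (fun p : ℝ × ℝ × ℝ => Real.exp (2 * r p.1 p.2) * gsq v (r p.1) p.2)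
      (Set.Icc 0 ε₀ ×ˢ Set.univ) := by
    have a : ContinuousOn (fun p : ℝ × ℝ × ℝ => Real.exp (2 * r p.1 p.2) *
        ((dx v p.2 + fderiv ℝ (r p.1) p.2 (1, 0)) ^ 2
          + (dy v p.2 + fderiv ℝ (r p.1) p.2 (0, 1)) ^ 2)) (Set.Icc 0 ε₀ ×ˢ Set.univ) :=
      ((continuousOn_const.mul c0).rexp).mul
        (((((contDiff_dx hv).continuous.comp continuous_snd).continuousOn.add
          (c1.clm_apply continuousOn_const)).pow 2).add
        ((((contDiff_dy hv).continuous.comp continuous_snd).continuousOn.add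
          (c1.clm_apply continuousOn_const)).pow 2))
    refine a.congr fun p hp => ?_
    simp only [gsq, (hdu p.1 hp.1 p.2).1, (hdu p.1 hp.1 p.2).2]
    rfl
  have hsqp : ∀ ε ∈ Set.Icc 0 ε₀,
      Periodic2 (fun z => Real.exp (2 * r ε z) * gsq v (r ε) z) l₁ l₂ := by
    intro ε hε z
    have hu1 : ∀ w, (v + r ε) (w + l₁) = (v + r ε) w := fun w => by
      simp [(hvp w).1, ((hr ε hε).2.1 w).1]
    have hu2 : ∀ w, (v + r ε) (w + l₂) = (v + r ε) w := fun w => by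
      simp [(hvp w).2, ((hr ε hε).2.1 w).2]
    simp [gsq, dx, dy, periodic_fderiv hu1, periodic_fderiv hu2, ((hr ε hε).2.1 z).1,
      ((hr ε hε).2.1 z).2]
  obtain ⟨C, hC⟩ := periodic_bound hl hsq hsqp
  refine ⟨min ε₀ (1 / (|C| + 1)), lt_min hε₀ (by positivity), min_le_left _ _, fun ε hε z => ?_⟩
  have h1 : ε ≤ 1 / (|C| + 1) := hε.2.trans (min_le_right _ _)
  have h2 := (le_abs_self _).trans ((hC ε ⟨hε.1, hε.2.trans (min_le_left _ _)⟩ z).trans (le_abs_self C))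
  rw [le_div_iff₀ (by positivity)] at h1
  have h3 := mul_le_mul_of_nonneg_left h2 hε.1
  rw [kap, mul_assoc]
  rcases hε.1.eq_or_lt with h0 | h0
  · rw [← h0, zero_mul]; exact one_pos
  · linarith

/-- The angle and the developing map are continuous in the parameter. -/
theorem Family.continuous_dev {l₁ l₂ : ℝ × ℝ} {ε₀ ε₂ : ℝ} {r : ℝ → ℝ × ℝ → ℝ} {v : ℝ × ℝ → ℝ}
    (h : Family l₁ l₂ v ε₀ r) (hε₂0 : ε₂ ≤ ε₀)
    (hsmall : ∀ ε ∈ Set.Icc 0 ε₂, ∀ z, kap (r ε) ε z * gsq v (r ε) z < 1) :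
    (Continuous fun p : Set.Icc (0 : ℝ) ε₂ × (ℝ × ℝ) => ang v (r p.1) p.1 p.2) ∧
      Continuous fun p : Set.Icc (0 : ℝ) ε₂ × (ℝ × ℝ) => dev v (r p.1) p.1 p.2 := by
  obtain ⟨hv, hvp, hr, c0, c1, c2⟩ := h
  let I := Set.Icc (0 : ℝ) ε₂
  have memI : ∀ ε : I, (ε : ℝ) ∈ Set.Icc 0 ε₀ := fun ε => ⟨ε.2.1, ε.2.2.trans hε₂0⟩
  have jc : ∀ {G : Type} [TopologicalSpace G] {H : ℝ × ℝ × ℝ → G},
      ContinuousOn H (Set.Icc 0 ε₀ ×ˢ Set.univ) →
      Continuous fun p : I × (ℝ × ℝ) => H ((p.1 : ℝ), p.2) := by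
    intro G _ H hH
    exact hH.comp_continuous ((continuous_subtype_val.comp continuous_fst).prodMk continuous_snd)
      fun p => ⟨memI p.1, trivial⟩
  have kr := jc c0
  have kd : ∀ e : ℝ × ℝ, Continuous fun p : I × (ℝ × ℝ) => fderiv ℝ (r p.1) p.2 e := fun e =>
    (jc c1).clm_apply continuous_const
  have kdd : ∀ e e' : ℝ × ℝ, Continuous fun p : I × (ℝ × ℝ) =>
      fderiv ℝ (fun x => fderiv ℝ (r p.1) x e) p.2 e' := by
    intro e e'
    refine (((jc c2).clm_apply (continuous_const (y := e'))).clm_apply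
      (continuous_const (y := e))).congr fun p => ?_
    have hd : DifferentiableAt ℝ (fderiv ℝ (r p.1)) p.2 :=
      (((hr p.1 (memI p.1)).1.fderiv_right (m := (⊤ : ℕ∞)) (by norm_cast)).differentiable
        (by simp)) p.2
    rw [fderiv_clm_apply hd (differentiableAt_const e)]
    simp
  have ku : ∀ e : ℝ × ℝ, Continuous fun p : I × (ℝ × ℝ) => fderiv ℝ (v + r p.1) p.2 e := by
    intro e
    refine ((((hv.fderiv_right (m := (⊤ : ℕ∞)) (by norm_cast)).continuous.comp continuous_snd).clm_apply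
      (continuous_const (y := e))).add (kd e)).congr fun p => ?_
    rw [fderiv_add ((hv.differentiable (by simp)) _)
      (((hr p.1 (memI p.1)).1.differentiable (by simp)) _)]
    rfl
  have kuu : ∀ e e' : ℝ × ℝ, Continuous fun p : I × (ℝ × ℝ) =>
      fderiv ℝ (fun x => fderiv ℝ (v + r p.1) x e) p.2 e' := by
    intro e e'
    have hve : ContDiff ℝ (⊤ : ℕ∞) fun x => fderiv ℝ v x e :=
      (hv.fderiv_right (by norm_cast)).clm_apply contDiff_const
    refine ((((hve.fderiv_right (m := (⊤ : ℕ∞)) (by norm_cast)).continuous.comp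
      continuous_snd).clm_apply (continuous_const (y := e'))).add (kdd e e')).congr fun p => ?_
    have hr' := (hr p.1 (memI p.1)).1
    have hre : ContDiff ℝ (⊤ : ℕ∞) fun x => fderiv ℝ (r p.1) x e :=
      (hr'.fderiv_right (by norm_cast)).clm_apply contDiff_const
    have e1 : (fun x => fderiv ℝ (v + r p.1) x e)
        = (fun x => fderiv ℝ v x e) + fun x => fderiv ℝ (r p.1) x e := by
      funext x
      rw [fderiv_add ((hv.differentiable (by simp)) _) ((hr'.differentiable (by simp)) _)]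
      rfl
    rw [e1, fderiv_add ((hve.differentiable (by simp)) _) ((hre.differentiable (by simp)) _)]
    rfl
  have hp : ∀ ε : I, ∀ z, kap (r ε) ε z * gsq v (r ε) z < 1 := fun ε => hsmall ε ε.2
  have kk : Continuous fun p : I × (ℝ × ℝ) => kap (r p.1) p.1 p.2 :=
    (continuous_subtype_val.comp continuous_fst).mul (continuous_const.mul kr).rexp
  have ks : Continuous fun p : I × (ℝ × ℝ) => root v (r p.1) p.1 p.2 :=
    (continuous_const.sub (kk.mul (((ku (1, 0)).pow 2).add ((ku (0, 1)).pow 2)))).sqrt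
  have kb : Continuous fun p : I × (ℝ × ℝ) => bet v (r p.1) p.1 p.2 :=
    kk.div (continuous_const.add ks) fun p => by linarith [root_pos (hp p.1) p.2]
  have ks0 : ∀ p : I × (ℝ × ℝ), root v (r p.1) p.1 p.2 ≠ 0 := fun p => (root_pos (hp p.1) p.2).ne'
  have ko1 : Continuous fun p : I × (ℝ × ℝ) => om₁ v (r p.1) p.1 p.2 :=
    ((kd (0, 1)).add (kb.mul (((kuu (1, 0) (0, 1)).mul (ku (1, 0))).sub
      ((kuu (1, 0) (1, 0)).mul (ku (0, 1)))))).div ks ks0
  have ko2 : Continuous fun p : I × (ℝ × ℝ) => om₂ v (r p.1) p.1 p.2 :=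
    ((kd (1, 0)).neg.add (kb.mul (((kuu (0, 1) (0, 1)).mul (ku (1, 0))).sub
      ((kuu (1, 0) (0, 1)).mul (ku (0, 1)))))).div ks ks0
  have ka : Continuous fun p : I × (ℝ × ℝ) => ang v (r p.1) p.1 p.2 :=
    continuous_prim (P := fun ε : I => om₁ v (r ε) ε) (Q := fun ε : I => om₂ v (r ε) ε) ko1 ko2
  have ke : Continuous fun p : I × (ℝ × ℝ) => Real.exp (-r p.1 p.2) := kr.neg.rexp
  have kA : Continuous fun p : I × (ℝ × ℝ) => s₁₁ v (r p.1) p.1 p.2 :=
    ke.mul (continuous_const.sub (kb.mul ((ku (1, 0)).pow 2)))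
  have kB : Continuous fun p : I × (ℝ × ℝ) => s₁₂ v (r p.1) p.1 p.2 :=
    ke.mul ((kb.mul (ku (1, 0))).mul (ku (0, 1))).neg
  have kC : Continuous fun p : I × (ℝ × ℝ) => s₂₂ v (r p.1) p.1 p.2 :=
    ke.mul (continuous_const.sub (kb.mul ((ku (0, 1)).pow 2)))
  have kdev : Continuous fun p : I × (ℝ × ℝ) => dev v (r p.1) p.1 p.2 :=
    (continuous_prim (P := fun ε : I => e₁₁ v (r ε) ε) (Q := fun ε : I => e₁₂ v (r ε) ε)
        (((Real.continuous_cos.comp ka).mul kA).sub ((Real.continuous_sin.comp ka).mul kB))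
        (((Real.continuous_cos.comp ka).mul kB).sub ((Real.continuous_sin.comp ka).mul kC))).prodMk
      (continuous_prim (P := fun ε : I => e₂₁ v (r ε) ε) (Q := fun ε : I => e₂₂ v (r ε) ε)
        (((Real.continuous_sin.comp ka).mul kA).add ((Real.continuous_cos.comp ka).mul kB))
        (((Real.continuous_sin.comp ka).mul kB).add ((Real.continuous_cos.comp ka).mul kC)))
  exact ⟨ka, kdev⟩

theorem ang_zero (v : ℝ × ℝ → ℝ) (z : ℝ × ℝ) : ang v (fun _ => 0) 0 z = 0 := by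
  simp [ang, prim, om₁, om₂, bet, kap, dx, dy]

theorem dev_zero (v : ℝ × ℝ → ℝ) (z : ℝ × ℝ) : dev v (fun _ => 0) 0 z = z := by
  simp [dev, prim, e₁₁, e₁₂, e₂₁, e₂₂, ang_zero, s₁₁, s₁₂, s₂₂, bet, kap]

theorem continuousOn_slice {X G : Type*} [TopologicalSpace X] [TopologicalSpace G] {S : Set ℝ}
    {g : ℝ → X → G} (h : Continuous fun p : S × X => g p.1 p.2) (x : X) :
    ContinuousOn (fun ε => g ε x) S :=
  continuousOn_iff_continuous_domRestrict.2 (h.comp (continuous_id.prodMk continuous_const))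

open Filter Topology in
/-- The developing map exists. -/
theorem develop : DevelopStmt := by
  intro l₁ l₂ hl v hv hvp ε₀ hε₀ r hr0 hr c0 c1 c2
  have hF : Family l₁ l₂ v ε₀ r := ⟨hv, hvp, hr, c0, c1, c2⟩
  obtain ⟨ε₂, hε₂, hε₂0, hsmall⟩ := hF.small hl.ne' hε₀
  obtain ⟨ka, kdev⟩ := hF.continuous_dev hε₂0 hsmall
  let I := Set.Icc (0 : ℝ) ε₂
  have memI : ∀ ε : I, (ε : ℝ) ∈ Set.Icc 0 ε₀ := fun ε => ⟨ε.2.1, ε.2.2.trans hε₂0⟩
  have hp : ∀ ε : I, ∀ z, kap (r ε) ε z * gsq v (r ε) z < 1 := fun ε => hsmall ε ε.2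
  have hr00 : r 0 = fun _ => 0 := funext hr0
  -- the threshold
  let μ : ℝ × ℝ → ℝ → ℝ := fun l ε => ang v (r ε) ε l
  let D : ℝ × ℝ → ℝ → ℝ × ℝ := fun l ε => dev v (r ε) ε l
  have contμ : ∀ l, ContinuousOn (μ l) I :=
    fun l => continuousOn_slice (g := fun ε z => ang v (r ε) ε z) ka l
  have contD : ∀ l, ContinuousOn (D l) I :=
    fun l => continuousOn_slice (g := fun ε z => dev v (r ε) ε z) kdev l
  let det : ℝ → ℝ := fun ε =>
    (-Real.sin (μ l₂ ε / 2) * (D l₁ ε).1 - Real.cos (μ l₂ ε / 2) * (D l₁ ε).2)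
        * (Real.cos (μ l₁ ε / 2) * (D l₂ ε).1 - Real.sin (μ l₁ ε / 2) * (D l₂ ε).2)
      - (Real.cos (μ l₂ ε / 2) * (D l₁ ε).1 - Real.sin (μ l₂ ε / 2) * (D l₁ ε).2)
        * (-Real.sin (μ l₁ ε / 2) * (D l₂ ε).1 - Real.cos (μ l₁ ε / 2) * (D l₂ ε).2)
  have contdet : ContinuousOn det I := by
    have a := ((contμ l₂).div_const 2)
    have b := ((contμ l₁).div_const 2)
    exact ((((Real.continuous_sin.comp_continuousOn a).neg.mul (contD l₁).fst).sub ((Real.continuous_cos.comp_continuousOn a).mul (contD l₁).snd)).mul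
        (((Real.continuous_cos.comp_continuousOn b).mul (contD l₂).fst).sub ((Real.continuous_sin.comp_continuousOn b).mul (contD l₂).snd))).sub
      ((((Real.continuous_cos.comp_continuousOn a).mul (contD l₁).fst).sub ((Real.continuous_sin.comp_continuousOn a).mul (contD l₁).snd)).mul
        (((Real.continuous_sin.comp_continuousOn b).neg.mul (contD l₂).fst).sub ((Real.continuous_cos.comp_continuousOn b).mul (contD l₂).snd)))
  have h0I : (0 : ℝ) ∈ I := ⟨le_rfl, hε₂.le⟩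
  have μ0 : ∀ l, μ l 0 = 0 := fun l => by simp only [μ, hr00, ang_zero]
  have D0 : ∀ l, D l 0 = l := fun l => by simp only [D, hr00, dev_zero]
  have det0 : det 0 = l₁.1 * l₂.2 - l₁.2 * l₂.1 := by
    simp only [det, μ0, D0, zero_div, Real.sin_zero, Real.cos_zero]; ring
  have ev : ∀ᶠ ε in 𝓝[I] (0 : ℝ), |μ l₁ ε| < Real.pi ∧ |μ l₂ ε| < Real.pi ∧ det ε ≠ 0 := by
    refine ((contμ l₁).abs 0 h0I).eventually_lt_const ?_ |>.and
      ((((contμ l₂).abs 0 h0I).eventually_lt_const ?_).and ((contdet 0 h0I).eventually_ne ?_))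
    · simp [μ0, Real.pi_pos]
    · simp [μ0, Real.pi_pos]
    · rw [det0]; exact hl.ne'
  obtain ⟨δ, hδ, hball⟩ := Metric.mem_nhdsWithin_iff.1 ev
  refine ⟨min ε₂ (δ / 2), lt_min hε₂ (by linarith), (min_le_left _ _).trans hε₂0, D l₁, D l₂,
    (contD l₁).mono ?_, (contD l₂).mono ?_, D0 l₁, D0 l₂, fun ε hε => ?_⟩
  · exact Set.Icc_subset_Icc le_rfl (min_le_left _ _)
  · exact Set.Icc_subset_Icc le_rfl (min_le_left _ _)
  have hεI : ε ∈ I := ⟨hε.1, hε.2.trans (min_le_left _ _)⟩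
  have hin : ε ∈ Metric.ball (0 : ℝ) δ := by
    rw [Metric.mem_ball, Real.dist_eq, sub_zero, abs_of_nonneg hε.1]
    linarith [hε.2, min_le_right ε₂ (δ / 2)]
  obtain ⟨m1, m2, hdet⟩ := hball ⟨hin, hεI⟩
  obtain ⟨hrs, hrp, hsol⟩ := hr ε (memI ⟨ε, hεI⟩)
  have hp' := hp ⟨ε, hεI⟩
  have s1 := dev_shift hv hrs hp' hsol (fun z => (hvp z).1) (fun z => (hrp z).1)
  have s2 := dev_shift hv hrs hp' hsol (fun z => (hvp z).2) (fun z => (hrp z).2)
  have heq : dev v (r ε) ε (l₂ + l₁) = dev v (r ε) ε (l₁ + l₂) := by rw [add_comm]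
  rw [s1 l₂, s2 l₁] at heq
  obtain ⟨e1, e2⟩ := no_rotation m1 m2 hdet heq
  refine ⟨dev v (r ε) ε, contDiff_dev hv hrs hp' hsol, fun z => ⟨?_, ?_⟩,
    dev_pullback hv hrs hp' hsol⟩
  · rw [s1 z, show ang v (r ε) ε l₁ = 0 from e1]; simp [D]
  · rw [s2 z, show ang v (r ε) ε l₂ = 0 from e2]; simp [D]

end P205.Tori
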