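import Mathlib

/-!
P205, tori: the two means that decide the periods of the flat tori in the sphere cover a fixed square.

With `u = c + e sin θ` the difference of the means is strictly monotone in `c`, and their sum passes
from `2 + O(t²)` at `e = 0` to at least `2 + e²`.
-/

namespace P205.Tori.Hopf

open Real

/-- Truncation, so that all integrands are continuous everywhere. -/
noncomputable def clip (x : ℝ) : ℝ := max (-(7/10)) (min (7/10) x)

/-- Twice the offset of the profile from `π/4`. -/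
noncomputable def ang (c e θ : ℝ) : ℝ := clip (2 * (c + e * sin θ))

/-- The length factor. -/
noncomputable def dfac (h e θ : ℝ) : ℝ := √(1 - (h * e * cos θ) ^ 2)

/-- The slope of the first phase. -/
noncomputable def gp (h c e θ : ℝ) : ℝ := dfac h e θ * (1 + sin (ang c e θ)) / cos (ang c e θ)

/-- The negated slope of the second phase. -/
noncomputable def gm (h c e θ : ℝ) : ℝ := dfac h e θ * (1 - sin (ang c e θ)) / cos (ang c e θ)

theorem clip_bound (x : ℝ) : |clip x| ≤ 7/10 := by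
  rw [abs_le, clip]
  exact ⟨le_max_left _ _, max_le (by norm_num) (min_le_left _ _)⟩

theorem clip_eq {x : ℝ} (h : |x| ≤ 7/10) : clip x = x := by
  rw [abs_le] at h
  rw [clip, min_eq_right h.2, max_eq_right h.1]

theorem ang_eq {c e : ℝ} (hc : |c| ≤ 1/5) (he : |e| ≤ 1/10) (θ : ℝ) :
    ang c e θ = 2 * (c + e * sin θ) := by
  refine clip_eq ?_
  have h1 : |e * sin θ| ≤ 1/10 := by
    rw [abs_mul]
    exact (mul_le_mul he (abs_sin_le_one θ) (abs_nonneg _) (by norm_num)).trans (by norm_num)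
  rw [abs_le] at hc h1 ⊢
  constructor <;> linarith

theorem cos_ang_pos (c e θ : ℝ) : 0 < cos (ang c e θ) := by
  have h := abs_le.1 (clip_bound (2 * (c + e * sin θ)))
  have := pi_gt_three
  exact cos_pos_of_mem_Ioo ⟨by rw [ang]; linarith, by rw [ang]; linarith⟩

theorem continuous_clip : Continuous clip := by unfold clip; fun_prop

theorem continuous_ang : Continuous fun p : (ℝ × ℝ) × ℝ => ang p.1.1 p.1.2 p.2 :=
  continuous_clip.comp (by fun_prop)

theorem continuous_gp (h : ℝ) : Continuous fun p : (ℝ × ℝ) × ℝ => gp h p.1.1 p.1.2 p.2 := by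
  have := continuous_ang
  unfold gp dfac
  exact Continuous.div (by fun_prop) (by fun_prop) fun p => (cos_ang_pos _ _ _).ne'

theorem continuous_gm (h : ℝ) : Continuous fun p : (ℝ × ℝ) × ℝ => gm h p.1.1 p.1.2 p.2 := by
  have := continuous_ang
  unfold gm dfac
  exact Continuous.div (by fun_prop) (by fun_prop) fun p => (cos_ang_pos _ _ _).ne'

theorem continuous_gp₁ (h c e : ℝ) : Continuous (gp h c e) :=
  (continuous_gp h).comp ((continuous_const (y := (c, e))).prodMk continuous_id)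

theorem continuous_gm₁ (h c e : ℝ) : Continuous (gm h c e) :=
  (continuous_gm h).comp ((continuous_const (y := (c, e))).prodMk continuous_id)

theorem gp_sub_gm (h c e θ : ℝ) : gp h c e θ - gm h c e θ = 2 * (dfac h e θ * tan (ang c e θ)) := by
  rw [gp, gm, tan_eq_sin_div_cos]; ring

theorem gp_add_gm (h c e θ : ℝ) : gp h c e θ + gm h c e θ = 2 * dfac h e θ / cos (ang c e θ) := by
  rw [gp, gm]; ring

theorem dfac_ge {h e : ℝ} (hh0 : 0 ≤ h) (hh : h ≤ 1/4) (he : |e| ≤ 1/10) (θ : ℝ) :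
    1 - e ^ 2 / 16 ≤ dfac h e θ := by
  have he2 : e ^ 2 ≤ 1/100 := by
    have := mul_self_le_mul_self (abs_nonneg e) he
    rw [← sq, sq_abs] at this
    linarith
  have h1 : (h * e * cos θ) ^ 2 ≤ e ^ 2 / 16 := by
    have hc : cos θ ^ 2 ≤ 1 := cos_sq_le_one θ
    have hh2 : h ^ 2 ≤ 1/16 := by nlinarith
    calc (h * e * cos θ) ^ 2 = h ^ 2 * cos θ ^ 2 * e ^ 2 := by ring
      _ ≤ 1/16 * 1 * e ^ 2 := by gcongr
      _ = e ^ 2 / 16 := by ring
  refine le_sqrt_of_sq_le ?_
  nlinarith [sq_nonneg e]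

theorem sec_ge {a : ℝ} (h : 0 < cos a) : 2 + a ^ 2 ≤ 2 / cos a ∨ 7/10 < |a| := by
  by_cases ha : |a| ≤ 7/10
  · left
    rw [le_div_iff₀ h]
    have h2 : a ^ 2 ≤ 49/100 := by
      have := mul_self_le_mul_self (abs_nonneg a) ha
      rw [← sq, sq_abs] at this
      linarith
    have hcb := cos_bound (show |a| ≤ 1 by linarith)
    rw [abs_le, show |a| ^ 4 = (a ^ 2) ^ 2 by rw [← pow_mul, ← abs_pow, abs_of_nonneg (by positivity)]]
      at hcb
    nlinarith [hcb.2, sq_nonneg a]
  · exact Or.inr (not_le.1 ha)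

/-- The first mean. -/
noncomputable def Ip (h c e : ℝ) : ℝ := (∫ θ in (0:ℝ)..2 * π, gp h c e θ) / (2 * π)

/-- The second mean. -/
noncomputable def Im (h c e : ℝ) : ℝ := (∫ θ in (0:ℝ)..2 * π, gm h c e θ) / (2 * π)

theorem continuous_Ip (h : ℝ) : Continuous fun p : ℝ × ℝ => Ip h p.1 p.2 :=
  (intervalIntegral.continuous_parametric_intervalIntegral_of_continuous'
    (continuous_gp h) 0 (2 * π)).div_const _

theorem continuous_Im (h : ℝ) : Continuous fun p : ℝ × ℝ => Im h p.1 p.2 :=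
  (intervalIntegral.continuous_parametric_intervalIntegral_of_continuous'
    (continuous_gm h) 0 (2 * π)).div_const _

theorem diff_eq (h c e : ℝ) :
    Ip h c e - Im h c e = (∫ θ in (0:ℝ)..2 * π, (gp h c e θ - gm h c e θ)) / (2 * π) := by
  rw [intervalIntegral.integral_sub ((continuous_gp₁ h c e).intervalIntegrable _ _)
    ((continuous_gm₁ h c e).intervalIntegrable _ _), sub_div]
  rfl

theorem sum_eq (h c e : ℝ) :
    Ip h c e + Im h c e = (∫ θ in (0:ℝ)..2 * π, (gp h c e θ + gm h c e θ)) / (2 * π) := by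
  rw [intervalIntegral.integral_add ((continuous_gp₁ h c e).intervalIntegrable _ _)
    ((continuous_gm₁ h c e).intervalIntegrable _ _), add_div]
  rfl

theorem diff_lt {h e c c' : ℝ} (hh0 : 0 ≤ h) (hh : h ≤ 1/4) (he : |e| ≤ 1/10) (hc : |c| ≤ 1/5)
    (hc' : |c'| ≤ 1/5) (hlt : c < c') : Ip h c e - Im h c e < Ip h c' e - Im h c' e := by
  have key : ∀ θ, gp h c e θ - gm h c e θ < gp h c' e θ - gm h c' e θ := by
    intro θ
    have hd : 0 < dfac h e θ := lt_of_lt_of_le (by nlinarith [sq_abs e, abs_nonneg e])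
      (dfac_ge hh0 hh he θ)
    have b1 := abs_le.1 (clip_bound (2 * (c + e * sin θ)))
    have b2 := abs_le.1 (clip_bound (2 * (c' + e * sin θ)))
    rw [gp_sub_gm, gp_sub_gm]
    refine mul_lt_mul_of_pos_left (mul_lt_mul_of_pos_left ?_ hd) two_pos
    refine tan_lt_tan_of_lt_of_lt_pi_div_two ?_ ?_ ?_
    · rw [ang]; linarith [pi_gt_three, b1.1]
    · rw [ang]; linarith [pi_gt_three, b2.2]
    · rw [ang_eq hc he, ang_eq hc' he]; linarith
  rw [diff_eq, diff_eq]
  refine div_lt_div_of_pos_right ?_ (by positivity)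
  exact intervalIntegral.integral_lt_integral_of_continuousOn_of_le_of_exists_lt (by positivity)
    ((continuous_gp₁ h c e).sub (continuous_gm₁ h c e)).continuousOn
    ((continuous_gp₁ h c' e).sub (continuous_gm₁ h c' e)).continuousOn
    (fun θ _ => (key θ).le) ⟨0, ⟨le_rfl, by positivity⟩, key 0⟩

theorem diff_ends {h e : ℝ} (hh0 : 0 ≤ h) (hh : h ≤ 1/4) (he0 : 0 ≤ e) (he : e ≤ 1/10) :
    Ip h (-(1/5)) e - Im h (-(1/5)) e ≤ -(1/10) ∧ 1/10 ≤ Ip h (1/5) e - Im h (1/5) e := by
  have he' : |e| ≤ 1/10 := by rwa [abs_of_nonneg he0]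
  have hd : ∀ θ, 1/2 ≤ dfac h e θ := fun θ =>
    le_trans (by nlinarith) (dfac_ge hh0 hh he' θ)
  have hs : ∀ θ, -(1/10) ≤ e * sin θ ∧ e * sin θ ≤ 1/10 := fun θ =>
    ⟨by nlinarith [neg_one_le_sin θ], by nlinarith [sin_le_one θ]⟩
  constructor
  · rw [diff_eq, div_le_iff₀ (by positivity)]
    refine (intervalIntegral.integral_mono_on (by positivity)
      (((continuous_gp₁ h _ e).sub (continuous_gm₁ h _ e)).intervalIntegrable _ _)
      (intervalIntegrable_const (c := -(1/10 : ℝ))) fun θ _ => ?_).trans (le_of_eq ?_)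
    · obtain ⟨s1, s2⟩ := hs θ
      simp only [Pi.sub_apply]
      rw [gp_sub_gm, ang_eq (by norm_num) he']
      have h2 : tan (2 * (-(1/5) + e * sin θ)) ≤ -(1/5) := by
        have := le_tan (x := -(2 * (-(1/5) + e * sin θ))) (by linarith)
          (by linarith [pi_gt_three])
        rw [tan_neg] at this
        linarith
      nlinarith [hd θ]
    · rw [intervalIntegral.integral_const, smul_eq_mul]; ring
  · rw [diff_eq, le_div_iff₀ (by positivity)]
    refine le_trans (le_of_eq ?_) (intervalIntegral.integral_mono_on (by positivity)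
      (intervalIntegrable_const (c := (1/10 : ℝ)))
      (((continuous_gp₁ h _ e).sub (continuous_gm₁ h _ e)).intervalIntegrable _ _) fun θ _ => ?_)
    · rw [intervalIntegral.integral_const, smul_eq_mul]; ring
    · obtain ⟨s1, s2⟩ := hs θ
      rw [gp_sub_gm, ang_eq (by norm_num) he']
      have h2 : 1/5 ≤ tan (2 * (1/5 + e * sin θ)) :=
        le_trans (by linarith) (le_tan (by linarith) (by linarith [pi_gt_three]))
      nlinarith [hd θ]

theorem sum_ge {h c e : ℝ} (hh0 : 0 ≤ h) (hh : h ≤ 1/4) (hc : |c| ≤ 1/5) (he : |e| ≤ 1/10) :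
    2 + e ^ 2 ≤ Ip h c e + Im h c e := by
  have he2 : e ^ 2 ≤ 1/100 := by nlinarith [sq_abs e, abs_nonneg e]
  set K := 1 - e ^ 2 / 16 with hK
  have h1 : ∀ θ, K * (2 + 4 * c ^ 2 + 8 * c * e * sin θ + 4 * e ^ 2 * sin θ ^ 2)
      ≤ gp h c e θ + gm h c e θ := by
    intro θ
    have hd := dfac_ge hh0 hh he θ
    have hpos := cos_ang_pos c e θ
    rw [gp_add_gm, mul_comm 2 (dfac h e θ), mul_div_assoc]
    rcases sec_ge hpos with h2 | h2
    · refine mul_le_mul hd (le_trans (le_of_eq ?_) h2) ?_ (le_trans (by linarith) hd)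
      · rw [ang_eq hc he]; ring
      · nlinarith [sq_nonneg (c + e * sin θ)]
    · exact absurd (clip_bound _) (not_le.2 h2)
  rw [sum_eq, le_div_iff₀ (by positivity)]
  refine le_trans ?_ (intervalIntegral.integral_mono_on (by positivity) ?_
    (((continuous_gp₁ h c e).add (continuous_gm₁ h c e)).intervalIntegrable _ _) fun θ _ => h1 θ)
  · rw [intervalIntegral.integral_const_mul, intervalIntegral.integral_add
      ((by fun_prop : Continuous fun θ => 2 + 4 * c ^ 2 + 8 * c * e * sin θ).intervalIntegrable _ _)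
      ((by fun_prop : Continuous fun θ => 4 * e ^ 2 * sin θ ^ 2).intervalIntegrable _ _),
      intervalIntegral.integral_add intervalIntegrable_const
        ((by fun_prop : Continuous fun θ => 8 * c * e * sin θ).intervalIntegrable _ _),
      intervalIntegral.integral_const, intervalIntegral.integral_const_mul,
      intervalIntegral.integral_const_mul, integral_sin, integral_sin_sq]
    simp only [sin_zero, sin_two_pi, cos_zero, cos_two_pi, smul_eq_mul]
    have hK0 : 0 ≤ K := by rw [hK]; linarith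
    have key : 2 + e ^ 2 ≤ K * (2 + 4 * c ^ 2 + 2 * e ^ 2) := by
      rw [hK]
      nlinarith [mul_nonneg (sq_nonneg c) hK0, mul_le_mul_of_nonneg_left he2 (sq_nonneg e)]
    nlinarith [mul_le_mul_of_nonneg_right key two_pi_pos.le]
  · exact (by fun_prop : Continuous fun θ =>
      K * (2 + 4 * c ^ 2 + 8 * c * e * sin θ + 4 * e ^ 2 * sin θ ^ 2)).intervalIntegrable _ _

theorem flat_means {h c : ℝ} (hc : |c| ≤ 1/5) :
    Ip h c 0 - Im h c 0 = 2 * tan (2 * c) ∧ Ip h c 0 + Im h c 0 = 2 / cos (2 * c) := by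
  have ha : ∀ θ, ang c 0 θ = 2 * c := fun θ => by rw [ang_eq hc (by norm_num)]; ring
  have hd : ∀ θ, dfac h 0 θ = 1 := fun θ => by simp [dfac]
  constructor
  · rw [diff_eq]
    simp only [gp_sub_gm, ha, hd, intervalIntegral.integral_const, smul_eq_mul]
    field_simp
    ring
  · rw [sum_eq]
    simp only [gp_add_gm, ha, hd, intervalIntegral.integral_const, smul_eq_mul]
    field_simp
    ring

/-- The means take every value in a fixed square. -/
theorem shape_cover {h A B : ℝ} (hh0 : 0 ≤ h) (hh : h ≤ 1/4) (hA : A ∈ Set.Icc (1002/1000 : ℝ) (1004/1000))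
    (hB : B ∈ Set.Icc (1002/1000 : ℝ) (1004/1000)) :
    ∃ c e, |c| ≤ 1/5 ∧ |e| ≤ 1/10 ∧ Ip h c e = A ∧ Im h c e = B := by
  obtain ⟨A1, A2⟩ := hA
  obtain ⟨B1, B2⟩ := hB
  set P : ℝ → ℝ → ℝ := fun c e => Ip h c e - Im h c e with hP
  set Q : ℝ → ℝ → ℝ := fun c e => Ip h c e + Im h c e with hQ
  have hPc : Continuous fun p : ℝ × ℝ => P p.1 p.2 := (continuous_Ip h).sub (continuous_Im h)
  have hQc : Continuous fun p : ℝ × ℝ => Q p.1 p.2 := (continuous_Ip h).add (continuous_Im h)
  have hex : ∀ e ∈ Set.Icc (0:ℝ) (1/10), ∃ c ∈ Set.Icc (-(1/5):ℝ) (1/5), P c e = A - B := by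
    intro e he
    obtain ⟨l1, l2⟩ := diff_ends hh0 hh he.1 he.2
    exact intermediate_value_Icc (by norm_num)
      (hPc.comp (continuous_id.prodMk continuous_const)).continuousOn
      ⟨by simp only [hP, Function.comp_apply, id_eq] at l1 ⊢; linarith,
        by simp only [hP, Function.comp_apply, id_eq] at l2 ⊢; linarith⟩
  choose! γ hγ1 hγ2 using hex
  have habs : ∀ {c : ℝ}, c ∈ Set.Icc (-(1/5):ℝ) (1/5) → |c| ≤ 1/5 := fun hc => abs_le.2 hc
  have heabs : ∀ {e : ℝ}, e ∈ Set.Icc (0:ℝ) (1/10) → |e| ≤ 1/10 := fun he => by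
    rw [abs_of_nonneg he.1]; exact he.2
  have hcont : ContinuousOn γ (Set.Icc 0 (1/10)) := by
    intro e₀ he₀
    refine tendsto_order.2 ⟨fun a ha => ?_, fun a ha => ?_⟩
    · by_cases ha' : a < -(1/5)
      · filter_upwards [self_mem_nhdsWithin] with e he using lt_of_lt_of_le ha' (hγ1 e he).1
      have ham : a ∈ Set.Icc (-(1/5):ℝ) (1/5) := ⟨not_lt.1 ha', ha.le.trans (hγ1 e₀ he₀).2⟩
      have hlt : P a e₀ < A - B := by
        rw [← hγ2 e₀ he₀]
        exact diff_lt hh0 hh (heabs he₀) (habs ham) (habs (hγ1 e₀ he₀)) ha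
      have hev := ((hPc.comp ((continuous_const (y := a)).prodMk continuous_id)).tendsto e₀).mono_left
        (nhdsWithin_le_nhds (s := Set.Icc 0 (1/10))) |>.eventually (eventually_lt_nhds hlt)
      filter_upwards [hev, self_mem_nhdsWithin] with e h1 he
      by_contra hcon
      rcases (not_lt.1 hcon).lt_or_eq with h2 | h2
      · have := diff_lt hh0 hh (heabs he) (habs (hγ1 e he)) (habs ham) h2
        have h3 := hγ2 e he
        simp only [hP, Function.comp_apply, id_eq] at h1 h3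
        linarith
      · have h3 := hγ2 e he
        rw [h2] at h3
        simp only [hP, Function.comp_apply, id_eq] at h1 h3
        linarith
    · by_cases ha' : 1/5 < a
      · filter_upwards [self_mem_nhdsWithin] with e he using lt_of_le_of_lt (hγ1 e he).2 ha'
      have ham : a ∈ Set.Icc (-(1/5):ℝ) (1/5) := ⟨(hγ1 e₀ he₀).1.trans ha.le, not_lt.1 ha'⟩
      have hlt : A - B < P a e₀ := by
        rw [← hγ2 e₀ he₀]
        exact diff_lt hh0 hh (heabs he₀) (habs (hγ1 e₀ he₀)) (habs ham) ha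
      have hev := ((hPc.comp ((continuous_const (y := a)).prodMk continuous_id)).tendsto e₀).mono_left
        (nhdsWithin_le_nhds (s := Set.Icc 0 (1/10))) |>.eventually (eventually_gt_nhds hlt)
      filter_upwards [hev, self_mem_nhdsWithin] with e h1 he
      by_contra hcon
      rcases (not_lt.1 hcon).lt_or_eq with h2 | h2
      · have := diff_lt hh0 hh (heabs he) (habs ham) (habs (hγ1 e he)) h2
        have h3 := hγ2 e he
        simp only [hP, Function.comp_apply, id_eq] at h1 h3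
        linarith
      · have h3 := hγ2 e he
        rw [← h2] at h3
        simp only [hP, Function.comp_apply, id_eq] at h1 h3
        linarith
  have h0 : Q (γ 0) 0 ≤ A + B := by
    have hm : (0:ℝ) ∈ Set.Icc (0:ℝ) (1/10) := by norm_num
    obtain ⟨f1, f2⟩ := flat_means (h := h) (habs (hγ1 0 hm))
    have hd := hγ2 0 hm
    simp only [hP, hQ] at hd ⊢
    rw [f2]
    rw [f1] at hd
    have hpos : 0 < cos (2 * γ 0) :=
      cos_pos_of_mem_Ioo ⟨by linarith [(hγ1 0 hm).1, pi_gt_three],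
        by linarith [(hγ1 0 hm).2, pi_gt_three]⟩
    have hs : 1 / cos (2 * γ 0) ^ 2 = 1 + tan (2 * γ 0) ^ 2 := by
      rw [tan_eq_sin_div_cos]; field_simp; rw [cos_sq_add_sin_sq]
    have ht : tan (2 * γ 0) ^ 2 ≤ (1/1000) ^ 2 := by
      rw [sq_le_sq, abs_le]; norm_num; constructor <;> linarith
    have : (2 / cos (2 * γ 0)) ^ 2 ≤ (A + B) ^ 2 := by
      rw [div_pow, show (2:ℝ) ^ 2 / cos (2 * γ 0) ^ 2 = 4 * (1 / cos (2 * γ 0) ^ 2) by ring, hs]
      nlinarith
    exact le_of_pow_le_pow_left₀ two_ne_zero (by linarith) this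
  have h1 : A + B ≤ Q (γ (1/10)) (1/10) := by
    have hm : (1/10:ℝ) ∈ Set.Icc (0:ℝ) (1/10) := by norm_num
    have := sum_ge hh0 hh (habs (hγ1 _ hm)) (heabs hm)
    simp only [hQ]
    linarith
  obtain ⟨e, he, hQe⟩ := intermediate_value_Icc (by norm_num : (0:ℝ) ≤ 1/10)
    (hQc.comp_continuousOn (hcont.prodMk continuousOn_id)) ⟨h0, h1⟩
  have h3 := hγ2 e he
  simp only [hP, hQ, Function.comp_apply, id_eq] at h3 hQe
  exact ⟨γ e, e, habs (hγ1 e he), heabs he, by linarith, by linarith⟩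

end P205.Tori.Hopf
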