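import Vale.Agent.P205.Tori.Interfaces
import Vale.Agent.P205.Tori.HopfShape

/-!
P205, tori, module Hopf: flat tori in the unit sphere with the needed periods.

`Φ = (cos f e^{i (y + ψ)}, sin f e^{i (y + χ)})`, `f = π/4 + c + e sin (h x)`, with
`ψ' = D tan f`, `χ' = - D cot f`, `D = √(1 - f'²)`.
-/

namespace P205.Tori.Hopf

open Real

/-- The profile. -/
noncomputable def prof (h c e x : ℝ) : ℝ := π / 4 + (c + e * sin (h * x))

/-- The first phase. -/
noncomputable def psi (h c e x : ℝ) : ℝ := ∫ t in (0:ℝ)..x, gp h c e (h * t)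

/-- The negated second phase. -/
noncomputable def chi (h c e x : ℝ) : ℝ := ∫ t in (0:ℝ)..x, gm h c e (h * t)

/-- The flat torus. -/
noncomputable def tor (h c e : ℝ) (z : ℝ × ℝ) : R4 :=
  WithLp.toLp 2 ![cos (prof h c e z.1) * cos (z.2 + psi h c e z.1),
    cos (prof h c e z.1) * sin (z.2 + psi h c e z.1),
    sin (prof h c e z.1) * cos (z.2 - chi h c e z.1),
    sin (prof h c e z.1) * sin (z.2 - chi h c e z.1)]

theorem hasDerivAt_psi (h c e x : ℝ) : HasDerivAt (psi h c e) (gp h c e (h * x)) x :=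
  ((continuous_gp₁ h c e).comp (continuous_const_mul h)).integral_hasStrictDerivAt 0 x |>.hasDerivAt

theorem hasDerivAt_chi (h c e x : ℝ) : HasDerivAt (chi h c e) (gm h c e (h * x)) x :=
  ((continuous_gm₁ h c e).comp (continuous_const_mul h)).integral_hasStrictDerivAt 0 x |>.hasDerivAt

theorem dfac_inner_pos {h e : ℝ} (hh0 : 0 ≤ h) (hh : h ≤ 1/4) (he : |e| ≤ 1/10) (θ : ℝ) :
    0 < 1 - (h * e * cos θ) ^ 2 := by
  have h1 : |h * e * cos θ| ≤ 1/4 * (1/10) * 1 := by
    rw [abs_mul, abs_mul, abs_of_nonneg hh0]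
    exact mul_le_mul (mul_le_mul hh he (abs_nonneg _) (by norm_num)) (abs_cos_le_one θ)
      (abs_nonneg _) (by norm_num)
  have h2 : (h * e * cos θ) ^ 2 ≤ (1/4 * (1/10) * 1) ^ 2 := by
    rw [← sq_abs]; exact pow_le_pow_left₀ (abs_nonneg _) h1 2
  linarith [show (1/4 * (1/10) * 1 : ℝ) ^ 2 < 1 by norm_num]

theorem contDiff_slopes {h c e : ℝ} (hh0 : 0 ≤ h) (hh : h ≤ 1/4) (hc : |c| ≤ 1/5)
    (he : |e| ≤ 1/10) :
    ContDiff ℝ (⊤ : ℕ∞) (gp h c e) ∧ ContDiff ℝ (⊤ : ℕ∞) (gm h c e) := by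
  have hd : ContDiff ℝ (⊤ : ℕ∞) (dfac h e) :=
    ContDiff.sqrt (by fun_prop) fun θ => (dfac_inner_pos hh0 hh he θ).ne'
  have ha : ContDiff ℝ (⊤ : ℕ∞) (ang c e) := by
    rw [show ang c e = fun θ => 2 * (c + e * sin θ) from funext (ang_eq hc he)]
    fun_prop
  exact ⟨(hd.mul (contDiff_const.add ha.sin)).div ha.cos fun θ => (cos_ang_pos c e θ).ne',
    (hd.mul (contDiff_const.sub ha.sin)).div ha.cos fun θ => (cos_ang_pos c e θ).ne'⟩

theorem contDiff_phase {h c e : ℝ} (hh0 : 0 ≤ h) (hh : h ≤ 1/4) (hc : |c| ≤ 1/5)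
    (he : |e| ≤ 1/10) :
    ContDiff ℝ (⊤ : ℕ∞) (psi h c e) ∧ ContDiff ℝ (⊤ : ℕ∞) (chi h c e) := by
  obtain ⟨h1, h2⟩ := contDiff_slopes hh0 hh hc he
  refine ⟨contDiff_infty_iff_deriv.2 ⟨fun x => (hasDerivAt_psi h c e x).differentiableAt, ?_⟩,
    contDiff_infty_iff_deriv.2 ⟨fun x => (hasDerivAt_chi h c e x).differentiableAt, ?_⟩⟩
  · rw [funext fun x => (hasDerivAt_psi h c e x).deriv]
    exact h1.comp (contDiff_const.mul contDiff_id)
  · rw [funext fun x => (hasDerivAt_chi h c e x).deriv]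
    exact h2.comp (contDiff_const.mul contDiff_id)

theorem contDiff_tor {h c e : ℝ} (hh0 : 0 ≤ h) (hh : h ≤ 1/4) (hc : |c| ≤ 1/5) (he : |e| ≤ 1/10) :
    ContDiff ℝ (⊤ : ℕ∞) (tor h c e) := by
  obtain ⟨h1, h2⟩ := contDiff_phase hh0 hh hc he
  have hf : ContDiff ℝ (⊤ : ℕ∞) fun z : ℝ × ℝ => prof h c e z.1 := by unfold prof; fun_prop
  have hp : ContDiff ℝ (⊤ : ℕ∞) fun z : ℝ × ℝ => z.2 + psi h c e z.1 :=
    contDiff_snd.add (h1.comp contDiff_fst)
  have hq : ContDiff ℝ (⊤ : ℕ∞) fun z : ℝ × ℝ => z.2 - chi h c e z.1 :=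
    contDiff_snd.sub (h2.comp contDiff_fst)
  refine contDiff_euclidean.2 fun i => ?_
  fin_cases i
  · exact hf.cos.mul hp.cos
  · exact hf.cos.mul hp.sin
  · exact hf.sin.mul hq.cos
  · exact hf.sin.mul hq.sin

theorem norm_tor (h c e : ℝ) (z : ℝ × ℝ) : ‖tor h c e z‖ = 1 := by
  have h2 : ‖tor h c e z‖ ^ 2 = 1 := by
    rw [EuclideanSpace.norm_sq_eq, Fin.sum_univ_four]
    simp only [tor, Real.norm_eq_abs, sq_abs, Matrix.cons_val_zero, Matrix.cons_val_one,
      Matrix.cons_val]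
    linear_combination cos (prof h c e z.1) ^ 2 * cos_sq_add_sin_sq (z.2 + psi h c e z.1)
      + sin (prof h c e z.1) ^ 2 * cos_sq_add_sin_sq (z.2 - chi h c e z.1)
      + cos_sq_add_sin_sq (prof h c e z.1)
  exact (pow_eq_one_iff_of_nonneg (norm_nonneg _) two_ne_zero).1 h2

/-- The pullback metric, from the three scalar identities. -/
theorem metric_alg {D F sa ca C S p q : ℝ} (hca : ca ≠ 0) (h1 : sa ^ 2 + ca ^ 2 = 1)
    (hD : D ^ 2 + F ^ 2 = 1) (hC : C ^ 2 = (1 - sa) / 2) (hS : S ^ 2 = (1 + sa) / 2)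
    (hp : p = D * (1 + sa) / ca) (hq : q = D * (1 - sa) / ca) (x1 x2 y1 y2 : ℝ) :
    F * x1 * (F * y1) + C ^ 2 * ((x2 + p * x1) * (y2 + p * y1))
      + S ^ 2 * ((x2 - q * x1) * (y2 - q * y1)) = x1 * y1 + x2 * y2 := by
  have k1 : C ^ 2 * p - S ^ 2 * q = 0 := by rw [hC, hS, hp, hq]; ring
  have k2 : C ^ 2 * p ^ 2 + S ^ 2 * q ^ 2 = D ^ 2 := by
    rw [hC, hS, hp, hq]
    field_simp
    linear_combination (-2 * D ^ 2) * h1
  linear_combination (x1 * y1) * k2 + (x1 * y2 + x2 * y1) * k1 + (x2 * y2) * hC + (x2 * y2) * hS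
    + (x1 * y1) * hD

theorem metric_tor {h c e : ℝ} (hh0 : 0 ≤ h) (hh : h ≤ 1/4) (hc : |c| ≤ 1/5) (he : |e| ≤ 1/10)
    (z w w' : ℝ × ℝ) :
    inner ℝ (fderiv ℝ (tor h c e) z w) (fderiv ℝ (tor h c e) z w') = dot w w' := by
  have hdiff : DifferentiableAt ℝ (tor h c e) z :=
    (contDiff_tor hh0 hh hc he).differentiable (by simp) z
  have hF : HasDerivAt (prof h c e) (h * e * cos (h * z.1)) z.1 :=
    ((((hasDerivAt_id z.1).const_mul h).sin.const_mul e).const_add c).const_add (π / 4)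
      |>.congr_deriv (by simp; ring)
  set C := cos (prof h c e z.1) with hC
  set S := sin (prof h c e z.1) with hS
  set P := z.2 + psi h c e z.1 with hP
  set R := z.2 - chi h c e z.1 with hR
  set F := h * e * cos (h * z.1)
  set p := gp h c e (h * z.1)
  set q := gm h c e (h * z.1)
  set L : ℝ × ℝ → Fin 4 → ℝ := fun u =>
    ![-S * (F * u.1) * cos P + C * (-sin P * (u.2 + p * u.1)),
      -S * (F * u.1) * sin P + C * (cos P * (u.2 + p * u.1)),
      C * (F * u.1) * cos R + S * (-sin R * (u.2 - q * u.1)),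
      C * (F * u.1) * sin R + S * (cos R * (u.2 - q * u.1))] with hL
  have hfd : ∀ u, fderiv ℝ (tor h c e) z u = WithLp.toLp 2 (L u) := by
    intro u
    rw [← hdiff.lineDeriv_eq_fderiv]
    refine HasDerivAt.deriv ?_
    suffices hpi : ∀ i, HasDerivAt (fun t : ℝ => WithLp.ofLp (tor h c e (z + t • u)) i) (L u i) 0 from
      ((PiLp.hasFDerivAt_toLp (𝕜 := ℝ) 2 (fun i => WithLp.ofLp (tor h c e (z + (0:ℝ) • u)) i)).comp_hasDerivAt
        (0:ℝ) (hasDerivAt_pi.2 hpi) :)
    intro i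
    have l1 : HasDerivAt (fun t : ℝ => z.1 + t * u.1) u.1 0 := by
      simpa using ((hasDerivAt_id (0:ℝ)).mul_const u.1).const_add z.1
    have l2 : HasDerivAt (fun t : ℝ => z.2 + t * u.2) u.2 0 := by
      simpa using ((hasDerivAt_id (0:ℝ)).mul_const u.2).const_add z.2
    have f1 := hF.comp_of_eq (0:ℝ) l1 (by simp)
    have p1 := l2.add ((hasDerivAt_psi h c e z.1).comp_of_eq (0:ℝ) l1 (by simp))
    have q1 := l2.sub ((hasDerivAt_chi h c e z.1).comp_of_eq (0:ℝ) l1 (by simp))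
    fin_cases i
    · refine ((f1.cos.mul p1.cos).congr_deriv ?_).congr_of_eventuallyEq
        (Filter.Eventually.of_forall fun t => by simp [tor])
      simp [hL, hC, hS, hP, F, p]
    · refine ((f1.cos.mul p1.sin).congr_deriv ?_).congr_of_eventuallyEq
        (Filter.Eventually.of_forall fun t => by simp [tor])
      simp [hL, hC, hS, hP, F, p]
    · refine ((f1.sin.mul q1.cos).congr_deriv ?_).congr_of_eventuallyEq
        (Filter.Eventually.of_forall fun t => by simp [tor])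
      simp [hL, hC, hS, hR, F, q]
    · refine ((f1.sin.mul q1.sin).congr_deriv ?_).congr_of_eventuallyEq
        (Filter.Eventually.of_forall fun t => by simp [tor])
      simp [hL, hC, hS, hR, F, q]
  rw [hfd, hfd, PiLp.inner_apply, Fin.sum_univ_four]
  simp only [hL, RCLike.inner_apply, conj_trivial, Matrix.cons_val_zero, Matrix.cons_val_one,
    Matrix.cons_val]
  have ha := ang_eq hc he (h * z.1)
  have key := metric_alg (D := dfac h e (h * z.1)) (F := F) (C := C) (S := S) (p := p) (q := q)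
    (cos_ang_pos c e (h * z.1)).ne' (sin_sq_add_cos_sq (ang c e (h * z.1))) ?_ ?_ ?_ rfl rfl
    w.1 w.2 w'.1 w'.2
  · rw [dot]
    linear_combination key + (S ^ 2 * (F * w.1) * (F * w'.1) + C ^ 2 * (w.2 + p * w.1) * (w'.2 + p * w'.1))
        * cos_sq_add_sin_sq P
      + (C ^ 2 * (F * w.1) * (F * w'.1) + S ^ 2 * (w.2 - q * w.1) * (w'.2 - q * w'.1))
        * cos_sq_add_sin_sq R
      + (F * w.1) * (F * w'.1) * cos_sq_add_sin_sq (prof h c e z.1)
  · rw [dfac, sq_sqrt (dfac_inner_pos hh0 hh he _).le]; ring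
  · rw [hC, cos_sq, prof, ha,
      show 2 * (π / 4 + (c + e * sin (h * z.1))) = 2 * (c + e * sin (h * z.1)) + π / 2 by ring,
      cos_add_pi_div_two]
    ring
  · rw [hS, sin_sq, cos_sq, prof, ha,
      show 2 * (π / 4 + (c + e * sin (h * z.1))) = 2 * (c + e * sin (h * z.1)) + π / 2 by ring,
      cos_add_pi_div_two]
    ring

theorem periodic_gp (h c e : ℝ) : Function.Periodic (gp h c e) (2 * π) := fun θ => by
  simp [gp, dfac, ang]

theorem periodic_gm (h c e : ℝ) : Function.Periodic (gm h c e) (2 * π) := fun θ => by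
  simp [gm, dfac, ang]

/-- A primitive of a periodic function shifts by the mean times the period. -/
theorem primitive_shift {g : ℝ → ℝ} (hg : Continuous g) (hper : Function.Periodic g (2 * π))
    {h : ℝ} (hh : h ≠ 0) (x : ℝ) :
    (∫ t in (0:ℝ)..(x + 2 * π / h), g (h * t))
      = (∫ t in (0:ℝ)..x, g (h * t)) + (∫ θ in (0:ℝ)..2 * π, g θ) / h := by
  have hc : Continuous fun t => g (h * t) := hg.comp (continuous_const_mul h)
  rw [← intervalIntegral.integral_add_adjacent_intervals (hc.intervalIntegrable 0 x)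
    (hc.intervalIntegrable x _)]
  congr 1
  rw [intervalIntegral.integral_comp_mul_left g hh, smul_eq_mul,
    show h * (x + 2 * π / h) = h * x + 2 * π by field_simp,
    hper.intervalIntegral_add_eq (h * x) 0, zero_add]
  ring

theorem periodic_tor {h c e Y : ℝ} (hh : h ≠ 0) {i j : ℤ}
    (hi : Y + 2 * π * Ip h c e / h = 2 * π * i) (hj : Y - 2 * π * Im h c e / h = 2 * π * j) :
    Periodic2 (tor h c e) (0, 2 * π) (2 * π / h, Y) := by
  intro z
  constructor
  · have a1 : z.2 + 2 * π + psi h c e z.1 = z.2 + psi h c e z.1 + 2 * π := by ring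
    have a2 : z.2 + 2 * π - chi h c e z.1 = z.2 - chi h c e z.1 + 2 * π := by ring
    simp [tor, a1, a2]
  · have e1 : prof h c e (z.1 + 2 * π / h) = prof h c e z.1 := by
      rw [prof, prof, show h * (z.1 + 2 * π / h) = h * z.1 + 2 * π by field_simp, sin_add_two_pi]
    have hp : (0:ℝ) < 2 * π := two_pi_pos
    have e2 : z.2 + Y + psi h c e (z.1 + 2 * π / h) = z.2 + psi h c e z.1 + i * (2 * π) := by
      rw [psi, psi, primitive_shift (continuous_gp₁ h c e) (periodic_gp h c e) hh]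
      rw [Ip, mul_div_cancel₀ _ hp.ne'] at hi
      linarith
    have e3 : z.2 + Y - chi h c e (z.1 + 2 * π / h) = z.2 - chi h c e z.1 + j * (2 * π) := by
      rw [chi, chi, primitive_shift (continuous_gm₁ h c e) (periodic_gm h c e) hh]
      rw [Im, mul_div_cancel₀ _ hp.ne'] at hj
      linarith
    simp only [tor, Prod.fst_add, Prod.snd_add, e1, e2, e3, cos_add_int_mul_two_pi,
      sin_add_int_mul_two_pi]

/-- Every shape near `(a₀, b₀)` for every large winding. -/
theorem hopf : HopfStmt := by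
  intro a₀ b₀ hb₀
  obtain ⟨k₀, hk₀⟩ := exists_nat_ge (1000 / b₀ + 1)
  refine ⟨b₀ / 2, by positivity, k₀, fun k hk a b _ hb => ?_⟩
  have hb' : b₀ / 2 < b := by linarith [(abs_lt.1 hb).1]
  have hkR : 1000 / b₀ < k := by
    have : (k₀ : ℝ) ≤ k := by exact_mod_cast hk
    linarith
  have hk0 : (0:ℝ) < k := lt_trans (by positivity) hkR
  set K := (k : ℝ) * b with hKdef
  have hK : 500 < K := by
    rw [div_lt_iff₀ hb₀] at hkR
    rw [hKdef]
    nlinarith [mul_lt_mul_of_pos_left hb' hk0]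
  have hb0 : 0 < b := by linarith
  set i := ⌈(1002/1000 + a / b) * K⌉ with hi
  set m := ⌈(1002/1000 - a / b) * K⌉ with hm
  have rng : ∀ x : ℝ, ∀ n : ℤ, n = ⌈(1002/1000 + x) * K⌉ →
      (n : ℝ) / K - x ∈ Set.Icc (1002/1000 : ℝ) (1004/1000) := by
    intro x n hn
    have h1 := Int.le_ceil ((1002/1000 + x) * K)
    have h2 := Int.ceil_lt_add_one ((1002/1000 + x) * K)
    rw [← hn] at h1 h2
    have h3 : (1002/1000 + x) ≤ (n : ℝ) / K := by rw [le_div_iff₀ (by linarith)]; exact h1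
    have h4 : (n : ℝ) / K ≤ 1002/1000 + x + 1 / K := by
      rw [div_le_iff₀ (by linarith), add_mul, div_mul_cancel₀ _ (by linarith)]; linarith
    have h5 : 1 / K ≤ 2/1000 := by rw [div_le_iff₀ (by linarith)]; linarith
    exact ⟨by linarith, by linarith⟩
  have hh : (1 : ℝ) / K ≤ 1/4 := by rw [div_le_iff₀ (by linarith)]; linarith
  obtain ⟨c, e, hc, he, hIp, hIm⟩ := shape_cover (h := 1 / K) (by positivity) hh
    (rng (a / b) i hi) (rng (-(a / b)) m (by rw [hm]; rfl))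
  refine ⟨tor (1 / K) c e, contDiff_tor (by positivity) hh hc he, norm_tor _ _ _, ?_,
    metric_tor (by positivity) hh hc he⟩
  have := periodic_tor (h := 1 / K) (c := c) (e := e) (Y := 2 * π * k * a) (i := i) (j := -m)
    (by positivity) (by rw [hIp]; field_simp; rw [hKdef]; ring)
    (by rw [hIm]; push_cast; field_simp; rw [hKdef]; ring)
  convert this using 2
  rw [hKdef]; field_simp

end P205.Tori.Hopf
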