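import Vale.Agent.P205.Tori.Develop

/-!
P205, tori: assembly of the immersion.
-/

namespace P205.Tori

open Filter Topology

theorem inner_fderiv_of_norm_one {Φ : ℝ × ℝ → R4} (hΦ : Differentiable ℝ Φ)
    (h1 : ∀ z, ‖Φ z‖ = 1) (z w : ℝ × ℝ) : inner ℝ (Φ z) (fderiv ℝ Φ z w) = 0 := by
  have e : (fun y => inner ℝ (Φ y) (Φ y)) = fun _ => (1 : ℝ) :=
    funext fun y => by rw [real_inner_self_eq_norm_sq, h1, one_pow]
  have h := fderiv_inner_apply ℝ (hΦ z) (hΦ z) w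
  rw [e, fderiv_const_apply, zero_apply, real_inner_comm (Φ z)] at h
  linarith

/-- The coordinates in the orthonormal frame whose second vector is along `d`. -/
noncomputable def frame (d w : ℝ × ℝ) : ℝ × ℝ :=
  ((d.1 * w.2 - d.2 * w.1) / Real.sqrt (dot d d), dot d w / Real.sqrt (dot d d))

theorem dot_self_nonneg (d : ℝ × ℝ) : 0 ≤ dot d d := by
  unfold dot; nlinarith [sq_nonneg d.1, sq_nonneg d.2]

theorem dot_frame {d : ℝ × ℝ} (h : 0 < dot d d) (w w' : ℝ × ℝ) :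
    dot (frame d w) (frame d w') = dot w w' := by
  have hs := Real.mul_self_sqrt h.le
  have hne : Real.sqrt (dot d d) ≠ 0 := (Real.sqrt_pos.2 h).ne'
  simp only [frame]
  generalize Real.sqrt (dot d d) = s at hs hne ⊢
  simp only [dot] at hs ⊢
  field_simp
  linear_combination -(w.1 * w'.1 + w.2 * w'.2) * hs

/-- The scaled frame as a linear map. -/
noncomputable def frameL (x : ℝ) (d : ℝ × ℝ) : ℝ × ℝ →L[ℝ] ℝ × ℝ :=
  ((x / Real.sqrt (dot d d)) • (d.1 • ContinuousLinearMap.snd ℝ ℝ ℝ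
      - d.2 • ContinuousLinearMap.fst ℝ ℝ ℝ)).prod
    ((x / Real.sqrt (dot d d)) • (d.1 • ContinuousLinearMap.fst ℝ ℝ ℝ
      + d.2 • ContinuousLinearMap.snd ℝ ℝ ℝ))

theorem frameL_apply (x : ℝ) (d w : ℝ × ℝ) : frameL x d w = x • frame d w := by
  simp [frameL, frame, dot]
  constructor <;> ring

/-- The immersion from its three ingredients. -/
theorem immersion_of {l₁ l₂ d₁ d₂ : ℝ × ℝ} {v r : ℝ × ℝ → ℝ} {Z : ℝ × ℝ → ℝ × ℝ}
    {Φ : ℝ × ℝ → R4} {x : ℝ} {k : ℕ} {a b : ℝ} (hx : 0 < x) (hd : 0 < dot d₁ d₁)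
    (hk : x * Real.sqrt (dot d₁ d₁) = 2 * Real.pi * k)
    (ha : a = dot d₁ d₂ / dot d₁ d₁) (hb : b = (d₁.1 * d₂.2 - d₁.2 * d₂.1) / dot d₁ d₁)
    (hv : ContDiff ℝ (⊤ : ℕ∞) v) (hvp : Periodic2 v l₁ l₂)
    (hr : ContDiff ℝ (⊤ : ℕ∞) r) (hrp : Periodic2 r l₁ l₂)
    (hZ : ContDiff ℝ (⊤ : ℕ∞) Z) (hZp : ∀ z, Z (z + l₁) = Z z + d₁ ∧ Z (z + l₂) = Z z + d₂)
    (hZg : ∀ z w w', dot (fderiv ℝ Z z w) (fderiv ℝ Z z w') = Real.exp (-2 * r z) * dot w w'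
      - 1 / x ^ 2 * fderiv ℝ (v + r) z w * fderiv ℝ (v + r) z w')
    (hΦ : ContDiff ℝ (⊤ : ℕ∞) Φ) (h1 : ∀ z, ‖Φ z‖ = 1)
    (hΦp : Periodic2 Φ (0, 2 * Real.pi) (2 * Real.pi * k * b, 2 * Real.pi * k * a))
    (hΦg : ∀ z w w', inner ℝ (fderiv ℝ Φ z w) (fderiv ℝ Φ z w') = dot w w') :
    ∃ F : ℝ × ℝ → R4, ContDiff ℝ (⊤ : ℕ∞) F ∧ Periodic2 F l₁ l₂ ∧
      ∀ z w w', inner ℝ (fderiv ℝ F z w) (fderiv ℝ F z w') = Real.exp (2 * v z) * dot w w' := by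
  set L := frameL x d₁ with hL
  have hn : Real.sqrt (dot d₁ d₁) * Real.sqrt (dot d₁ d₁) = dot d₁ d₁ :=
    Real.mul_self_sqrt hd.le
  have hn0 : Real.sqrt (dot d₁ d₁) ≠ 0 := (Real.sqrt_pos.2 hd).ne'
  have hL1 : L d₁ = (k : ℕ) • ((0 : ℝ), 2 * Real.pi) := by
    rw [hL, frameL_apply, ← Nat.cast_smul_eq_nsmul ℝ, frame, Prod.smul_mk, Prod.smul_mk]
    simp only [smul_eq_mul, Prod.mk.injEq]
    constructor
    · ring
    · field_simp; linear_combination Real.sqrt (dot d₁ d₁) * hk - x * hn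
  have hL2 : L d₂ = (2 * Real.pi * k * b, 2 * Real.pi * k * a) := by
    rw [hL, frameL_apply, frame, Prod.smul_mk]
    simp only [smul_eq_mul, Prod.mk.injEq, ha, hb, ← hk]
    generalize Real.sqrt (dot d₁ d₁) = s at hn0 hn ⊢
    rw [← hn]
    constructor <;> field_simp
  refine ⟨fun z => (Real.exp ((v + r) z) / x) • Φ (L (Z z)), ?_, fun z => ?_, fun z w w' => ?_⟩
  · exact (((hv.add hr).exp).div_const x).smul (hΦ.comp (L.contDiff.comp hZ))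
  · have p : Function.Periodic Φ ((k : ℕ) • ((0 : ℝ), 2 * Real.pi)) :=
      Function.Periodic.nsmul (fun y => (hΦp y).1) k
    constructor
    · simp only [Pi.add_apply, (hvp z).1, (hrp z).1, (hZp z).1, map_add, hL1, p _]
    · simp only [Pi.add_apply, (hvp z).2, (hrp z).2, (hZp z).2, map_add, hL2, (hΦp _).2]
  have hu : HasFDerivAt (v + r) (fderiv ℝ (v + r) z) z :=
    (((hv.add hr).differentiable (by simp)) z).hasFDerivAt
  have hZd := ((hZ.differentiable (by simp)) z).hasFDerivAt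
  have hΦd := ((hΦ.differentiable (by simp)) (L (Z z))).hasFDerivAt
  have hF : HasFDerivAt (fun z => (Real.exp ((v + r) z) / x) • Φ (L (Z z))) _ z :=
    ((hu.exp).mul_const (1 / x)).congr_of_eventuallyEq
      (Filter.Eventually.of_forall fun y => div_eq_mul_one_div _ _) |>.smul
      (hΦd.comp z (L.hasFDerivAt.comp z hZd))
  rw [hF.fderiv]
  have o : ∀ y, inner ℝ (fderiv ℝ Φ (L (Z z)) y) (Φ (L (Z z))) = 0 := fun y => by
    rw [real_inner_comm]; exact inner_fderiv_of_norm_one (hΦ.differentiable (by simp)) h1 _ _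
  simp only [hL, frameL_apply] at o
  simp only [add_apply, smul_apply, ContinuousLinearMap.smulRight_apply,
    ContinuousLinearMap.comp_apply, Function.comp_apply, smul_eq_mul, inner_add_left,
    inner_add_right, inner_smul_left, inner_smul_right, hΦg, o,
    inner_fderiv_of_norm_one (hΦ.differentiable (by simp)) h1, real_inner_self_eq_norm_sq, h1,
    conj_trivial, hL, frameL_apply]
  have key := hZg z w w'
  rw [← dot_frame hd (fderiv ℝ Z z w) (fderiv ℝ Z z w')] at key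
  have he : Real.exp ((v + r) z) ^ 2 * Real.exp (-(2 * r z)) = Real.exp (2 * v z) := by
    rw [sq, ← Real.exp_add, ← Real.exp_add]; simp; ring
  simp only [dot, Prod.smul_fst, Prod.smul_snd, smul_eq_mul] at key ⊢
  field_simp at key ⊢
  linear_combination Real.exp ((v + r) z) ^ 2 * key + x ^ 2 * (w.1 * w'.1 + w.2 * w'.2) * he

/-- The conformally flat case from the analytic and the Hopf module. -/
theorem goal_of (hS : SolveStmt) (hH : HopfStmt) : GoalStmt := by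
  intro l₁ l₂ hl v hv hvp
  wlog hpos : 0 < l₁.1 * l₂.2 - l₁.2 * l₂.1 generalizing l₁ l₂ with H
  · obtain ⟨F, h1, h2, h3⟩ := H l₂ l₁ (by intro h; exact hl (by linarith))
      (fun z => ⟨(hvp z).2, (hvp z).1⟩)
      (by rcases lt_trichotomy (l₁.1 * l₂.2 - l₁.2 * l₂.1) 0 with h | h | h
          · linarith
          · exact absurd h hl
          · exact absurd h hpos)
    exact ⟨F, h1, fun z => ⟨(h2 z).2, (h2 z).1⟩, h3⟩
  obtain ⟨ε₀, hε₀, r, hr0, hr, c0, c1, c2⟩ := hS l₁ l₂ hl v hv hvp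
  obtain ⟨ε₁, hε₁, hε₁0, d₁, d₂, hd₁, hd₂, e₁, e₂, hZ⟩ :=
    develop l₁ l₂ hpos v hv hvp ε₀ hε₀ r hr0 hr c0 c1 c2
  have hN0 : 0 < dot l₁ l₁ := by
    refine lt_of_le_of_ne (dot_self_nonneg l₁) fun h => hl ?_
    have a1 : l₁.1 = 0 := by unfold dot at h; nlinarith [sq_nonneg l₁.1, sq_nonneg l₁.2]
    have a2 : l₁.2 = 0 := by unfold dot at h; nlinarith [sq_nonneg l₁.1, sq_nonneg l₁.2]
    rw [a1, a2]; ring
  obtain ⟨δ, hδ, k₀, hk₀⟩ := hH (dot l₁ l₂ / dot l₁ l₁)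
    ((l₁.1 * l₂.2 - l₁.2 * l₂.1) / dot l₁ l₁) (div_pos hpos hN0)
  have f1 := hd₁.fst
  have f2 := hd₁.snd
  have g1 := hd₂.fst
  have g2 := hd₂.snd
  have cN : ContinuousOn (fun ε => dot (d₁ ε) (d₁ ε)) (Set.Icc 0 ε₁) := (f1.mul f1).add (f2.mul f2)
  have cP : ContinuousOn (fun ε => dot (d₁ ε) (d₂ ε)) (Set.Icc 0 ε₁) := (f1.mul g1).add (f2.mul g2)
  have cQ : ContinuousOn (fun ε => (d₁ ε).1 * (d₂ ε).2 - (d₁ ε).2 * (d₂ ε).1) (Set.Icc 0 ε₁) :=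
    (f1.mul g2).sub (f2.mul g1)
  have h0 : (0 : ℝ) ∈ Set.Icc 0 ε₁ := ⟨le_rfl, hε₁.le⟩
  have hne : dot (d₁ 0) (d₁ 0) ≠ 0 := by rw [e₁]; exact hN0.ne'
  have ev : ∀ᶠ ε in 𝓝[Set.Icc 0 ε₁] (0 : ℝ), dot l₁ l₁ / 2 < dot (d₁ ε) (d₁ ε) ∧
      |dot (d₁ ε) (d₂ ε) / dot (d₁ ε) (d₁ ε) - dot l₁ l₂ / dot l₁ l₁| < δ ∧
      |((d₁ ε).1 * (d₂ ε).2 - (d₁ ε).2 * (d₂ ε).1) / dot (d₁ ε) (d₁ ε)
        - (l₁.1 * l₂.2 - l₁.2 * l₂.1) / dot l₁ l₁| < δ := by
    refine ((cN 0 h0).eventually_const_lt ?_).and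
      (((((cP 0 h0).div (cN 0 h0) hne).sub continuousWithinAt_const).abs.eventually_lt_const ?_).and
        ((((cQ 0 h0).div (cN 0 h0) hne).sub continuousWithinAt_const).abs.eventually_lt_const ?_))
    · simp only [e₁]; linarith
    · simp [e₁, e₂, hδ]
    · simp [e₁, e₂, hδ]
  obtain ⟨η, hη, hball⟩ := Metric.mem_nhdsWithin_iff.1 ev
  obtain ⟨X, hX1, hXsmall⟩ : ∃ X : ℝ, 1 ≤ X ∧ ∀ x, X ≤ x → 1 / x ^ 2 ∈ Set.Icc 0 ε₁ ∧
      1 / x ^ 2 < η := by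
    refine ⟨1 / ε₁ + 1 / η + 1, by
      linarith [one_div_pos.2 hε₁, one_div_pos.2 hη], fun x hx => ?_⟩
    have hx1 : 1 ≤ x := by linarith [one_div_pos.2 hε₁, one_div_pos.2 hη]
    have hxx : x ≤ x ^ 2 := le_self_pow₀ hx1 two_ne_zero
    refine ⟨⟨by positivity, ?_⟩, ?_⟩
    · rw [one_div_le (by positivity) hε₁]; linarith [one_div_pos.2 hη]
    · rw [one_div_lt (by positivity) hη]; linarith [one_div_pos.2 hε₁]
  have good : ∀ x, X ≤ x → _ := fun x hx => hball (a := 1 / x ^ 2) ⟨by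
    rw [Metric.mem_ball, Real.dist_eq, sub_zero, abs_of_nonneg (by positivity)]
    exact (hXsmall x hx).2, (hXsmall x hx).1⟩
  set f : ℝ → ℝ := fun x => x * Real.sqrt (dot (d₁ (1 / x ^ 2)) (d₁ (1 / x ^ 2))) with hf
  have cf : ContinuousOn f (Set.Ici X) := by
    refine continuousOn_id.mul (Real.continuous_sqrt.comp_continuousOn (cN.comp ?_ fun x hx =>
      (hXsmall x hx).1))
    exact continuousOn_const.div (continuousOn_id.pow 2) fun x hx =>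
      pow_ne_zero 2 (lt_of_lt_of_le zero_lt_one (hX1.trans hx)).ne'
  obtain ⟨k, hk, hkf⟩ : ∃ k : ℕ, k₀ ≤ k ∧ f X ≤ 2 * Real.pi * k := by
    refine ⟨max k₀ ⌈f X / (2 * Real.pi)⌉₊, le_max_left _ _, ?_⟩
    have h : f X / (2 * Real.pi) ≤ ((max k₀ ⌈f X / (2 * Real.pi)⌉₊ : ℕ) : ℝ) :=
      (Nat.le_ceil _).trans (by exact_mod_cast le_max_right _ _)
    rw [div_le_iff₀ (by positivity)] at h
    linarith
  obtain ⟨Y, hXY, hYf⟩ : ∃ Y, X ≤ Y ∧ 2 * Real.pi * k ≤ f Y := by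
    refine ⟨max X (2 * Real.pi * k / Real.sqrt (dot l₁ l₁ / 2)), le_max_left _ _, ?_⟩
    obtain ⟨hN, -, -⟩ := good _ (le_max_left X (2 * Real.pi * k / Real.sqrt (dot l₁ l₁ / 2)))
    refine le_trans ?_ (mul_le_mul_of_nonneg_left (Real.sqrt_le_sqrt hN.le)
      (le_trans (by positivity) (le_max_right _ _)))
    have hs : 0 < Real.sqrt (dot l₁ l₁ / 2) := Real.sqrt_pos.2 (by linarith)
    calc 2 * Real.pi * k = 2 * Real.pi * k / Real.sqrt (dot l₁ l₁ / 2) * Real.sqrt (dot l₁ l₁ / 2) :=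
          (div_mul_cancel₀ _ hs.ne').symm
      _ ≤ _ := mul_le_mul_of_nonneg_right (le_max_right _ _) hs.le
  obtain ⟨x, hxI, hfx⟩ := intermediate_value_Icc hXY (cf.mono fun y hy => hy.1) ⟨hkf, hYf⟩
  obtain ⟨hN, hA, hB⟩ := good x hxI.1
  obtain ⟨Z, hZs, hZp, hZg⟩ := hZ _ (hXsmall x hxI.1).1
  obtain ⟨Φ, hΦ, h1, hΦp, hΦg⟩ := hk₀ k hk _ _ hA hB
  obtain ⟨hrs, hrp, -⟩ := hr (1 / x ^ 2)
    ⟨(hXsmall x hxI.1).1.1, (hXsmall x hxI.1).1.2.trans hε₁0⟩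
  exact immersion_of (lt_of_lt_of_le (by linarith) hxI.1) (by linarith) hfx rfl rfl hv hvp hrs hrp
    hZs hZp hZg hΦ h1 hΦp hΦg

/-- Every metric on the torus, given uniformization. -/
theorem metricGoal_of (hG : GoalStmt) (hU : UniformStmt) : MetricGoalStmt := by
  intro g
  obtain ⟨l₁, l₂, v, Z, hl, hv, hvp, hZ, -, hZp, hZg⟩ := hU g
  obtain ⟨F, hF, hFp, hFg⟩ := hG l₁ l₂ hl v hv hvp
  refine ⟨F ∘ Z, hF.comp hZ, fun z => ?_, fun z w w' => ?_⟩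
  · simp only [Function.comp_apply, (hZp z).1, (hZp z).2]
    exact hFp _
  · rw [fderiv_comp z ((hF.differentiable (by simp)) _) ((hZ.differentiable (by simp)) _)]
    simp only [ContinuousLinearMap.comp_apply, hFg, hZg z w w']

end P205.Tori
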